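import Crest.Agent.R134.Data

/-!
# R134 : the core (slots)
-/

set_option autoImplicit false

universe u

namespace Crest.Agent.R134

open Crest.Agent.R95 Filter Topology

namespace Core

variable {A : Type u} [CStarAlgebra A] (T : TracialState A)

omit T in
theorem prod_unitary {I : Type} {u : I → A} (hu : ∀ i, u i ∈ unitary A) (ℓ : List I) :
    (ℓ.map u).prod ∈ unitary A := by
  apply list_prod_mem
  intro x hx
  obtain ⟨i, _, rfl⟩ := List.mem_map.1 hx
  exact hu i

omit T in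
/-- the slot identity -/
theorem prod_line {I : Type} {u : I → A} (hu : ∀ i, u i ∈ unitary A) (w : A) (f : I → A) :
    ∀ ℓ : List I, (∀ ℓ1 i ℓ2, ℓ = ℓ1 ++ i :: ℓ2 →
      f i = u i * ((ℓ2.map u).prod * w * star (ℓ2.map u).prod)) →
      (ℓ.map f).prod = (ℓ.map u).prod * w ^ ℓ.length := by
  intro ℓ
  induction ℓ with
  | nil => intro _; simp
  | cons i0 ℓ' ih =>
    intro h
    have h0 := h [] i0 ℓ' rfl
    have h1 := ih fun ℓ1 i ℓ2 e => h (i0 :: ℓ1) i ℓ2 (by rw [e]; rfl)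
    have hP := (Unitary.mem_iff.1 (prod_unitary hu ℓ')).1
    rw [List.map_cons, List.prod_cons, List.map_cons, List.prod_cons, h0, h1, List.length_cons,
      pow_succ']
    calc u i0 * ((ℓ'.map u).prod * w * star (ℓ'.map u).prod) * ((ℓ'.map u).prod * w ^ ℓ'.length)
        = u i0 * ((ℓ'.map u).prod * w * (star (ℓ'.map u).prod * (ℓ'.map u).prod) *
            w ^ ℓ'.length) := by noncomm_ring
      _ = u i0 * (ℓ'.map u).prod * (w * w ^ ℓ'.length) := by rw [hP]; noncomm_ring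

theorem fix_of_mem_W (hT : ∀ a : A, T.nrm2 a = 0 → a = 0) {α : A ≃⋆ₐ[ℂ] A} (h : Pres T α)
    {S : Set A} (hS : ∀ s ∈ S, α s = s) {x : A} (hx : x ∈ W T S) : α x = x :=
  Pres.eq_on_W hT h (Pres.refl T) hS hx

omit T in
theorem map_prod {I : Type} (α : A ≃⋆ₐ[ℂ] A) (u : I → A) (ℓ : List I) :
    α (ℓ.map u).prod = (ℓ.map fun i => α (u i)).prod := by
  induction ℓ with
  | nil => simp
  | cons i ℓ ih => simp [ih]

omit T in
theorem map_prod_eq {I : Type} (α : A ≃⋆ₐ[ℂ] A) (u : I → A) (ℓ : List I)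
    (h : ∀ i ∈ ℓ, α (u i) = u i) : α (ℓ.map u).prod = (ℓ.map u).prod := by
  rw [map_prod]
  congr 1
  exact List.map_congr_left h

/-- the automorphism of a line -/
theorem line (hT : ∀ a : A, T.nrm2 a = 0 → a = 0) {I : Type} [DecidableEq I] {N : ℕ}
    (B Fix : Set A) (u : I → A) (c : Fin N → A) (hu : ∀ i, u i ∈ unitary A)
    (hEu : ∀ i, ∀ V ∈ unitary A, V ∈ W T (B ∪ {z | ∃ j, j ≠ i ∧ z = u j} ∪ Set.range c) →
      ∃ α : A ≃⋆ₐ[ℂ] A, Pres T α ∧ Fixes α Fix ∧ (∀ j, j ≠ i → α (u j) = u j) ∧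
        (∀ k, α (c k) = c k) ∧ α (u i) = u i * V)
    (w : A) (hw : w ∈ unitary A) (hwW : w ∈ W T (Set.range c)) :
    ∀ ℓ : List I, ℓ.Nodup →
    ∃ δ : A ≃⋆ₐ[ℂ] A, Pres T δ ∧ Fixes δ Fix ∧ (∀ k, δ (c k) = c k) ∧
      (∀ j, j ∉ ℓ → δ (u j) = u j) ∧
      ∀ ℓ1 i ℓ2, ℓ = ℓ1 ++ i :: ℓ2 →
        δ (u i) = u i * ((ℓ2.map u).prod * w * star (ℓ2.map u).prod) := by
  intro ℓ
  induction ℓ with
  | nil =>
    intro _
    refine ⟨StarAlgEquiv.refl ℂ A, Pres.refl T, fun _ _ => rfl, fun _ => rfl, fun _ _ => rfl, ?_⟩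
    intro ℓ1 i ℓ2 h
    simp at h
  | cons i0 ℓ' ih =>
    intro hnd
    obtain ⟨hi0, hnd'⟩ := List.nodup_cons.1 hnd
    obtain ⟨δ, hδ, hδF, hδc, hδu, hδl⟩ := ih hnd'
    have hPu : (ℓ'.map u).prod ∈ unitary A := prod_unitary hu ℓ'
    have hPW : (ℓ'.map u).prod ∈ W T (B ∪ {z | ∃ j, j ≠ i0 ∧ z = u j} ∪ Set.range c) := by
      apply list_prod_mem
      intro x hx
      obtain ⟨i, hi, rfl⟩ := List.mem_map.1 hx
      exact subset_W T _ (Or.inl (Or.inr ⟨i, fun e => hi0 (e ▸ hi), rfl⟩))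
    have hwW' : w ∈ W T (B ∪ {z | ∃ j, j ≠ i0 ∧ z = u j} ∪ Set.range c) :=
      W_mono T Set.subset_union_right hwW
    obtain ⟨e, he, heF, heu, hec, hei⟩ := hEu i0 ((ℓ'.map u).prod * w * star (ℓ'.map u).prod)
      (mul_mem (mul_mem hPu hw) (Unitary.star_mem hPu)) (mul_mem (mul_mem hPW hwW') (star_mem hPW))
    have hew : e w = w := fix_of_mem_W T hT he (S := Set.range c)
      (by rintro _ ⟨k, rfl⟩; exact hec k) hwW
    refine ⟨δ.trans e, hδ.trans he, ?_, ?_, ?_, ?_⟩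
    · intro a ha
      rw [StarAlgEquiv.trans_apply, hδF a ha, heF a ha]
    · intro k
      rw [StarAlgEquiv.trans_apply, hδc, hec]
    · intro j hj
      rw [List.mem_cons, not_or] at hj
      rw [StarAlgEquiv.trans_apply, hδu j hj.2, heu j hj.1]
    · intro ℓ1 i ℓ2 h
      rw [StarAlgEquiv.trans_apply]
      cases ℓ1 with
      | nil =>
        simp only [List.nil_append, List.cons.injEq] at h
        obtain ⟨rfl, rfl⟩ := h
        rw [hδu _ hi0, hei]
      | cons j ℓ1 =>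
        simp only [List.cons_append, List.cons.injEq] at h
        obtain ⟨rfl, rfl⟩ := h
        have hne : ∀ j ∈ i :: ℓ2, j ≠ i0 := by
          intro j hj e
          exact hi0 (e ▸ List.mem_append_right _ hj)
        rw [hδl ℓ1 i ℓ2 rfl, map_mul, map_mul, map_mul, map_star, hew,
          map_prod_eq e u ℓ2 fun j hj => heu j (hne j (List.mem_cons_of_mem _ hj)),
          heu i (hne i List.mem_cons_self)]

/-- the automorphism of a slot -/
theorem slot (hT : ∀ a : A, T.nrm2 a = 0 → a = 0) {I : Type} [DecidableEq I] {N : ℕ}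
    (B Fix : Set A) (u : I → A) (c : Fin N → A) (hu : ∀ i, u i ∈ unitary A)
    (hEu : ∀ i, ∀ V ∈ unitary A, V ∈ W T (B ∪ {z | ∃ j, j ≠ i ∧ z = u j} ∪ Set.range c) →
      ∃ α : A ≃⋆ₐ[ℂ] A, Pres T α ∧ Fixes α Fix ∧ (∀ j, j ≠ i → α (u j) = u j) ∧
        (∀ k, α (c k) = c k) ∧ α (u i) = u i * V)
    (hEc : ∀ k, ∀ V ∈ unitary A, V ∈ W T (B ∪ Set.range u ∪ {z | ∃ l, l ≠ k ∧ z = c l}) →
      ∃ α : A ≃⋆ₐ[ℂ] A, Pres T α ∧ Fixes α Fix ∧ (∀ i, α (u i) = u i) ∧
        (∀ l, l ≠ k → α (c l) = c l) ∧ α (c k) = V * c k)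
    (k : Fin N) (w : A) (hw : w ∈ unitary A) (hwW : w ∈ W T {c k}) (ℓ : List I) (hℓ : ℓ.Nodup)
    (hwd : w ^ ℓ.length = c k) :
    ∃ (β γ : A ≃⋆ₐ[ℂ] A), Pres T β ∧ Fixes β Fix ∧ (∀ l, l ≠ k → β (c l) = c l) ∧
      (∀ j, j ∉ ℓ → β (u j) = u j) ∧
      (∀ ℓ1 i ℓ2, ℓ = ℓ1 ++ i :: ℓ2 →
        β (u i) = u i * ((ℓ2.map u).prod * γ w * star (ℓ2.map u).prod)) ∧
      β (ℓ.map u).prod = c k ∧ Pres T γ ∧ γ (c k) = star (ℓ.map u).prod * c k := by
  obtain ⟨δ, hδ, hδF, hδc, hδu, hδl⟩ := line T hT B Fix u c hu hEu w hw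
    (W_mono T (by rintro _ rfl; exact ⟨k, rfl⟩) hwW) ℓ hℓ
  have hVu : (ℓ.map u).prod ∈ unitary A := prod_unitary hu ℓ
  have hVW : (ℓ.map u).prod ∈ W T (B ∪ Set.range u ∪ {z | ∃ l, l ≠ k ∧ z = c l}) := by
    apply list_prod_mem
    intro x hx
    obtain ⟨i, hi, rfl⟩ := List.mem_map.1 hx
    exact subset_W T _ (Or.inl (Or.inr ⟨i, rfl⟩))
  obtain ⟨γ, hγ, hγF, hγu, hγc, hγk⟩ := hEc k (star (ℓ.map u).prod) (Unitary.star_mem hVu) (star_mem hVW)
  have hβl : ∀ ℓ1 i ℓ2, ℓ = ℓ1 ++ i :: ℓ2 →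
        (δ.trans γ) (u i) = u i * ((ℓ2.map u).prod * γ w * star (ℓ2.map u).prod) := by
    intro ℓ1 i ℓ2 h
    rw [StarAlgEquiv.trans_apply, hδl ℓ1 i ℓ2 h, map_mul, map_mul, map_mul, map_star,
      map_prod_eq γ u ℓ2 fun j _ => hγu j, hγu]
  refine ⟨δ.trans γ, γ, hδ.trans hγ, ?_, ?_, ?_, hβl, ?_, hγ, hγk⟩
  · intro a ha
    rw [StarAlgEquiv.trans_apply, hδF a ha, hγF a ha]
  · intro l hl
    rw [StarAlgEquiv.trans_apply, hδc, hγc l hl]
  · intro j hj
    rw [StarAlgEquiv.trans_apply, hδu j hj, hγu]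
  · rw [map_prod, prod_line hu (γ w) _ ℓ hβl, ← map_pow, hwd, hγk, ← mul_assoc,
      (Unitary.mem_iff.1 hVu).2, one_mul]

/-- trace against a processed root -/
theorem tau_mul_root (hT : ∀ a : A, T.nrm2 a = 0 → a = 0) {I : Type} {N : ℕ}
    (B Fix : Set A) (u : I → A) (c : Fin N → A) (hB : B ⊆ Fix)
    (hEc : ∀ k, ∀ V ∈ unitary A, V ∈ W T (B ∪ Set.range u ∪ {z | ∃ l, l ≠ k ∧ z = c l}) →
      ∃ α : A ≃⋆ₐ[ℂ] A, Pres T α ∧ Fixes α Fix ∧ (∀ i, α (u i) = u i) ∧
        (∀ l, l ≠ k → α (c l) = c l) ∧ α (c k) = V * c k)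
    (k : Fin N) (w : A) (hwW : w ∈ W T {c k}) (κ : ℂ)
    (hind : ∀ a ∈ W T (B ∪ Set.range u ∪ {z | ∃ l, l ≠ k ∧ z = c l}),
      T.τ (a * w) = κ * T.τ a)
    (α γ : A ≃⋆ₐ[ℂ] A) (hα : Pres T α) (hγ : Pres T γ) (hαc : α (c k) = c k) (V : A)
    (hV : V ∈ unitary A) (hVW : α V ∈ W T (B ∪ Set.range u ∪ {z | ∃ l, l ≠ k ∧ z = c l}))
    (hγk : γ (c k) = star V * c k)
    (a : A) (ha : a ∈ W T (B ∪ Set.range u ∪ {z | ∃ l, l ≠ k ∧ z = c l})) :
    T.τ (a * α (γ w)) = κ * T.τ a := by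
  have hαV : α V ∈ unitary A := by
    rw [Unitary.mem_iff, ← map_star, ← map_mul, ← map_mul, (Unitary.mem_iff.1 hV).1,
      (Unitary.mem_iff.1 hV).2, map_one]
    exact ⟨rfl, rfl⟩
  obtain ⟨γ', hγ', hγF', hγu', hγc', hγk'⟩ :=
    hEc k (star (α V)) (Unitary.star_mem hαV) (star_mem hVW)
  have h1 : (γ.trans α) w = γ' w := by
    refine Pres.eq_on_W hT (hγ.trans hα) hγ' (S := {c k}) ?_ hwW
    rintro _ rfl
    rw [StarAlgEquiv.trans_apply, hγk, map_mul, map_star, hαc, hγk']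
  have h2 : γ' a = a := by
    refine fix_of_mem_W T hT hγ' ?_ ha
    rintro s ((hs | ⟨i, rfl⟩) | ⟨l, hl, rfl⟩)
    · exact hγF' s (hB hs)
    · exact hγu' i
    · exact hγc' l hl
  rw [StarAlgEquiv.trans_apply] at h1
  have h3 : γ' (a * w) = a * γ' w := by rw [map_mul, h2]
  calc T.τ (a * α (γ w)) = T.τ (γ' (a * w)) := by rw [h1, h3]
    _ = κ * T.τ a := by rw [hγ', hind a ha]

/-- all the slots -/
theorem slots (hT : ∀ a : A, T.nrm2 a = 0 → a = 0) {I : Type} [DecidableEq I] {N : ℕ}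
    (B Fix : Set A) (u : I → A) (c w : Fin N → A) (κ : Fin N → ℝ) (ℓ : Fin N → List I)
    (hB : B ⊆ Fix)
    (hu : ∀ i, u i ∈ unitary A) (hc : ∀ k, c k ∈ unitary A) (hw : ∀ k, w k ∈ unitary A)
    (hwd : ∀ k, w k ^ (ℓ k).length = c k) (hwW : ∀ k, w k ∈ W T {c k})
    (hind : ∀ k, ∀ a ∈ W T (B ∪ Set.range u ∪ {z | ∃ l, l ≠ k ∧ z = c l}),
      T.τ (a * w k) = κ k * T.τ a)
    (hEu : ∀ i, ∀ V ∈ unitary A, V ∈ W T (B ∪ {z | ∃ j, j ≠ i ∧ z = u j} ∪ Set.range c) →
      ∃ α : A ≃⋆ₐ[ℂ] A, Pres T α ∧ Fixes α Fix ∧ (∀ j, j ≠ i → α (u j) = u j) ∧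
        (∀ k, α (c k) = c k) ∧ α (u i) = u i * V)
    (hEc : ∀ k, ∀ V ∈ unitary A, V ∈ W T (B ∪ Set.range u ∪ {z | ∃ l, l ≠ k ∧ z = c l}) →
      ∃ α : A ≃⋆ₐ[ℂ] A, Pres T α ∧ Fixes α Fix ∧ (∀ i, α (u i) = u i) ∧
        (∀ l, l ≠ k → α (c l) = c l) ∧ α (c k) = V * c k)
    (hℓ : ∀ k, (ℓ k).Nodup)
    (hℓ2 : ∀ k k', k ≠ k' → ∀ i j, i ∈ ℓ k → i ∈ ℓ k' → j ∈ ℓ k → j ∈ ℓ k' → i = j) :
    ∀ s : ℕ, s ≤ N →
    ∃ α : A ≃⋆ₐ[ℂ] A, Pres T α ∧ Fixes α Fix ∧ (∀ k : Fin N, s ≤ k.val → α (c k) = c k) ∧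
      (∀ i, α (u i) ∈ W T (B ∪ Set.range u ∪ {z | ∃ l : Fin N, l.val < s ∧ z = c l})) ∧
      (∀ k : Fin N, k.val < s → T.τ (star (c k) * α ((ℓ k).map u).prod) =
        ∏ k' with (k < k' ∧ k'.val < s ∧ ∃ i, i ∈ ℓ k ∧ i ∈ ℓ k'), (κ k' : ℂ)) ∧
      (∀ i, T.τ (star (u i) * α (u i)) = ∏ k with (k.val < s ∧ i ∈ ℓ k), (κ k : ℂ)) := by
  intro s
  induction s with
  | zero =>
    intro _
    refine ⟨StarAlgEquiv.refl ℂ A, Pres.refl T, fun _ _ => rfl, fun _ _ => rfl, ?_, ?_, ?_⟩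
    · intro i
      exact subset_W T _ (Or.inl (Or.inr ⟨i, rfl⟩))
    · intro k hk
      exact absurd hk (Nat.not_lt_zero _)
    · intro i
      have h1 : star (u i) * (StarAlgEquiv.refl ℂ A) (u i) = 1 := (Unitary.mem_iff.1 (hu i)).1
      rw [h1, T.one]
      simp
  | succ s ih =>
    intro hs
    obtain ⟨α, hα, hαF, hαc, hαu, hαD, hαU⟩ := ih (Nat.le_of_succ_le hs)
    have hs' : s < N := hs
    set k0 : Fin N := ⟨s, hs'⟩ with hk0
    obtain ⟨β, γ, hβ, hβF, hβc, hβu, hβl, hβV, hγ, hγk⟩ :=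
      slot T hT B Fix u c hu hEu hEc k0 (w k0) (hw k0) (hwW k0) (ℓ k0) (hℓ k0) (hwd k0)
    -- the algebra of the past
    have hpast : W T (B ∪ Set.range u ∪ {z | ∃ l : Fin N, l.val < s ∧ z = c l}) ≤
        W T (B ∪ Set.range u ∪ {z | ∃ l, l ≠ k0 ∧ z = c l}) := by
      apply W_mono T
      rintro z (hz | ⟨l, hl, rfl⟩)
      · exact Or.inl hz
      · exact Or.inr ⟨l, fun e => by rw [e, hk0] at hl; exact lt_irrefl _ hl, rfl⟩
    have hnext : W T (B ∪ Set.range u ∪ {z | ∃ l : Fin N, l.val < s ∧ z = c l}) ≤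
        W T (B ∪ Set.range u ∪ {z | ∃ l : Fin N, l.val < s + 1 ∧ z = c l}) := by
      apply W_mono T
      rintro z (hz | ⟨l, hl, rfl⟩)
      · exact Or.inl hz
      · exact Or.inr ⟨l, Nat.lt_succ_of_lt hl, rfl⟩
    have hαP : ∀ l : List I, α (l.map u).prod ∈
        W T (B ∪ Set.range u ∪ {z | ∃ l : Fin N, l.val < s ∧ z = c l}) := by
      intro l
      rw [map_prod]
      apply list_prod_mem
      intro x hx
      obtain ⟨i, _, rfl⟩ := List.mem_map.1 hx
      exact hαu i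
    have hαPu : ∀ l : List I, star (α (l.map u).prod) * α (l.map u).prod = 1 ∧
        α (l.map u).prod * star (α (l.map u).prod) = 1 := by
      intro l
      rw [← map_star, ← map_mul, ← map_mul, (Unitary.mem_iff.1 (prod_unitary hu l)).1,
        (Unitary.mem_iff.1 (prod_unitary hu l)).2, map_one]
      exact ⟨rfl, rfl⟩
    have hroot : ∀ a ∈ W T (B ∪ Set.range u ∪ {z | ∃ l, l ≠ k0 ∧ z = c l}),
        T.τ (a * α (γ (w k0))) = κ k0 * T.τ a :=
      tau_mul_root T hT B Fix u c hB hEc k0 (w k0) (hwW k0) (κ k0) (hind k0) α γ hα hγ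
        (hαc k0 le_rfl) _ (prod_unitary hu (ℓ k0)) (hpast (hαP _)) hγk
    have hwnext : α (γ (w k0)) ∈
        W T (B ∪ Set.range u ∪ {z | ∃ l : Fin N, l.val < s + 1 ∧ z = c l}) := by
      have := Pres.map_mem_W (hγ.trans hα) (S := {c k0})
        (S' := B ∪ Set.range u ∪ {z | ∃ l : Fin N, l.val < s + 1 ∧ z = c l}) ?_ (hwW k0)
      · rwa [StarAlgEquiv.trans_apply] at this
      · rintro _ rfl
        rw [StarAlgEquiv.trans_apply, hγk, map_mul, map_star, hαc k0 le_rfl]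
        exact mul_mem (star_mem (hnext (hαP _)))
          (subset_W T _ (Or.inr ⟨k0, Nat.lt_succ_self s, rfl⟩))
    refine ⟨β.trans α, hβ.trans hα, ?_, ?_, ?_, ?_, ?_⟩
    · intro a ha
      rw [StarAlgEquiv.trans_apply, hβF a ha, hαF a ha]
    · intro k hk
      rw [StarAlgEquiv.trans_apply, hβc k (fun e => by rw [e, hk0] at hk; simp at hk),
        hαc k (Nat.le_of_succ_le hk)]
    · intro i
      rw [StarAlgEquiv.trans_apply]
      by_cases hi : i ∈ ℓ k0
      · obtain ⟨ℓ1, ℓ2, h⟩ := List.append_of_mem hi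
        rw [hβl ℓ1 i ℓ2 h, map_mul, map_mul, map_mul, map_star]
        exact mul_mem (hnext (hαu i)) (mul_mem (mul_mem (hnext (hαP _)) hwnext)
          (star_mem (hnext (hαP _))))
      · rw [hβu i hi]
        exact hnext (hαu i)
    · intro k hk
      rw [StarAlgEquiv.trans_apply]
      rcases Nat.lt_succ_iff_lt_or_eq.1 hk with hk | hk
      · have hkk0 : k < k0 := hk
        have hck : star (c k) ∈ W T (B ∪ Set.range u ∪ {z | ∃ l, l ≠ k0 ∧ z = c l}) :=
          star_mem (subset_W T _ (Or.inr ⟨k, ne_of_lt hkk0, rfl⟩))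
        by_cases hmeet : ∃ i, i ∈ ℓ k ∧ i ∈ ℓ k0
        · obtain ⟨i, hik, hik0⟩ := hmeet
          obtain ⟨ℓ1, ℓ2, h⟩ := List.append_of_mem hik0
          obtain ⟨P1, P2, hP⟩ := List.append_of_mem hik
          have hnd := hℓ k
          rw [hP] at hnd
          have hdisj : ∀ j, j ∈ P1 ∨ j ∈ P2 → j ∉ ℓ k0 := by
            intro j hj hj0
            have hjk : j ∈ ℓ k := by
              rw [hP, List.mem_append, List.mem_cons]
              tauto
            have e := hℓ2 k k0 (ne_of_lt hkk0) i j hik hik0 hjk hj0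
            subst e
            rw [List.nodup_append] at hnd
            rcases hj with hj | hj
            · exact hnd.2.2 i hj i List.mem_cons_self rfl
            · exact (List.nodup_cons.1 hnd.2.1).1 hj
          have hprod : ((ℓ k).map u).prod = (P1.map u).prod * (u i * (P2.map u).prod) := by
            rw [hP, List.map_append, List.prod_append, List.map_cons, List.prod_cons]
          have h1 : α (β ((ℓ k).map u).prod) = α (P1.map u).prod * (α (u i) *
              (α (ℓ2.map u).prod * α (γ (w k0)) * star (α (ℓ2.map u).prod)) *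
                α (P2.map u).prod) := by
            rw [hprod, map_mul β, map_mul β, hβl ℓ1 i ℓ2 h,
              map_prod_eq β u P1 fun j hj => hβu j (hdisj j (Or.inl hj)),
              map_prod_eq β u P2 fun j hj => hβu j (hdisj j (Or.inr hj)),
              map_mul, map_mul, map_mul, map_mul, map_mul, map_star]
          have h2 : T.τ (star (c k) * α (β ((ℓ k).map u).prod)) =
              T.τ ((star (α (ℓ2.map u).prod) * α (P2.map u).prod * star (c k) *
                α (P1.map u).prod * α (u i) * α (ℓ2.map u).prod) * α (γ (w k0))) := by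
            rw [h1]
            have e1 : star (c k) * (α (P1.map u).prod * (α (u i) *
              (α (ℓ2.map u).prod * α (γ (w k0)) * star (α (ℓ2.map u).prod)) *
                α (P2.map u).prod)) = (star (c k) *
                α (P1.map u).prod * α (u i) * α (ℓ2.map u).prod * α (γ (w k0))) *
                (star (α (ℓ2.map u).prod) * α (P2.map u).prod) := by noncomm_ring
            rw [e1, T.tr]
            congr 1
            noncomm_ring
          rw [h2, hroot]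
          · have h3 : T.τ (star (α (ℓ2.map u).prod) * α (P2.map u).prod * star (c k) *
                α (P1.map u).prod * α (u i) * α (ℓ2.map u).prod) =
                T.τ (star (c k) * α ((ℓ k).map u).prod) := by
              rw [T.tr, hprod, map_mul α, map_mul α]
              have e2 : α (ℓ2.map u).prod * (star (α (ℓ2.map u).prod) * α (P2.map u).prod *
                  star (c k) * α (P1.map u).prod * α (u i)) =
                  (α (ℓ2.map u).prod * star (α (ℓ2.map u).prod)) * (α (P2.map u).prod *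
                  (star (c k) * α (P1.map u).prod * α (u i))) := by noncomm_ring
              rw [e2, (hαPu ℓ2).2, one_mul, T.tr]
              congr 1
              noncomm_ring
            rw [h3, hαD k hk]
            have hset : (Finset.univ.filter fun k' : Fin N =>
                k < k' ∧ k'.val < s + 1 ∧ ∃ i, i ∈ ℓ k ∧ i ∈ ℓ k') =
                insert k0 (Finset.univ.filter fun k' : Fin N =>
                  k < k' ∧ k'.val < s ∧ ∃ i, i ∈ ℓ k ∧ i ∈ ℓ k') := by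
              ext k'
              simp only [Finset.mem_filter, Finset.mem_univ, true_and, Finset.mem_insert]
              constructor
              · rintro ⟨h1, h2, h3⟩
                rcases Nat.lt_succ_iff_lt_or_eq.1 h2 with h4 | h4
                · exact Or.inr ⟨h1, h4, h3⟩
                · exact Or.inl (Fin.ext h4)
              · rintro (rfl | ⟨h1, h2, h3⟩)
                · exact ⟨hkk0, Nat.lt_succ_self s, i, hik, hik0⟩
                · exact ⟨h1, Nat.lt_succ_of_lt h2, h3⟩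
            rw [hset, Finset.prod_insert]
            simp [hk0]
          · exact mul_mem (mul_mem (mul_mem (mul_mem (mul_mem (star_mem (hpast (hαP _)))
              (hpast (hαP _))) hck) (hpast (hαP _))) (hpast (hαu i))) (hpast (hαP _))
        · have h1 : β ((ℓ k).map u).prod = ((ℓ k).map u).prod := by
            apply map_prod_eq
            intro i hi
            exact hβu i fun hi0 => hmeet ⟨i, hi, hi0⟩
          rw [h1, hαD k hk]
          apply Finset.prod_congr _ fun _ _ => rfl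
          ext k'
          simp only [Finset.mem_filter, Finset.mem_univ, true_and]
          constructor
          · rintro ⟨h1, h2, h3⟩
            exact ⟨h1, Nat.lt_succ_of_lt h2, h3⟩
          · rintro ⟨h1, h2, h3⟩
            rcases Nat.lt_succ_iff_lt_or_eq.1 h2 with h4 | h4
            · exact ⟨h1, h4, h3⟩
            · exfalso
              have : k' = k0 := Fin.ext h4
              subst this
              exact hmeet h3
      · have hkk0 : k = k0 := Fin.ext hk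
        rw [hkk0, hβV, hαc k0 le_rfl, (Unitary.mem_iff.1 (hc k0)).1, T.one]
        symm
        apply Finset.prod_eq_one
        intro k' hk'
        exfalso
        simp only [Finset.mem_filter, Finset.mem_univ, true_and] at hk'
        have h1 : s < k'.val := hk'.1
        have h2 := hk'.2.1
        omega
    · intro i
      rw [StarAlgEquiv.trans_apply]
      by_cases hi : i ∈ ℓ k0
      · obtain ⟨ℓ1, ℓ2, h⟩ := List.append_of_mem hi
        rw [hβl ℓ1 i ℓ2 h, map_mul α, map_mul α, map_mul α, map_star]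
        have h2 : T.τ (star (u i) * (α (u i) * (α (ℓ2.map u).prod * α (γ (w k0)) *
            star (α (ℓ2.map u).prod)))) =
            T.τ ((star (α (ℓ2.map u).prod) * star (u i) * α (u i) * α (ℓ2.map u).prod) *
              α (γ (w k0))) := by
          have e1 : star (u i) * (α (u i) * (α (ℓ2.map u).prod * α (γ (w k0)) *
            star (α (ℓ2.map u).prod))) = (star (u i) * α (u i) * α (ℓ2.map u).prod *
              α (γ (w k0))) * star (α (ℓ2.map u).prod) := by noncomm_ring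
          rw [e1, T.tr]
          congr 1
          noncomm_ring
        rw [h2, hroot]
        · have h3 : T.τ (star (α (ℓ2.map u).prod) * star (u i) * α (u i) *
              α (ℓ2.map u).prod) = T.τ (star (u i) * α (u i)) := by
            rw [T.tr]
            have e2 : α (ℓ2.map u).prod * (star (α (ℓ2.map u).prod) * star (u i) * α (u i)) =
                (α (ℓ2.map u).prod * star (α (ℓ2.map u).prod)) * (star (u i) * α (u i)) := by
              noncomm_ring
            rw [e2, (hαPu ℓ2).2, one_mul]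
          rw [h3, hαU i]
          have hset : (Finset.univ.filter fun k : Fin N => k.val < s + 1 ∧ i ∈ ℓ k) =
              insert k0 (Finset.univ.filter fun k : Fin N => k.val < s ∧ i ∈ ℓ k) := by
            ext k'
            simp only [Finset.mem_filter, Finset.mem_univ, true_and, Finset.mem_insert]
            constructor
            · rintro ⟨h1, h2⟩
              rcases Nat.lt_succ_iff_lt_or_eq.1 h1 with h4 | h4
              · exact Or.inr ⟨h4, h2⟩
              · exact Or.inl (Fin.ext h4)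
            · rintro (rfl | ⟨h1, h2⟩)
              · exact ⟨Nat.lt_succ_self s, hi⟩
              · exact ⟨Nat.lt_succ_of_lt h1, h2⟩
          rw [hset, Finset.prod_insert]
          simp [hk0]
        · exact mul_mem (mul_mem (mul_mem (star_mem (hpast (hαP _)))
            (star_mem (subset_W T _ (Or.inl (Or.inr ⟨i, rfl⟩))))) (hpast (hαu i)))
            (hpast (hαP _))
      · rw [hβu i hi, hαU i]
        apply Finset.prod_congr _ fun _ _ => rfl
        ext k'
        simp only [Finset.mem_filter, Finset.mem_univ, true_and]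
        constructor
        · rintro ⟨h1, h2⟩
          exact ⟨Nat.lt_succ_of_lt h1, h2⟩
        · rintro ⟨h1, h2⟩
          rcases Nat.lt_succ_iff_lt_or_eq.1 h1 with h4 | h4
          · exact ⟨h4, h2⟩
          · exfalso
            have : k' = k0 := Fin.ext h4
            subst this
            exact hi h2

end Core

open Crest.Agent.R134.Core in
theorem core {A : Type u} [CStarAlgebra A] (T : TracialState A)
    (hT : ∀ a : A, T.nrm2 a = 0 → a = 0) {I : Type} [Fintype I] [DecidableEq I] {N : ℕ}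
    (B Fix : Set A) (u : I → A) (c w : Fin N → A) (d : Fin N → ℕ) (κ : Fin N → ℝ)
    (L : ∀ k, Fin (d k) → I) (hB : B ⊆ Fix)
    (hu : ∀ i, u i ∈ unitary A) (hc : ∀ k, c k ∈ unitary A) (hw : ∀ k, w k ∈ unitary A)
    (hwd : ∀ k, w k ^ d k = c k) (hwW : ∀ k, w k ∈ W T {c k})
    (hind : ∀ k, ∀ a ∈ W T (B ∪ Set.range u ∪ {z | ∃ l, l ≠ k ∧ z = c l}),
      T.τ (a * w k) = κ k * T.τ a)
    (hEu : ∀ i, ∀ V ∈ unitary A, V ∈ W T (B ∪ {z | ∃ j, j ≠ i ∧ z = u j} ∪ Set.range c) →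
      ∃ α : A ≃⋆ₐ[ℂ] A, Pres T α ∧ Fixes α Fix ∧ (∀ j, j ≠ i → α (u j) = u j) ∧
        (∀ k, α (c k) = c k) ∧ α (u i) = u i * V)
    (hEc : ∀ k, ∀ V ∈ unitary A, V ∈ W T (B ∪ Set.range u ∪ {z | ∃ l, l ≠ k ∧ z = c l}) →
      ∃ α : A ≃⋆ₐ[ℂ] A, Pres T α ∧ Fixes α Fix ∧ (∀ i, α (u i) = u i) ∧
        (∀ l, l ≠ k → α (c l) = c l) ∧ α (c k) = V * c k)
    (hLinj : ∀ k, Function.Injective (L k))
    (hL2 : ∀ k k', k ≠ k' → ∀ l m l' m', L k l = L k' l' → L k m = L k' m' → l = m) :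
    ∃ α : A ≃⋆ₐ[ℂ] A, Pres T α ∧ Fixes α Fix ∧
      (∀ k, T.τ (star (c k) * α (List.ofFn fun l => u (L k l)).prod) =
        ∏ k' with (k < k' ∧ ∃ l l', L k l = L k' l'), (κ k' : ℂ)) ∧
      (∀ i, T.τ (star (u i) * α (u i)) = ∏ k with (∃ l, L k l = i), (κ k : ℂ)) := by
  obtain ⟨α, hα, hαF, -, -, hD, hU⟩ := slots T hT B Fix u c w κ (fun k => List.ofFn (L k)) hB hu hc
    hw (fun k => by rw [List.length_ofFn, hwd]) hwW hind hEu hEc
    (fun k => List.nodup_ofFn.2 (hLinj k))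
    (by
      intro k k' hkk' i j hi hi' hj hj'
      simp only [List.mem_ofFn', Set.mem_range] at hi hi' hj hj'
      obtain ⟨l, rfl⟩ := hi
      obtain ⟨l', h1⟩ := hi'
      obtain ⟨m, rfl⟩ := hj
      obtain ⟨m', h2⟩ := hj'
      rw [hL2 k k' hkk' l m l' m' h1.symm h2.symm]) N le_rfl
  refine ⟨α, hα, hαF, ?_, ?_⟩
  · intro k
    have h := hD k k.2
    rw [List.map_ofFn] at h
    have e : (u ∘ L k) = fun l => u (L k l) := rfl
    rw [e] at h
    rw [h]
    apply Finset.prod_congr _ fun _ _ => rfl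
    ext k'
    simp only [Finset.mem_filter, Finset.mem_univ, true_and, List.mem_ofFn', Set.mem_range]
    constructor
    · rintro ⟨h1, -, i, ⟨l, rfl⟩, l', h2⟩
      exact ⟨h1, l, l', h2.symm⟩
    · rintro ⟨h1, l, l', h2⟩
      exact ⟨h1, k'.2, _, ⟨l, rfl⟩, l', h2.symm⟩
  · intro i
    rw [hU i]
    apply Finset.prod_congr _ fun _ _ => rfl
    ext k'
    simp only [Finset.mem_filter, Finset.mem_univ, true_and, List.mem_ofFn', Set.mem_range]
    constructor
    · rintro ⟨-, h⟩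
      exact h
    · intro h
      exact ⟨k'.2, h⟩

end Crest.Agent.R134
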