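import Crest.Agent.R134.Semi

/-!
# R134: recovering a semicircular element `x` from `uu x` (helper403)
-/

set_option autoImplicit false
set_option linter.unusedSectionVars false

universe u

namespace Crest.Agent.R134

open Crest.Agent.R95 Polynomial MeasureTheory

namespace Sm

/-! ### uniform approximation by Laurent polynomials in `exp (i Θ)` -/

theorem fact_two_pi : Fact (0 < 2 * Real.pi) := ⟨by positivity⟩

/-- `t ↦ Θ (2 cos t)` as a map to the circle -/
noncomputable def qm : C(Set.Icc (0:ℝ) Real.pi, AddCircle (2 * Real.pi)) where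
  toFun t := ((Θ (2 * Real.cos t) : ℝ) : AddCircle (2 * Real.pi))
  continuous_toFun := by
    have h1 : Continuous fun t : Set.Icc (0:ℝ) Real.pi => Θ (2 * Real.cos t) := by
      have := continuous_Θ
      fun_prop
    exact (AddCircle.continuous_mk' (2 * Real.pi)).comp h1

theorem phi_strictMono {t t' : ℝ} (h0 : 0 ≤ t) (h1 : t' ≤ Real.pi) (h : t < t') :
    2 * t - Real.sin (2 * t) < 2 * t' - Real.sin (2 * t') := by
  have hd : 0 < t' - t := sub_pos.2 h
  have h2 : Real.sin (2 * t') - Real.sin (2 * t) =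
      2 * Real.sin (t' - t) * Real.cos (t' + t) := by
    rw [Real.sin_sub_sin]
    have e1 : (2 * t' - 2 * t) / 2 = t' - t := by ring
    have e2 : (2 * t' + 2 * t) / 2 = t' + t := by ring
    rw [e1, e2]
  have h3 : Real.sin (t' - t) < t' - t := Real.sin_lt hd
  have h4 : 0 ≤ Real.sin (t' - t) := Real.sin_nonneg_of_nonneg_of_le_pi hd.le (by linarith)
  have h5 := Real.cos_le_one (t' + t)
  nlinarith

theorem phi_inj {t t' : ℝ} (h0 : 0 ≤ t) (h1 : t ≤ Real.pi) (h0' : 0 ≤ t') (h1' : t' ≤ Real.pi)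
    (h : 2 * t - Real.sin (2 * t) = 2 * t' - Real.sin (2 * t')) : t = t' := by
  rcases lt_trichotomy t t' with h2 | h2 | h2
  · exact absurd h (phi_strictMono h0 h1' h2).ne
  · exact h2
  · exact absurd h (phi_strictMono h0' h1 h2).ne'

theorem qm_surj : Function.Surjective qm := by
  have := fact_two_pi
  intro θ
  have hθ : θ ∈ ((↑) : ℝ → AddCircle (2 * Real.pi)) '' Set.Icc (-Real.pi) (-Real.pi + 2 * Real.pi) := by
    rw [AddCircle.coe_image_Icc_eq]; trivial
  obtain ⟨y, hy, rfl⟩ := hθ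
  have hc : ContinuousOn (fun t : ℝ => 2 * t - Real.sin (2 * t) - Real.pi)
      (Set.Icc 0 Real.pi) := by fun_prop
  have hiv := intermediate_value_Icc Real.pi_pos.le hc
  have : y ∈ Set.Icc (2 * (0:ℝ) - Real.sin (2 * 0) - Real.pi)
      (2 * Real.pi - Real.sin (2 * Real.pi) - Real.pi) := by
    simp only [mul_zero, Real.sin_zero, Real.sin_two_pi, sub_zero, zero_sub]
    constructor
    · exact hy.1
    · linarith [hy.2]
  obtain ⟨t, ht, hty⟩ := hiv this
  refine ⟨⟨t, ht⟩, ?_⟩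
  show ((Θ (2 * Real.cos t) : ℝ) : AddCircle (2 * Real.pi)) = _
  rw [Θ_two_cos ht.1 ht.2]
  exact congrArg _ hty

theorem qm_quot : Topology.IsQuotientMap qm :=
  haveI := fact_two_pi
  qm.continuous.isClosedMap.isQuotientMap qm.continuous qm_surj

theorem factors {F : ℝ → ℂ} (h2 : F 2 = F (-2)) :
    Function.FactorsThrough (fun t : Set.Icc (0:ℝ) Real.pi => F (2 * Real.cos t)) qm := by
  have := fact_two_pi
  intro t t' h
  obtain ⟨t, ht0, ht1⟩ := t
  obtain ⟨t', ht0', ht1'⟩ := t'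
  have h1 : ((Θ (2 * Real.cos t) : ℝ) : AddCircle (2 * Real.pi)) =
      ((Θ (2 * Real.cos t') : ℝ) : AddCircle (2 * Real.pi)) := h
  rw [Θ_two_cos ht0 ht1, Θ_two_cos ht0' ht1', ← sub_eq_zero, ← AddCircle.coe_sub,
    AddCircle.coe_eq_zero_iff] at h1
  obtain ⟨n, hn⟩ := h1
  show F (2 * Real.cos t) = F (2 * Real.cos t')
  have hpi := Real.pi_pos
  -- bounds `0 ≤ 2 t - sin (2 t) ≤ 2 π`
  have b0 : ∀ t : ℝ, 0 ≤ t → 0 ≤ 2 * t - Real.sin (2 * t) := fun t ht => by
    have := Real.sin_le (x := 2 * t) (by linarith); linarith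
  have b1 : ∀ t : ℝ, t ≤ Real.pi → 2 * t - Real.sin (2 * t) ≤ 2 * Real.pi := fun t ht => by
    have := Real.sin_le (x := 2 * Real.pi - 2 * t) (by linarith)
    rw [Real.sin_two_pi_sub] at this
    linarith
  have b0t := b0 t ht0
  have b0t' := b0 t' ht0'
  have b1t := b1 t ht1
  have b1t' := b1 t' ht1'
  rw [zsmul_eq_mul] at hn
  have hn1 : (n : ℝ) ≤ 1 := by
    by_contra hcon
    push Not at hcon
    nlinarith
  have hn2 : (-1 : ℝ) ≤ n := by
    by_contra hcon
    push Not at hcon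
    nlinarith
  have hn1' : n ≤ 1 := by exact_mod_cast hn1
  have hn2' : -1 ≤ n := by exact_mod_cast hn2
  have hs0 : 2 * (0:ℝ) - Real.sin (2 * 0) = 0 := by simp
  have hspi : 2 * Real.pi - Real.sin (2 * Real.pi) = 2 * Real.pi := by simp
  interval_cases n
  · have e1 : 2 * t - Real.sin (2 * t) = 0 := by push_cast at hn; linarith
    have e2 : 2 * t' - Real.sin (2 * t') = 2 * Real.pi := by push_cast at hn; linarith
    have h3 : t = 0 := phi_inj ht0 ht1 le_rfl hpi.le (by rw [e1, hs0])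
    have h4 : t' = Real.pi := phi_inj ht0' ht1' hpi.le le_rfl (by rw [e2, hspi])
    rw [h3, h4]
    simp [h2]
  · have e1 : 2 * t - Real.sin (2 * t) = 2 * t' - Real.sin (2 * t') := by
      push_cast at hn; linarith
    rw [phi_inj ht0 ht1 ht0' ht1' e1]
  · have e1 : 2 * t' - Real.sin (2 * t') = 0 := by push_cast at hn; linarith
    have e2 : 2 * t - Real.sin (2 * t) = 2 * Real.pi := by push_cast at hn; linarith
    have h3 : t' = 0 := phi_inj ht0' ht1' le_rfl hpi.le (by rw [e1, hs0])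
    have h4 : t = Real.pi := phi_inj ht0 ht1 hpi.le le_rfl (by rw [e2, hspi])
    rw [h3, h4]
    simp [h2]

/-- Laurent polynomials in `exp (i Θ)` -/
theorem span_laurent {h : C(AddCircle (2 * Real.pi), ℂ)}
    (hh : h ∈ Submodule.span ℂ (Set.range (@fourier (2 * Real.pi)))) :
    ∃ P Q : ℂ[X], ∀ s : ℝ, h ((Θ s : ℝ) : AddCircle (2 * Real.pi)) =
      P.eval (ex 1 s) + Q.eval (ex (-1) s) := by
  induction hh using Submodule.span_induction with
  | mem h hh =>
    obtain ⟨n, rfl⟩ := hh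
    have h1 : ∀ s : ℝ, fourier n ((Θ s : ℝ) : AddCircle (2 * Real.pi)) = ex n s := by
      intro s
      rw [fourier_coe_apply]
      unfold ex
      congr 1
      have hpi : (Real.pi : ℂ) ≠ 0 := by exact_mod_cast Real.pi_ne_zero
      push_cast
      field_simp
    have h2 : ∀ (c : ℝ) (m : ℕ) (s : ℝ), ex c s ^ m = ex (m * c) s := by
      intro c m s
      unfold ex
      rw [← Complex.exp_nat_mul]
      congr 1
      push_cast
      ring
    rcases le_total 0 n with hn | hn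
    · obtain ⟨m, rfl⟩ := Int.eq_ofNat_of_zero_le hn
      refine ⟨X ^ m, 0, fun s => ?_⟩
      rw [h1, eval_pow, eval_X, h2, eval_zero, add_zero]
      simp
    · obtain ⟨m, hm⟩ := Int.eq_ofNat_of_zero_le (neg_nonneg.2 hn)
      refine ⟨0, X ^ m, fun s => ?_⟩
      rw [h1, eval_pow, eval_X, h2, eval_zero, zero_add]
      congr 1
      have : (n : ℝ) = -(m : ℝ) := by
        have : n = -(m : ℤ) := by omega
        rw [this]; push_cast; ring
      rw [this]; ring
  | zero => exact ⟨0, 0, fun s => by simp⟩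
  | add h k _ _ hh hk =>
    obtain ⟨P, Q, h1⟩ := hh
    obtain ⟨P', Q', h2⟩ := hk
    refine ⟨P + P', Q + Q', fun s => ?_⟩
    rw [ContinuousMap.add_apply, h1, h2, eval_add, eval_add]
    ring
  | smul c h _ hh =>
    obtain ⟨P, Q, h1⟩ := hh
    refine ⟨C c * P, C c * Q, fun s => ?_⟩
    rw [ContinuousMap.smul_apply, h1, eval_mul, eval_mul, eval_C, eval_C, smul_eq_mul]
    ring

theorem exists_laurent {F : ℝ → ℂ} (hF : Continuous F) (h2 : F 2 = F (-2)) {ε : ℝ} (hε : 0 < ε) :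
    ∃ P Q : ℂ[X], ∀ s ∈ Set.Icc (-2:ℝ) 2, ‖P.eval (ex 1 s) + Q.eval (ex (-1) s) - F s‖ ≤ ε := by
  have := fact_two_pi
  let g : C(Set.Icc (0:ℝ) Real.pi, ℂ) := ⟨fun t => F (2 * Real.cos t), by fun_prop⟩
  let G : C(AddCircle (2 * Real.pi), ℂ) := qm_quot.lift g (factors h2)
  have hG : ∀ t : Set.Icc (0:ℝ) Real.pi, G (qm t) = F (2 * Real.cos t) := by
    intro t
    have := congrArg (fun k => k t) (qm_quot.lift_comp g (factors h2))
    exact this
  have hmem : G ∈ (Submodule.span ℂ (Set.range (@fourier (2 * Real.pi)))).topologicalClosure := by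
    rw [span_fourier_closure_eq_top]; trivial
  rw [← SetLike.mem_coe, Submodule.topologicalClosure_coe, Metric.mem_closure_iff] at hmem
  obtain ⟨h, hh, hd⟩ := hmem ε hε
  obtain ⟨P, Q, hPQ⟩ := span_laurent hh
  refine ⟨P, Q, fun s hs => ?_⟩
  have h1 : -1 ≤ s / 2 := by linarith [hs.1]
  have h2 : s / 2 ≤ 1 := by linarith [hs.2]
  have e : s = 2 * Real.cos (Real.arccos (s / 2)) := by rw [Real.cos_arccos h1 h2]; ring
  have h3 := hG ⟨Real.arccos (s / 2), Real.arccos_nonneg _, Real.arccos_le_pi _⟩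
  simp only [← e] at h3
  have h4 : qm ⟨Real.arccos (s / 2), Real.arccos_nonneg _, Real.arccos_le_pi _⟩ =
      ((Θ s : ℝ) : AddCircle (2 * Real.pi)) := by
    show ((Θ (2 * Real.cos (Real.arccos (s / 2))) : ℝ) : AddCircle (2 * Real.pi)) = _
    rw [← e]
  rw [h4] at h3
  rw [← hPQ, ← h3, norm_sub_rev]
  have := (ContinuousMap.dist_apply_le_dist (f := G) (g := h) ((Θ s : ℝ) : AddCircle (2 * Real.pi)))
  rw [dist_eq_norm] at this
  exact this.trans hd.le

/-- weighted bound for `Sc` -/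
theorem norm_Sc_le_weighted {F : ℝ → ℂ} {c : ℝ}
    (h : ∀ t : ℝ, ‖F (2 * Real.cos t)‖ * Real.sin t ^ 2 ≤ c) : ‖Sc F‖ ≤ 2 * c := by
  unfold Sc
  rw [norm_mul]
  have h1 : ‖∫ t in (0:ℝ)..Real.pi, F (2 * Real.cos t) * ((Real.sin t ^ 2 : ℝ) : ℂ)‖ ≤
      c * |Real.pi - 0| := by
    apply intervalIntegral.norm_integral_le_of_norm_le_const
    intro t _
    rw [norm_mul, Complex.norm_real, Real.norm_of_nonneg (sq_nonneg _)]
    exact h t
  rw [sub_zero, abs_of_pos Real.pi_pos] at h1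
  have h2 : ‖(2 / Real.pi : ℂ)‖ = 2 / Real.pi := by
    have : (2 / Real.pi : ℂ) = ((2 / Real.pi : ℝ) : ℂ) := by push_cast; ring
    rw [this, Complex.norm_real, Real.norm_of_nonneg (by positivity)]
  rw [h2]
  have hpi := Real.pi_pos
  calc 2 / Real.pi * ‖∫ t in (0:ℝ)..Real.pi, F (2 * Real.cos t) * ((Real.sin t ^ 2 : ℝ) : ℂ)‖
      ≤ 2 / Real.pi * (c * Real.pi) := by gcongr
    _ = 2 * c := by field_simp

/-- cut-off of the identity near `±2` -/
noncomputable def cut (η : ℝ) (s : ℝ) : ℝ := s * max 0 (min 1 ((4 - s ^ 2) / η))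

theorem continuous_cut (η : ℝ) : Continuous (cut η) := by
  unfold cut
  fun_prop

theorem cut_two (η : ℝ) : cut η 2 = 0 := by
  have : (4 - (2:ℝ) ^ 2) / η = 0 := by norm_num
  rw [cut, this]; simp
theorem cut_neg_two (η : ℝ) : cut η (-2) = 0 := by
  have : (4 - (-2:ℝ) ^ 2) / η = 0 := by norm_num
  rw [cut, this]; simp

theorem cut_bound {η : ℝ} (hη : 0 < η) (t : ℝ) :
    (cut η (2 * Real.cos t) - 2 * Real.cos t) ^ 2 * Real.sin t ^ 2 ≤ η := by
  set s := 2 * Real.cos t with hs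
  have h4 : 4 - s ^ 2 = 4 * Real.sin t ^ 2 := by
    have := Real.sin_sq_add_cos_sq t
    rw [hs]; nlinarith
  have hc1 : Real.cos t ^ 2 ≤ 1 := by
    have := Real.sin_sq_add_cos_sq t
    nlinarith [sq_nonneg (Real.sin t)]
  unfold cut
  by_cases hcase : η ≤ 4 - s ^ 2
  · have h1 : 1 ≤ (4 - s ^ 2) / η := by rwa [le_div_iff₀ hη, one_mul]
    rw [min_eq_left h1, max_eq_right (by norm_num : (0:ℝ) ≤ 1), mul_one, sub_self]
    simp [hη.le]
  · push Not at hcase
    set m := max 0 (min 1 ((4 - s ^ 2) / η)) with hm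
    have hm0 : 0 ≤ m := le_max_left _ _
    have hm1 : m ≤ 1 := max_le (by norm_num) (min_le_left _ _)
    have h5 : (s * m - s) ^ 2 ≤ 4 := by
      have : (s * m - s) ^ 2 = s ^ 2 * (1 - m) ^ 2 := by ring
      rw [this]
      have hs4 : s ^ 2 ≤ 4 := by rw [hs]; nlinarith
      have h6 : (1 - m) ^ 2 ≤ 1 := by nlinarith
      nlinarith [sq_nonneg s, sq_nonneg (1 - m)]
    have h6 : 4 * Real.sin t ^ 2 ≤ η := by rw [← h4]; exact hcase.le
    nlinarith [sq_nonneg (Real.sin t)]

section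
variable {A : Type*} [CStarAlgebra A] {T : TracialState A}

theorem fc_aeval {x : A} (hx : IsSelfAdjoint x) (c : ℝ) (P : ℂ[X]) :
    fc x (fun s => P.eval (ex c s)) = aeval (fc x (ex c)) P := by
  induction P using Polynomial.induction_on' with
  | add P Q hP hQ =>
    simp only [eval_add, map_add]
    rw [fc_add, hP, hQ]
    · exact P.continuous.comp (continuous_ex c)
    · exact Q.continuous.comp (continuous_ex c)
  | monomial n a =>
    rw [aeval_monomial, fc_pow hx]
    have : (fun s => eval (ex c s) (monomial n a)) = fun s => a * ex (n * c) s := by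
      ext s
      rw [eval_monomial]
      congr 1
      unfold ex
      rw [← Complex.exp_nat_mul]
      congr 1
      push_cast
      ring
    rw [this, fc_mul continuous_const (continuous_ex _), fc_const hx]

/-- the approximating Laurent polynomial -/
theorem exists_laurent_L2 {ε : ℝ} (hε : 0 < ε) : ∃ P Q : ℂ[X],
    ∀ (A : Type u) [CStarAlgebra A] (T : TracialState A) (x : A), IsSelfAdjoint x →
      (∀ n, T.τ (ch x (n+1)) = 0) →
      T.nrm2 (aeval (uu x) P + aeval (star (uu x)) Q - x) < ε := by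
  obtain ⟨P, Q, hPQ⟩ := exists_laurent (F := fun s => ((cut (ε ^ 2 / 32) s : ℝ) : ℂ))
    (Complex.continuous_ofReal.comp (continuous_cut _)) (by simp [cut_two, cut_neg_two])
    (ε := ε / 4) (by positivity)
  refine ⟨P, Q, fun A _ T x hx h => ?_⟩
  have hη : 0 < ε ^ 2 / 32 := by positivity
  have hc0 : Continuous fun s : ℝ => ((cut (ε ^ 2 / 32) s : ℝ) : ℂ) :=
    Complex.continuous_ofReal.comp (continuous_cut _)
  have hcP : Continuous fun s => P.eval (ex 1 s) := P.continuous.comp (continuous_ex 1)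
  have hcQ : Continuous fun s => Q.eval (ex (-1) s) := Q.continuous.comp (continuous_ex (-1))
  have hc1 : Continuous fun s => P.eval (ex 1 s) + Q.eval (ex (-1) s) := hcP.add hcQ
  have hstar : star (uu x) = fc x (ex (-1)) := by
    rw [uu_eq_ex, ← fc_star]; congr 1; ext s; rw [ex_star]
  have e : aeval (uu x) P + aeval (star (uu x)) Q - x =
      fc x (fun s => P.eval (ex 1 s) + Q.eval (ex (-1) s) - ((cut (ε ^ 2 / 32) s : ℝ) : ℂ)) +
      fc x (fun s => ((cut (ε ^ 2 / 32) s : ℝ) : ℂ) - (s : ℂ)) := by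
    rw [fc_sub hc1 hc0, fc_sub hc0 Complex.continuous_ofReal, fc_add hcP hcQ, fc_aeval hx,
      fc_aeval hx, hstar, uu_eq_ex, fc_ofReal hx]
    abel
  rw [e]
  have n1 : T.nrm2 (fc x (fun s => P.eval (ex 1 s) + Q.eval (ex (-1) s) -
      ((cut (ε ^ 2 / 32) s : ℝ) : ℂ))) ≤ ε / 4 := by
    have hcs : Continuous fun s : ℝ => P.eval (ex 1 s) + Q.eval (ex (-1) s) -
        ((cut (ε ^ 2 / 32) s : ℝ) : ℂ) := hc1.sub hc0
    have hsq := nrm2_fc_sq (T := T) hx h hcs
    have hb : T.nrm2 (fc x (fun s => P.eval (ex 1 s) + Q.eval (ex (-1) s) -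
        ((cut (ε ^ 2 / 32) s : ℝ) : ℂ))) ^ 2 ≤ (ε / 4) ^ 2 := by
      refine hsq.le.trans ((Complex.re_le_norm _).trans (norm_Sc_le fun s hs => ?_))
      rw [norm_mul, norm_star, ← sq]
      exact pow_le_pow_left₀ (norm_nonneg _) (hPQ s hs) 2
    exact abs_le_of_sq_le_sq' hb (by positivity) |>.2
  have n2 : T.nrm2 (fc x (fun s => ((cut (ε ^ 2 / 32) s : ℝ) : ℂ) - (s : ℂ))) ≤ ε / 4 := by
    have hcs : Continuous fun s : ℝ => ((cut (ε ^ 2 / 32) s : ℝ) : ℂ) - (s : ℂ) :=
      hc0.sub Complex.continuous_ofReal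
    have hsq := nrm2_fc_sq (T := T) hx h hcs
    have hb : T.nrm2 (fc x (fun s => ((cut (ε ^ 2 / 32) s : ℝ) : ℂ) - (s : ℂ))) ^ 2 ≤
        (ε / 4) ^ 2 := by
      refine hsq.le.trans ((Complex.re_le_norm _).trans ?_)
      refine (norm_Sc_le_weighted (c := ε ^ 2 / 32) fun t => ?_).trans (le_of_eq (by ring))
      rw [norm_mul, norm_star, ← sq]
      have := cut_bound hη t
      rw [← Complex.ofReal_sub, Complex.norm_real, Real.norm_eq_abs, sq_abs]
      exact this
    exact abs_le_of_sq_le_sq' hb (by positivity) |>.2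
  have := T.nrm2_add_le (fc x (fun s => P.eval (ex 1 s) + Q.eval (ex (-1) s) -
    ((cut (ε ^ 2 / 32) s : ℝ) : ℂ))) (fc x (fun s => ((cut (ε ^ 2 / 32) s : ℝ) : ℂ) - (s : ℂ)))
  linarith

end

/-- Lipschitz bound for polynomials of unitaries -/
theorem lip_poly (P : ℂ[X]) : ∃ C : ℝ, 0 ≤ C ∧ ∀ (A : Type u) [CStarAlgebra A]
    (T : TracialState A) (v w : A), ‖v‖ ≤ 1 → ‖w‖ ≤ 1 →
      T.nrm2 (aeval v P - aeval w P) ≤ C * T.nrm2 (v - w) := by
  have hpow : ∀ (A : Type u) [CStarAlgebra A] (T : TracialState A) (v w : A), ‖v‖ ≤ 1 → ‖w‖ ≤ 1 →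
      ∀ n : ℕ, T.nrm2 (v ^ n - w ^ n) ≤ n * T.nrm2 (v - w) := by
    intro A _ T v w hv hw n
    induction n with
    | zero => simp [T.nrm2_zero]
    | succ n ih =>
      have e : v ^ (n+1) - w ^ (n+1) = v ^ n * (v - w) + (v ^ n - w ^ n) * w := by
        rw [pow_succ, pow_succ]; noncomm_ring
      rw [e]
      refine (T.nrm2_add_le _ _).trans ?_
      have hvn : ‖v ^ n‖ ≤ 1 := by
        cases subsingleton_or_nontrivial A with
        | inl h => rw [Subsingleton.elim (v ^ n) 0]; simp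
        | inr h => exact (norm_pow_le v n).trans (pow_le_one₀ (norm_nonneg _) hv)
      have h1 := T.nrm2_mul_le_left (v ^ n) (v - w)
      have h2 := T.nrm2_mul_le_right (v ^ n - w ^ n) w
      have h3 : ‖v ^ n‖ * T.nrm2 (v - w) ≤ 1 * T.nrm2 (v - w) :=
        mul_le_mul_of_nonneg_right hvn (T.nrm2_nonneg _)
      have h4 : T.nrm2 (v ^ n - w ^ n) * ‖w‖ ≤ (n * T.nrm2 (v - w)) * 1 :=
        mul_le_mul ih hw (norm_nonneg _) (mul_nonneg (Nat.cast_nonneg _) (T.nrm2_nonneg _))
      push_cast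
      linarith
  induction P using Polynomial.induction_on' with
  | add P Q hP hQ =>
    obtain ⟨C, hC, h1⟩ := hP
    obtain ⟨C', hC', h2⟩ := hQ
    refine ⟨C + C', add_nonneg hC hC', fun A _ T v w hv hw => ?_⟩
    have e : aeval v (P + Q) - aeval w (P + Q) =
      (aeval v P - aeval w P) + (aeval v Q - aeval w Q) := by rw [map_add, map_add]; abel
    rw [e, add_mul]
    exact (T.nrm2_add_le _ _).trans (add_le_add (h1 A T v w hv hw) (h2 A T v w hv hw))
  | monomial n a =>
    refine ⟨‖a‖ * n, by positivity, fun A _ T v w hv hw => ?_⟩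
    rw [aeval_monomial, aeval_monomial, ← mul_sub, Algebra.algebraMap_eq_smul_one, smul_mul_assoc,
      one_mul, T.nrm2_smul, mul_assoc]
    exact mul_le_mul_of_nonneg_left (hpow A T v w hv hw n) (norm_nonneg _)

theorem norm_unitary_le {A : Type*} [CStarAlgebra A] {v : A} (hv : v ∈ unitary A) : ‖v‖ ≤ 1 := by
  cases subsingleton_or_nontrivial A with
  | inl h => rw [Subsingleton.elim v 0]; simp
  | inr h => exact (CStarRing.norm_of_mem_unitary hv).le

end Sm

open Sm

variable {A : Type u} [CStarAlgebra A] (T : TracialState A)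

theorem laurent_mem_adjoin (V : A) (P Q : ℂ[X]) :
    aeval V P + aeval (star V) Q ∈ StarAlgebra.adjoin ℂ ({V} : Set A) := by
  have hV : V ∈ StarAlgebra.adjoin ℂ ({V} : Set A) := StarAlgebra.subset_adjoin ℂ _ rfl
  have key : ∀ (w : A), w ∈ StarAlgebra.adjoin ℂ ({V} : Set A) → ∀ P : ℂ[X],
      aeval w P ∈ StarAlgebra.adjoin ℂ ({V} : Set A) := by
    intro w hw P
    induction P using Polynomial.induction_on' with
    | add P Q hP hQ => rw [map_add]; exact add_mem hP hQ
    | monomial n a =>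
      rw [aeval_monomial]
      exact mul_mem (StarSubalgebra.algebraMap_mem _ _) (pow_mem hw n)
  exact add_mem (key V hV P) (key (star V) (star_mem hV) Q)

theorem SD.mem_W_uu {S : Set A} (_hT : Amb T) (hS : ∀ s ∈ S, star s ∈ S) {x : A} (h : SD T S x) :
    x ∈ W T {uu x} := by
  intro ε hε
  obtain ⟨P, Q, hPQ⟩ := exists_laurent_L2 hε
  refine ⟨_, laurent_mem_adjoin (uu x) P Q, ?_⟩
  rw [T.nrm2_sub_comm]
  exact hPQ A T x h.1 (tau_ch_of_SD hS h)

theorem SD.uu_inj (hT : Amb T) {S S' : Set A} (hS : ∀ s ∈ S, star s ∈ S)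
    (hS' : ∀ s ∈ S', star s ∈ S') {x x' : A} (h : SD T S x) (h' : SD T S' x')
    (huu : uu x = uu x') : x = x' := by
  rw [← sub_eq_zero]
  apply hT.faithful
  refine le_antisymm (le_of_forall_pos_le_add fun ε hε => ?_) (T.nrm2_nonneg _)
  obtain ⟨P, Q, hPQ⟩ := exists_laurent_L2 (ε := ε / 2) (by positivity)
  have h1 := hPQ A T x h.1 (tau_ch_of_SD hS h)
  have h2 := hPQ A T x' h'.1 (tau_ch_of_SD hS' h')
  rw [T.nrm2_sub_comm] at h1
  rw [← huu] at h2
  have := T.nrm2_triangle x (aeval (uu x) P + aeval (star (uu x)) Q) x'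
  linarith

theorem inverse_a (ε : ℝ) (hε : 0 < ε) : ∃ δ : ℝ, 0 < δ ∧
    ∀ (A : Type u) [CStarAlgebra A] (T : TracialState A), Amb T → ∀ (S : Set A),
      (∀ s ∈ S, star s ∈ S) → ∀ x : A, SD T S x → ∀ α : A ≃⋆ₐ[ℂ] A, Pres T α →
        T.nrm2 (α (uu x) - uu x) < δ → T.nrm2 (α x - x) < ε := by
  obtain ⟨P, Q, hPQ⟩ := exists_laurent_L2 (ε := ε / 3) (by positivity)
  obtain ⟨C, hC, hCP⟩ := lip_poly P
  obtain ⟨C', hC', hCQ⟩ := lip_poly Q
  refine ⟨ε / (3 * (C + C' + 1)), by positivity, fun A _ T hT S hS x h α hα hlt => ?_⟩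
  have hu := uu_unitary h.1
  have hαu : α (uu x) ∈ unitary A := Unitary.map_mem α hu
  have hL := hPQ A T x h.1 (tau_ch_of_SD hS h)
  set L : A → A := fun V => aeval V P + aeval (star V) Q with hLdef
  have hαL : α (L (uu x)) = L (α (uu x)) := by
    simp only [hLdef, map_add]
    have key : ∀ (w : A) (P : ℂ[X]), α (aeval w P) = aeval (α w) P := by
      intro w P
      exact (Polynomial.aeval_algHom_apply (α : A →⋆ₐ[ℂ] A) w P).symm
    rw [key, key, map_star]
  have h1 : T.nrm2 (α x - α (L (uu x))) < ε / 3 := by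
    rw [← map_sub, hα.nrm2, T.nrm2_sub_comm]
    exact hL
  have h2 : T.nrm2 (α (L (uu x)) - L (uu x)) ≤ (C + C') * T.nrm2 (α (uu x) - uu x) := by
    rw [hαL]
    have e : L (α (uu x)) - L (uu x) = (aeval (α (uu x)) P - aeval (uu x) P) +
        (aeval (star (α (uu x))) Q - aeval (star (uu x)) Q) := by
      simp only [hLdef]; abel
    rw [e, add_mul]
    refine (T.nrm2_add_le _ _).trans (add_le_add (hCP A T _ _ (norm_unitary_le hαu)
      (norm_unitary_le hu)) ?_)
    have := hCQ A T (star (α (uu x))) (star (uu x)) (norm_unitary_le (Unitary.star_mem hαu))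
      (norm_unitary_le (Unitary.star_mem hu))
    rwa [← star_sub, T.nrm2_star] at this
  have h3 : (C + C') * T.nrm2 (α (uu x) - uu x) < ε / 3 := by
    have hpos : 0 < C + C' + 1 := by positivity
    calc (C + C') * T.nrm2 (α (uu x) - uu x) ≤ (C + C' + 1) * T.nrm2 (α (uu x) - uu x) := by
          have := T.nrm2_nonneg (α (uu x) - uu x)
          nlinarith
      _ < (C + C' + 1) * (ε / (3 * (C + C' + 1))) := by gcongr
      _ = ε / 3 := by field_simp
  have h4 := T.nrm2_triangle (α x) (α (L (uu x))) x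
  have h5 := T.nrm2_triangle (α (L (uu x))) (L (uu x)) x
  have h6 : T.nrm2 (L (uu x) - x) < ε / 3 := hL
  linarith

theorem inverse_b (ε : ℝ) (hε : 0 < ε) : ∃ δ : ℝ, 0 < δ ∧
    ∀ (A : Type u) [CStarAlgebra A] (T : TracialState A), Amb T → ∀ (S : Set A),
      (∀ s ∈ S, star s ∈ S) → ∀ x : A, SD T S x → ∀ V ∈ unitary A,
        T.nrm2 (V - uu x) < δ → ∃ z ∈ StarAlgebra.adjoin ℂ ({V} : Set A), IsSelfAdjoint z ∧
          T.nrm2 (z - x) < ε := by
  obtain ⟨P, Q, hPQ⟩ := exists_laurent_L2 (ε := ε / 2) (by positivity)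
  obtain ⟨C, hC, hCP⟩ := lip_poly P
  obtain ⟨C', hC', hCQ⟩ := lip_poly Q
  refine ⟨ε / (2 * (C + C' + 1)), by positivity, fun A _ T hT S hS x h V hV hlt => ?_⟩
  have hu := uu_unitary h.1
  have hL := hPQ A T x h.1 (tau_ch_of_SD hS h)
  set L : A → A := fun V => aeval V P + aeval (star V) Q with hLdef
  have hmem : L V ∈ StarAlgebra.adjoin ℂ ({V} : Set A) := laurent_mem_adjoin V P Q
  have h2 : T.nrm2 (L V - L (uu x)) ≤ (C + C') * T.nrm2 (V - uu x) := by
    have e : L V - L (uu x) = (aeval V P - aeval (uu x) P) +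
        (aeval (star V) Q - aeval (star (uu x)) Q) := by
      simp only [hLdef]; abel
    rw [e, add_mul]
    refine (T.nrm2_add_le _ _).trans (add_le_add (hCP A T _ _ (norm_unitary_le hV)
      (norm_unitary_le hu)) ?_)
    have := hCQ A T (star V) (star (uu x)) (norm_unitary_le (Unitary.star_mem hV))
      (norm_unitary_le (Unitary.star_mem hu))
    rwa [← star_sub, T.nrm2_star] at this
  have h3 : (C + C') * T.nrm2 (V - uu x) < ε / 2 := by
    have hpos : 0 < C + C' + 1 := by positivity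
    calc (C + C') * T.nrm2 (V - uu x) ≤ (C + C' + 1) * T.nrm2 (V - uu x) := by
          have := T.nrm2_nonneg (V - uu x)
          nlinarith
      _ < (C + C' + 1) * (ε / (2 * (C + C' + 1))) := by gcongr
      _ = ε / 2 := by field_simp
  have h6 : T.nrm2 (L V - x) < ε := by
    have h5 := T.nrm2_triangle (L V) (L (uu x)) x
    have h7 : T.nrm2 (L (uu x) - x) < ε / 2 := hL
    linarith
  refine ⟨(1/2 : ℂ) • (L V + star (L V)), ?_, ?_, ?_⟩
  · exact SMulMemClass.smul_mem _ (add_mem hmem (star_mem hmem))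
  · rw [isSelfAdjoint_iff, star_smul, star_add, star_star, add_comm]
    congr 1
    simp
  · have e : (1/2 : ℂ) • (L V + star (L V)) - x =
        (1/2 : ℂ) • ((L V - x) + star (L V - x)) := by
      rw [star_sub, h.1.star_eq]
      have : x = (1/2 : ℂ) • (x + x) := by
        rw [← two_smul ℂ x, smul_smul]; norm_num
      nth_rewrite 1 [this]
      rw [← smul_sub]
      congr 1
      abel
    rw [e, T.nrm2_smul]
    have h8 := T.nrm2_add_le (L V - x) (star (L V - x))
    rw [T.nrm2_star] at h8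
    have h9 : ‖(1/2 : ℂ)‖ = 1/2 := by simp
    rw [h9]
    linarith

end Crest.Agent.R134
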