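import Crest.Agent.R134.Design

/-!
# R134 (helper887): the design statement of the interface, for `m` targets

Adapted from helper856's `Design.lean` (`P = m * 2 ^ e` rounds instead of `2 ^ e`).
-/

set_option autoImplicit false

namespace Crest.Agent.R134.Lines

open Finset Crest.Agent.R134.DesignAux

theorem card_Ln {e P J : ℕ} (m : ℕ) (hJ : e + 2 * P ≤ J) (hP : P = m * 2 ^ e) :
    Fintype.card (Ln e P J) = m * 4 ^ J := by
  have h : ∀ k : Fin P, Fintype.card (Fin (2 ^ (k : ℕ)) × Fin (2 ^ (J - e - k)) × ZMod (2 ^ J)) =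
      2 ^ (2 * J - e) := by
    intro k
    have hk : (k : ℕ) < P := k.2
    rw [Fintype.card_prod, Fintype.card_prod, Fintype.card_fin, Fintype.card_fin, ZMod.card,
      ← pow_add, ← pow_add]
    congr 1
    omega
  rw [Fintype.card_sigma, Finset.sum_congr rfl (fun k _ => h k), Finset.sum_const, Finset.card_univ,
    Fintype.card_fin, smul_eq_mul]
  calc P * 2 ^ (2 * J - e) = m * (2 ^ e * 2 ^ (2 * J - e)) := by rw [hP, mul_assoc]
    _ = m * 2 ^ (2 * J) := by
      rw [← pow_add]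
      congr 2
      omega
    _ = m * 4 ^ J := by
      rw [pow_mul]
      norm_num

theorem exists_design (m : ℕ) (ε : ℝ) (hε : 0 < ε) :
    ∃ (J : ℕ) (d : Fin (m * 4 ^ J) → ℕ) (L : ∀ k, Fin (d k) → Fin (4 ^ J)),
      (∀ k, 0 < d k) ∧ (∀ k, Function.Injective (L k)) ∧
      (∀ k k', k ≠ k' → ∀ l m l' m', L k l = L k' l' → L k m = L k' m' → l = m) ∧
      (∀ k, ∑ k' with (k < k' ∧ ∃ l l', L k l = L k' l'), (5 : ℝ) / (d k' : ℝ) ^ 2 ≤ ε) ∧
      (∀ i, ∑ k with (∃ l, L k l = i), (5 : ℝ) / (d k : ℝ) ^ 2 ≤ ε) := by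
  classical
  obtain ⟨e, he⟩ : ∃ e : ℕ, 10 / (2 : ℝ) ^ e ≤ ε := by
    obtain ⟨e, he⟩ := exists_pow_lt_of_lt_one (show 0 < ε / 10 by positivity)
      (show (1 / 2 : ℝ) < 1 by norm_num)
    refine ⟨e, ?_⟩
    rw [one_div_pow, lt_div_iff₀ (by norm_num)] at he
    calc 10 / (2 : ℝ) ^ e = 1 / 2 ^ e * 10 := by ring
      _ ≤ ε := he.le
  set P := m * 2 ^ e with hP
  set J := e + 2 * P with hJdef
  have hJ : e + 2 * P ≤ J := le_rfl
  -- enumeration of the lines with nondecreasing round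
  have hcard : Fintype.card (Ln e P J) = m * 4 ^ J := card_Ln m hJ hP
  let en0 : Fin (m * 4 ^ J) ≃ Ln e P J := (Fintype.equivFinOfCardEq hcard).symm
  let σ : Equiv.Perm (Fin (m * 4 ^ J)) := Tuple.sort (fun b => ((en0 b).1 : ℕ))
  have hmono : Monotone (fun b => ((en0 (σ b)).1 : ℕ)) :=
    Tuple.monotone_sort (fun b => ((en0 b).1 : ℕ))
  let en : Fin (m * 4 ^ J) ≃ Ln e P J := σ.trans en0
  -- variables
  have hv : Fintype.card (ZMod (2 ^ J) × ZMod (2 ^ J)) = 4 ^ J := by
    rw [Fintype.card_prod, ZMod.card]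
    rw [show (4 : ℕ) = 2 * 2 by norm_num, mul_pow]
  let φ : ZMod (2 ^ J) × ZMod (2 ^ J) ≃ Fin (4 ^ J) := Fintype.equivFinOfCardEq hv
  let d : Fin (m * 4 ^ J) → ℕ := fun k => (line (en k)).length
  let L : ∀ k, Fin (d k) → Fin (4 ^ J) := fun k l => φ ((line (en k)).get l)
  have hd : ∀ k, d k = len (en k) := fun k => length_line _
  have hmem : ∀ k (i : Fin (4 ^ J)), (∃ l, L k l = i) ↔ φ.symm i ∈ line (en k) := by
    intro k i
    rw [List.mem_iff_get]
    constructor
    · rintro ⟨l, hl⟩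
      exact ⟨l, by rw [← hl]; simp [L]⟩
    · rintro ⟨l, hl⟩
      exact ⟨l, by simp only [L]; rw [hl]; simp⟩
  have hmem' : ∀ k (l : Fin (d k)), φ.symm (L k l) ∈ line (en k) := fun k l =>
    (hmem k (L k l)).1 ⟨l, rfl⟩
  have hinj : ∀ k, Function.Injective (L k) := by
    intro k l l' h
    have h1 : (line (en k)).get l = (line (en k)).get l' := φ.injective h
    exact (List.nodup_iff_injective_get.1 (nodup_line hJ (en k))) h1
  refine ⟨J, d, L, fun k => ?_, hinj, ?_, ?_, ?_⟩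
  · rw [hd]; exact len_pos _
  · intro k k' hne l p l' p' h1 h2
    have hne' : en k ≠ en k' := fun h => hne (en.injective h)
    refine hinj k (φ.symm.injective (inter_line hJ hne' (hmem' k l) ?_ (hmem' k p) ?_))
    · rw [h1]; exact hmem' k' l'
    · rw [h2]; exact hmem' k' p'
  · -- crossing lines
    intro b
    set t0 := en b with ht0
    have h1 : ∑ k' with (b < k' ∧ ∃ l l', L b l = L k' l'), (5 : ℝ) / (d k' : ℝ) ^ 2 ≤
        ∑ t ∈ (univ : Finset (Ln e P J)).filter
          (fun t => ∃ i ∈ (line t0).toFinset, i ∈ line t ∧ (t0.1 : ℕ) ≤ (t.1 : ℕ)),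
          (5 : ℝ) / (len t : ℝ) ^ 2 := by
      rw [Finset.sum_filter, Finset.sum_filter, ← Equiv.sum_comp en]
      refine Finset.sum_le_sum fun k' _ => ?_
      rw [← hd k']
      by_cases hc : b < k' ∧ ∃ l l', L b l = L k' l'
      · rw [if_pos hc, if_pos]
        obtain ⟨hlt, l, l', hll⟩ := hc
        refine ⟨φ.symm (L b l), List.mem_toFinset.2 (hmem' b l), ?_, hmono hlt.le⟩
        rw [hll]
        exact hmem' k' l'
      · rw [if_neg hc]
        split_ifs <;> positivity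
    refine h1.trans ?_
    calc ∑ t ∈ (univ : Finset (Ln e P J)).filter
          (fun t => ∃ i ∈ (line t0).toFinset, i ∈ line t ∧ (t0.1 : ℕ) ≤ (t.1 : ℕ)),
            (5 : ℝ) / (len t : ℝ) ^ 2
        ≤ ∑ i ∈ (line t0).toFinset, ∑ t ∈ (univ : Finset (Ln e P J)).filter
          (fun t => i ∈ line t ∧ (t0.1 : ℕ) ≤ (t.1 : ℕ)), (5 : ℝ) / (len t : ℝ) ^ 2 :=
          sum_exists_le _ _ (fun i t => i ∈ line t ∧ (t0.1 : ℕ) ≤ (t.1 : ℕ)) _
            fun _ => by positivity
      _ = ∑ i ∈ (line t0).toFinset, 5 * ∑ t ∈ (univ : Finset (Ln e P J)).filter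
          (fun t => i ∈ line t ∧ (t0.1 : ℕ) ≤ (t.1 : ℕ)), 1 / (len t : ℝ) ^ 2 := by
          refine Finset.sum_congr rfl fun i _ => ?_
          rw [Finset.mul_sum]
          exact Finset.sum_congr rfl fun t _ => by ring
      _ ≤ ∑ i ∈ (line t0).toFinset, 5 * (2 / (2 : ℝ) ^ (2 * e + t0.1)) := by
          refine Finset.sum_le_sum fun i _ => ?_
          have := (sum_through hJ i t0.1).trans (geom_tail _ P e)
          linarith
      _ ≤ len t0 * (5 * (2 / (2 : ℝ) ^ (2 * e + t0.1))) := by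
          rw [Finset.sum_const, nsmul_eq_mul]
          refine mul_le_mul_of_nonneg_right ?_ (by positivity)
          have := List.toFinset_card_le (line t0)
          rw [length_line] at this
          exact_mod_cast this
      _ = 10 / (2 : ℝ) ^ e := by
          unfold len
          push_cast
          rw [show 2 * e + (t0.1 : ℕ) = e + (e + t0.1) by ring, pow_add 2 e (e + _)]
          field_simp
          norm_num
      _ ≤ ε := he
  · intro i
    have h1 : ∑ k with (∃ l, L k l = i), (5 : ℝ) / (d k : ℝ) ^ 2 ≤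
        ∑ t ∈ (univ : Finset (Ln e P J)).filter
          (fun t => φ.symm i ∈ line t ∧ 0 ≤ (t.1 : ℕ)), (5 : ℝ) / (len t : ℝ) ^ 2 := by
      rw [Finset.sum_filter, Finset.sum_filter, ← Equiv.sum_comp en]
      refine Finset.sum_le_sum fun k' _ => ?_
      rw [← hd k']
      by_cases hc : ∃ l, L k' l = i
      · rw [if_pos hc, if_pos]
        exact ⟨(hmem k' i).1 hc, Nat.zero_le _⟩
      · rw [if_neg hc]
        split_ifs <;> positivity
    refine h1.trans ?_
    have h2 := (sum_through hJ (φ.symm i) 0).trans (geom_tail 0 P e)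
    have h3 : ∑ t ∈ (univ : Finset (Ln e P J)).filter
          (fun t => φ.symm i ∈ line t ∧ 0 ≤ (t.1 : ℕ)), (5 : ℝ) / (len t : ℝ) ^ 2 =
        5 * ∑ t ∈ (univ : Finset (Ln e P J)).filter
          (fun t => φ.symm i ∈ line t ∧ 0 ≤ (t.1 : ℕ)), 1 / (len t : ℝ) ^ 2 := by
      rw [Finset.mul_sum]
      exact Finset.sum_congr rfl fun t _ => by ring
    rw [h3]
    have h4 : 2 / (2 : ℝ) ^ (2 * e + 0) ≤ 2 / (2 : ℝ) ^ e := by
      refine div_le_div_of_nonneg_left (by norm_num) (by positivity) ?_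
      exact pow_le_pow_right₀ (by norm_num) (by omega)
    calc _ ≤ 5 * (2 / (2 : ℝ) ^ e) := by linarith
      _ = 10 / (2 : ℝ) ^ e := by ring
      _ ≤ ε := he

end Crest.Agent.R134.Lines
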