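import Crest.Agent.R134.Defs

/-!
# R134 : the standing data of the main theorem, basic lemmas on `W`, `Der`, `SD`
-/

set_option autoImplicit false

universe u

namespace Crest.Agent.R134

open Crest.Agent.R95 Filter Topology

variable {A : Type u} [CStarAlgebra A] (T : TracialState A)

/-- The standing data of the main theorem. -/
structure Data {m : ℕ} (R : StarSubalgebra ℂ A) (Q : Set A) (u v : ℕ → A) (x : A) (y : Fin m → A) :
    Prop where
  tens : TensorPos T (R : Set A)
  star_mem : ∀ q ∈ Q, star q ∈ Q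
  comm : ∀ r ∈ R, ∀ q ∈ Q, r * q = q * r
  pairs : Pairs u v
  u_mem : ∀ j, u j ∈ Q
  v_mem : ∀ j, v j ∈ Q
  comm_x : ∀ r ∈ R, r * x = x * r
  comm_y : ∀ r ∈ R, ∀ j, r * y j = y j * r
  sd_x : SD T (Q ∪ Set.range y) x
  sd_y : ∀ j, SD T (Q ∪ {x} ∪ {z | ∃ l, l ≠ j ∧ z = y l}) (y j)
  gen : ∀ z, z ∈ W T ((R : Set A) ∪ Q ∪ {x} ∪ Set.range y)

/-! ## `W` -/

theorem subset_W (S : Set A) : S ⊆ W T S :=
  (StarAlgebra.subset_adjoin ℂ S).trans (adjoin_subset_WSet T S)

theorem adjoin_le_W (S : Set A) : StarAlgebra.adjoin ℂ S ≤ W T S := adjoin_subset_WSet T S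

/-- `W` is 2-norm closed. -/
theorem mem_W_of_approx {S : Set A} {x : A} (h : ∀ ε : ℝ, 0 < ε → ∃ y ∈ W T S, T.nrm2 (x - y) < ε) :
    x ∈ W T S := by
  intro ε hε
  obtain ⟨y, hy, hxy⟩ := h (ε / 2) (by positivity)
  obtain ⟨a, ha, hya⟩ := hy (ε / 2) (by positivity)
  exact ⟨a, ha, (T.nrm2_triangle x y a).trans_lt (by linarith)⟩

theorem W_le {S S' : Set A} (h : S ⊆ W T S') : W T S ≤ W T S' := by
  intro x hx
  refine mem_W_of_approx T fun ε hε => ?_
  obtain ⟨a, ha, hxa⟩ := hx ε hε
  exact ⟨a, StarAlgebra.adjoin_le h ha, hxa⟩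

theorem W_mono {S S' : Set A} (h : S ⊆ S') : W T S ≤ W T S' := W_le T (h.trans (subset_W T S'))

/-- norm closed star subalgebras: `W` is norm closed. -/
theorem isClosed_W (S : Set A) : IsClosed (W T S : Set A) := by
  rw [← closure_subset_iff_isClosed]
  intro x hx
  refine mem_W_of_approx T fun ε hε => ?_
  obtain ⟨y, hy, hxy⟩ := Metric.mem_closure_iff.1 hx ε hε
  rw [dist_eq_norm] at hxy
  exact ⟨y, hy, (T.nrm2_le_norm _).trans_lt hxy⟩

/-- a trace preserving automorphism is 2-norm isometric -/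
theorem Pres.nrm2 {T : TracialState A} {α : A ≃⋆ₐ[ℂ] A} (h : Pres T α) (a : A) :
    T.nrm2 (α a) = T.nrm2 a := by
  unfold TracialState.nrm2
  rw [← map_star, ← map_mul, h]

theorem Pres.symm {T : TracialState A} {α : A ≃⋆ₐ[ℂ] A} (h : Pres T α) : Pres T α.symm := by
  intro a
  have := h (α.symm a)
  rwa [StarAlgEquiv.apply_symm_apply, eq_comm] at this

theorem Pres.trans {T : TracialState A} {α β : A ≃⋆ₐ[ℂ] A} (h : Pres T α) (h' : Pres T β) :
    Pres T (α.trans β) := by
  intro a
  rw [StarAlgEquiv.trans_apply, h', h]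

theorem Pres.refl : Pres T (StarAlgEquiv.refl ℂ A : A ≃⋆ₐ[ℂ] A) := fun _ => rfl

/-- automorphisms map `W` to `W` of the image -/
theorem Pres.map_mem_W {T : TracialState A} {α : A ≃⋆ₐ[ℂ] A} (h : Pres T α) {S S' : Set A}
    (hS : ∀ s ∈ S, α s ∈ W T S') {x : A} (hx : x ∈ W T S) : α x ∈ W T S' := by
  refine mem_W_of_approx T fun ε hε => ?_
  obtain ⟨a, ha, hxa⟩ := hx ε hε
  refine ⟨α a, ?_, ?_⟩
  · have hle : StarAlgebra.adjoin ℂ S ≤ (W T S').comap (α : A →⋆ₐ[ℂ] A) :=
      StarAlgebra.adjoin_le fun s hs => hS s hs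
    exact hle ha
  · rw [← map_sub, h.nrm2]; exact hxa

/-- two trace preserving automorphisms that agree on `S` agree on `W T S`. -/
theorem Pres.eq_on_W {T : TracialState A} (hT : ∀ a : A, T.nrm2 a = 0 → a = 0)
    {α β : A ≃⋆ₐ[ℂ] A} (h : Pres T α) (h' : Pres T β) {S : Set A}
    (hS : ∀ s ∈ S, α s = β s) {x : A} (hx : x ∈ W T S) : α x = β x := by
  rw [← sub_eq_zero]
  apply hT
  by_contra hne
  have hpos : 0 < T.nrm2 (α x - β x) := lt_of_le_of_ne (T.nrm2_nonneg _) (Ne.symm hne)
  obtain ⟨a, ha, hxa⟩ := hx (T.nrm2 (α x - β x) / 2) (by positivity)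
  have hab : α a = β a := by
    have hle : StarAlgebra.adjoin ℂ S ≤
        StarAlgHom.equalizer (α : A →⋆ₐ[ℂ] A) (β : A →⋆ₐ[ℂ] A) :=
      StarAlgebra.adjoin_le fun s hs => hS s hs
    exact hle ha
  have h1 : T.nrm2 (α x - α a) < T.nrm2 (α x - β x) / 2 := by
    rw [← map_sub, h.nrm2]; exact hxa
  have h2 : T.nrm2 (β a - β x) < T.nrm2 (α x - β x) / 2 := by
    rw [← map_sub, h'.nrm2, T.nrm2_sub_comm]; exact hxa
  have h3 := T.nrm2_triangle (α x) (α a) (β x)
  rw [hab] at h3 h1
  linarith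

/-! ## `Der`, `SD` -/

variable {T}

theorem Der.mono {G G' : Set A} (hG : G ⊆ G') {X w : A} {D : A → A → ℂ} (h : Der T G X w D) :
    Der T G' X w D := by
  induction h with
  | one => exact Der.one
  | coef ha => exact Der.coef (hG ha)
  | var => exact Der.var
  | add _ _ ih ih' => exact Der.add ih ih'
  | smul c _ ih => exact Der.smul c ih
  | mul _ _ ih ih' => exact Der.mul ih ih'

theorem SD.mono {G G' : Set A} (hG : G ⊆ G') {X : A} (h : SD T G' X) : SD T G X :=
  ⟨h.1, fun w D hD => h.2 w D (hD.mono hG)⟩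

theorem Der.zero {G : Set A} {X : A} : Der T G X 0 (fun _ _ => 0) := by
  have := Der.smul (T := T) (G := G) (X := X) 0 Der.one
  simpa using this

/-- elements of the algebra generated by a star closed set are coefficients -/
theorem Der.of_adjoin {G : Set A} (hG : ∀ g ∈ G, star g ∈ G) {X a : A}
    (ha : a ∈ StarAlgebra.adjoin ℂ G) : Der T G X a (fun _ _ => 0) := by
  have hstar : G ∪ star G = G := by
    rw [Set.union_eq_left]
    intro g hg
    have := hG _ hg
    rwa [star_star] at this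
  have ha' : a ∈ Algebra.adjoin ℂ G := by
    have h1 : a ∈ (StarAlgebra.adjoin ℂ G).toSubalgebra := ha
    rwa [StarAlgebra.adjoin_toSubalgebra, hstar] at h1
  induction ha' using Algebra.adjoin_induction with
  | mem x hx => exact Der.coef hx
  | algebraMap r =>
    have := Der.smul (T := T) (G := G) (X := X) r Der.one
    rw [Algebra.algebraMap_eq_smul_one]
    simpa using this
  | add x y hx' hy' hx hy =>
    have h1 : ∀ z, z ∈ Algebra.adjoin ℂ G → z ∈ StarAlgebra.adjoin ℂ G := by
      intro z hz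
      have : z ∈ (StarAlgebra.adjoin ℂ G).toSubalgebra := by
        rw [StarAlgebra.adjoin_toSubalgebra, hstar]; exact hz
      exact this
    simpa using Der.add (hx (h1 _ hx')) (hy (h1 _ hy'))
  | mul x y hx' hy' hx hy =>
    have h1 : ∀ z, z ∈ Algebra.adjoin ℂ G → z ∈ StarAlgebra.adjoin ℂ G := by
      intro z hz
      have : z ∈ (StarAlgebra.adjoin ℂ G).toSubalgebra := by
        rw [StarAlgebra.adjoin_toSubalgebra, hstar]; exact hz
      exact this
    simpa using Der.mul (hx (h1 _ hx')) (hy (h1 _ hy'))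

/-- coefficients may be taken in the generated algebra -/
theorem Der.reduce {G : Set A} (hG : ∀ g ∈ G, star g ∈ G) {X w : A} {D : A → A → ℂ}
    (h : Der T (StarAlgebra.adjoin ℂ G : Set A) X w D) : Der T G X w D := by
  induction h with
  | one => exact Der.one
  | coef ha => exact Der.of_adjoin hG ha
  | var => exact Der.var
  | add _ _ ih ih' => exact Der.add ih ih'
  | smul c _ ih => exact Der.smul c ih
  | mul _ _ ih ih' => exact Der.mul ih ih'

theorem SD.adjoin {G : Set A} (hG : ∀ g ∈ G, star g ∈ G) {X : A} (h : SD T G X) :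
    SD T (StarAlgebra.adjoin ℂ G : Set A) X :=
  ⟨h.1, fun w D hD => h.2 w D (hD.reduce hG)⟩

/-- `Der` is transported by trace preserving automorphisms -/
theorem Der.map {α : A ≃⋆ₐ[ℂ] A} (hα : Pres T α) {G : Set A} {X w : A} {D : A → A → ℂ}
    (h : Der T G X w D) :
    Der T (α '' G) (α X) (α w) (fun p q => D (α.symm p) (α.symm q)) := by
  induction h with
  | one => rw [map_one]; exact Der.one
  | coef ha => exact Der.coef ⟨_, ha, rfl⟩
  | var =>
    have := Der.var (T := T) (G := α '' G) (X := α X)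
    have e : (fun p q : A => T.τ (α.symm p) * T.τ (α.symm q)) = fun p q => T.τ p * T.τ q := by
      funext p q
      rw [hα.symm p, hα.symm q]
    rw [e]; exact this
  | add _ _ ih ih' => rw [map_add]; exact Der.add ih ih'
  | smul c _ ih => rw [map_smul]; exact Der.smul c ih
  | mul _ _ ih ih' =>
    rw [map_mul]
    have := Der.mul ih ih'
    simpa only [map_mul, StarAlgEquiv.symm_apply_apply] using this

/-- `SD` is transported by trace preserving automorphisms -/
theorem SD.map {α : A ≃⋆ₐ[ℂ] A} (hα : Pres T α) {G : Set A} {X : A} (h : SD T G X) :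
    SD T (α '' G) (α X) := by
  refine ⟨?_, fun w D hD => ?_⟩
  · have := h.1
    rw [isSelfAdjoint_iff] at this ⊢
    rw [← map_star, this]
  · have h1 := hD.map (α := α.symm) hα.symm
    have e : (α.symm : A → A) '' ((α : A → A) '' G) = G := by
      rw [Set.image_image]; simp
    rw [e, StarAlgEquiv.symm_apply_apply] at h1
    have h2 := h.2 _ _ h1
    rw [map_one] at h2
    rw [← h2, ← hα.symm (α X * w), map_mul, StarAlgEquiv.symm_apply_apply]

/-- automorphisms fixing `G` preserve `SD T G` -/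
theorem SD.map_fix {α : A ≃⋆ₐ[ℂ] A} (hα : Pres T α) {G : Set A} (hG : Fixes α G) {X : A}
    (h : SD T G X) : SD T G (α X) := by
  have h1 := h.map hα
  have e : (α : A → A) '' G = G := by
    ext z
    constructor
    · rintro ⟨g, hg, rfl⟩; rw [hG g hg]; exact hg
    · intro hz; exact ⟨z, hz, hG z hz⟩
  rwa [e] at h1

end Crest.Agent.R134
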