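import Crest.Agent.R134.Data
import Crest.Agent.R134.PauliSD
import Crest.Agent.R134.FreeHaar
import Crest.Agent.R134.Lines
import Crest.Agent.R134.Inv
import Crest.Agent.R134.Core

/-!
# R134 : the absorption step
-/

set_option autoImplicit false

universe u

namespace Crest.Agent.R134

open Crest.Agent.R95 Filter Topology

variable {A : Type u} [CStarAlgebra A] {T : TracialState A}

namespace Ab

/-! ## Small lemmas -/

theorem nrm2_sub_sq_unitary {a b : A} (ha : a ∈ unitary A) (hb : b ∈ unitary A) :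
    T.nrm2 (b - a) ^ 2 = 2 - 2 * (T.τ (star a * b)).re := by
  have h1 : T.nrm2 a = 1 := by
    have := T.nrm2_unitary_mul (Unitary.mem_iff.1 ha).1 1
    rwa [mul_one, T.nrm2_one] at this
  have h2 : T.nrm2 b = 1 := by
    have := T.nrm2_unitary_mul (Unitary.mem_iff.1 hb).1 1
    rwa [mul_one, T.nrm2_one] at this
  have h3 := T.nrm2_add_sq b (-a)
  rw [← sub_eq_add_neg, T.nrm2_neg, h1, h2, mul_neg, map_neg, Complex.neg_re,
    T.star_mul_comm_re a b] at h3
  linarith

/-- Bernoulli type inequality for products. -/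
theorem one_sub_sum_le_prod {ι : Type*} (s : Finset ι) (κ : ι → ℝ) (h0 : ∀ i, 0 ≤ κ i)
    (h1 : ∀ i, κ i ≤ 1) : 1 - ∑ i ∈ s, (1 - κ i) ≤ ∏ i ∈ s, κ i := by
  classical
  induction s using Finset.induction_on with
  | empty => simp
  | insert i s hi ih =>
    rw [Finset.sum_insert hi, Finset.prod_insert hi]
    have hp : ∏ i ∈ s, κ i ≤ 1 := Finset.prod_le_one (fun i _ => h0 i) (fun i _ => h1 i)
    have hp0 : 0 ≤ ∏ i ∈ s, κ i := Finset.prod_nonneg (fun i _ => h0 i)
    nlinarith [h0 i, h1 i]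

theorem mem_W_commutes (hT : ∀ a : A, T.nrm2 a = 0 → a = 0) {S : Set A} {r : A}
    (hr : ∀ s ∈ S, r * s = s * r) (hr' : ∀ s ∈ S, star r * s = s * star r) {x : A}
    (hx : x ∈ W T S) : r * x = x * r := by
  have key : ∀ a ∈ StarAlgebra.adjoin ℂ S, r * a = a * r := by
    intro a ha
    have hle : StarAlgebra.adjoin ℂ S ≤ StarSubalgebra.centralizer ℂ ({r} : Set A) := by
      apply StarAlgebra.adjoin_le
      intro s hs
      change s ∈ StarSubalgebra.centralizer ℂ ({r} : Set A)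
      rw [StarSubalgebra.mem_centralizer_iff]
      intro g hg
      rw [Set.mem_singleton_iff] at hg
      subst hg
      exact ⟨hr s hs, hr' s hs⟩
    have := hle ha
    rw [StarSubalgebra.mem_centralizer_iff] at this
    exact (this r rfl).1
  rw [← sub_eq_zero]
  apply hT
  by_contra hne
  have hpos : 0 < T.nrm2 (r * x - x * r) := lt_of_le_of_ne (T.nrm2_nonneg _) (Ne.symm hne)
  obtain ⟨a, ha, hxa⟩ := hx (T.nrm2 (r * x - x * r) / (2 * (‖r‖ + 1))) (by positivity)
  have e : r * x - x * r = r * (x - a) - (x - a) * r := by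
    rw [mul_sub, sub_mul, key a ha]; abel
  have h1 : T.nrm2 (r * (x - a)) ≤ ‖r‖ * T.nrm2 (x - a) := T.nrm2_mul_le_left _ _
  have h2 : T.nrm2 ((x - a) * r) ≤ T.nrm2 (x - a) * ‖r‖ := T.nrm2_mul_le_right _ _
  have h3 := T.nrm2_sub_le (r * (x - a)) ((x - a) * r)
  rw [← e] at h3
  have h4 : T.nrm2 (r * x - x * r) ≤ 2 * ‖r‖ * T.nrm2 (x - a) := by linarith
  have h5 : 2 * ‖r‖ * T.nrm2 (x - a) ≤
      2 * ‖r‖ * (T.nrm2 (r * x - x * r) / (2 * (‖r‖ + 1))) := by gcongr
  have h6 : 2 * ‖r‖ * (T.nrm2 (r * x - x * r) / (2 * (‖r‖ + 1))) < T.nrm2 (r * x - x * r) := by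
    rw [mul_div_assoc', div_lt_iff₀ (by positivity)]
    nlinarith [norm_nonneg r]
  linarith

/-! ## The tensor position algebra generated by `R` and the Pauli system -/

section Pauli

variable {ι : Type} [Fintype ι] [DecidableEq ι] (F : PauliSys A ι)

theorem E_f (i : ι) : F.E (F.f i) = if i = F.o then 1 else 0 := by
  have := F.E_ff i F.o
  rwa [F.f_o, mul_one] at this

/-- the algebra of the elements whose coordinates are in `R` -/
def Rp (R : StarSubalgebra ℂ A) : StarSubalgebra ℂ A where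
  carrier := {r | ∀ i, F.E (F.f i * r) ∈ R}
  mul_mem' := by
    intro a b ha hb i
    have e : F.E (F.f i * (a * b)) = ∑ k, F.E (F.f k * (F.f i * a)) * F.E (F.f k * b) := by
      conv_lhs => rw [F.decomp b, Finset.mul_sum, Finset.mul_sum, F.E_sum]
      refine Finset.sum_congr rfl fun k _ => ?_
      rw [show F.f i * (a * (F.f k * F.E (F.f k * b))) = F.f i * a * F.f k * F.E (F.f k * b) by
        noncomm_ring, F.E_mul_right (F.E_inQ _), F.E_f_comm k (F.f i * a)]
    rw [e]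
    refine sum_mem fun k _ => mul_mem ?_ (hb k)
    obtain ⟨σ, hσ⟩ := F.perm k
    obtain ⟨z, _, hz⟩ := hσ i
    rw [← mul_assoc, hz, smul_mul_assoc, F.E_smul]
    exact R.smul_mem (ha _) _
  add_mem' := by
    intro a b ha hb i
    rw [mul_add, F.E_add]
    exact add_mem (ha i) (hb i)
  algebraMap_mem' := by
    intro c i
    rw [Algebra.algebraMap_eq_smul_one, mul_smul_comm, mul_one, F.E_smul, E_f]
    refine R.smul_mem ?_ _
    split_ifs
    · exact one_mem R
    · exact zero_mem R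
  star_mem' := by
    intro a ha i
    rw [← F.star_E_f]
    exact star_mem (ha i)

theorem mem_Rp {R : StarSubalgebra ℂ A} {r : A} :
    r ∈ Rp F R ↔ ∀ i, F.E (F.f i * r) ∈ R := Iff.rfl

theorem le_Rp {R : StarSubalgebra ℂ A} (hR : ∀ r ∈ R, F.InQ r) : R ≤ Rp F R := by
  intro r hr i
  rw [F.E_mul_right (hR r hr), E_f]
  refine mul_mem ?_ hr
  split_ifs
  · exact one_mem R
  · exact zero_mem R

theorem f_mem_Rp (R : StarSubalgebra ℂ A) (j : ι) : F.f j ∈ Rp F R := by
  intro i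
  rw [F.E_ff]
  split_ifs
  · exact one_mem R
  · exact zero_mem R

theorem tensorPos_Rp {R : StarSubalgebra ℂ A} (hR : ∀ r ∈ R, F.InQ r)
    (h : TensorPos T (R : Set A)) : TensorPos T (Rp F R : Set A) := by
  intro r hr q hq
  have hqQ : F.InQ q := fun i => hq _ (f_mem_Rp F R i)
  have hEr : F.E r ∈ R := by
    have := hr F.o
    rwa [F.f_o, one_mul] at this
  rw [F.tau_E_right T hqQ, h _ hEr q fun r' hr' => hq r' (le_Rp F hR hr'), F.tau_E']

/-- an element commutes with `Rp` if it commutes with `R` and with the Pauli system. -/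
theorem comm_Rp {R : StarSubalgebra ℂ A} {q : A} (hq : F.InQ q)
    (hqR : ∀ r ∈ R, r * q = q * r) {r : A} (hr : r ∈ Rp F R) : r * q = q * r := by
  rw [F.decomp r, Finset.sum_mul, Finset.mul_sum]
  refine Finset.sum_congr rfl fun i _ => ?_
  rw [mul_assoc, hqR _ (hr i), ← mul_assoc, hq i, mul_assoc]

theorem comm_E {r : A} (hr : F.InQ r) {b : A} (hb : r * b = b * r) (i : ι) :
    r * F.E (F.f i * b) = F.E (F.f i * b) * r := by
  rw [← F.E_mul_left hr, ← F.E_mul_right hr, ← mul_assoc, ← hr i, mul_assoc, hb, mul_assoc]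

theorem comm_coo {r : A} (hr : F.InQ r) {b : A} (hb : r * b = b * r) (i : ι) :
    r * coo F b i = coo F b i * r := by
  unfold coo
  rw [mul_smul_comm, smul_mul_assoc, comm_E F hr hb]

/-- commuting with `Q` implies commuting with the generated algebra -/
theorem comm_adjoin {R : StarSubalgebra ℂ A} {Q : Set A} (h : ∀ r ∈ R, ∀ q ∈ Q, r * q = q * r)
    {r : A} (hr : r ∈ R) {q : A} (hq : q ∈ StarAlgebra.adjoin ℂ Q) : r * q = q * r := by
  have hle : StarAlgebra.adjoin ℂ Q ≤ StarSubalgebra.centralizer ℂ ({r} : Set A) := by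
    apply StarAlgebra.adjoin_le
    intro s hs
    change s ∈ StarSubalgebra.centralizer ℂ ({r} : Set A)
    rw [StarSubalgebra.mem_centralizer_iff]
    intro g hg
    rw [Set.mem_singleton_iff] at hg
    subst hg
    exact ⟨h g hr s hs, h _ (star_mem hr) s hs⟩
  have := hle hq
  rw [StarSubalgebra.mem_centralizer_iff] at this
  exact (this r rfl).1

/-! ## The coordinates -/

/-- the coefficient algebra: the relative commutant of the Pauli system in the algebra of `Q` -/
def G0 (Q : Set A) : Set A := {q | q ∈ StarAlgebra.adjoin ℂ Q ∧ F.InQ q}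

theorem star_mem_G0 {Q : Set A} {q : A} (hq : q ∈ G0 F Q) : star q ∈ G0 F Q :=
  ⟨star_mem hq.1, F.inQ_star hq.2⟩

variable {O : Type}

/-- the coordinate `s.2` of the element `b s.1` -/
noncomputable def Zc (b : O → A) (s : O × ι) : A := coo F (b s.1) s.2

/-- the coefficients over which `Zc F b s` is semicircular -/
def Ss (Q : Set A) (b : O → A) (s : O × ι) : Set A :=
  G0 F Q ∪ {z | ∃ t, t ≠ s ∧ z = Zc F b t}

theorem sd_coord {Q : Set A} (hQ : ∀ q ∈ Q, star q ∈ Q) (hF : ∀ i, F.f i ∈ StarAlgebra.adjoin ℂ Q)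
    {b : O → A} (hb : ∀ o, SD T (Q ∪ {z | ∃ o', o' ≠ o ∧ z = b o'}) (b o)) (s : O × ι) :
    SD T (Ss F Q b s) (Zc F b s) := by
  have hstar : ∀ g ∈ (Q ∪ {z | ∃ o', o' ≠ s.1 ∧ z = b o'}),
      star g ∈ (Q ∪ {z | ∃ o', o' ≠ s.1 ∧ z = b o'}) := by
    rintro g (hg | ⟨o', ho', rfl⟩)
    · exact Or.inl (hQ g hg)
    · exact Or.inr ⟨o', ho', (hb o').1⟩
  have h1 := (hb s.1).adjoin hstar
  have hF' : ∀ i, F.f i ∈ (StarAlgebra.adjoin ℂ (Q ∪ {z | ∃ o', o' ≠ s.1 ∧ z = b o'})) :=
    fun i => StarAlgebra.adjoin_mono Set.subset_union_left (hF i)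
  refine (SD.coo T F hF' h1 s.2).mono ?_
  rintro z (⟨hz, hzQ⟩ | ⟨t, ht, rfl⟩)
  · exact Or.inl ⟨StarAlgebra.adjoin_mono Set.subset_union_left hz, hzQ⟩
  · by_cases ho : t.1 = s.1
    · refine Or.inr ⟨t.2, fun h => ht (Prod.ext ho h), ?_⟩
      unfold Zc
      rw [ho]
    · refine Or.inl ⟨?_, coo_inQ F _ _⟩
      exact coo_mem F _ hF' (StarAlgebra.subset_adjoin ℂ _ (Or.inr ⟨t.1, ho, rfl⟩)) _

theorem Zc_sa {b : O → A} (hb : ∀ o, IsSelfAdjoint (b o)) (s : O × ι) : IsSelfAdjoint (Zc F b s) :=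
  coo_sa F (hb _) _

theorem star_Ss {Q : Set A} {b : O → A} (hb : ∀ o, IsSelfAdjoint (b o)) (s : O × ι) :
    ∀ z ∈ Ss F Q b s, star z ∈ Ss F Q b s := by
  rintro z (hz | ⟨t, ht, rfl⟩)
  · exact Or.inl (star_mem_G0 F hz)
  · exact Or.inr ⟨t, ht, Zc_sa F hb t⟩

theorem Ss_inQ {Q : Set A} {b : O → A} {s : O × ι} {z : A} (hz : z ∈ Ss F Q b s) : F.InQ z := by
  rcases hz with hz | ⟨t, _, rfl⟩
  · exact hz.2
  · exact coo_inQ F _ _

theorem Zc_mem_Ss {Q : Set A} {b : O → A} {s t : O × ι} (h : t ≠ s) : Zc F b t ∈ Ss F Q b s :=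
  Or.inr ⟨t, h, rfl⟩

theorem G0_sub_Ss {Q : Set A} {b : O → A} {s : O × ι} : G0 F Q ⊆ Ss F Q b s :=
  Set.subset_union_left

/-! ## the standing context of the slot automorphisms -/

/-- The context: tensor position algebra `R`, Pauli system in the algebra of `Q`, a family `b` of
free semicircular elements. -/
structure Ctx (T : TracialState A) (R : StarSubalgebra ℂ A) (Q : Set A) (b : O → A) : Prop where
  amb : Amb T
  tens : TensorPos T (R : Set A)
  star_mem : ∀ q ∈ Q, star q ∈ Q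
  comm : ∀ r ∈ R, ∀ q ∈ Q, r * q = q * r
  f_mem : ∀ i, F.f i ∈ StarAlgebra.adjoin ℂ Q
  comm_b : ∀ r ∈ R, ∀ o, r * b o = b o * r
  sd : ∀ o, SD T (Q ∪ {z | ∃ o', o' ≠ o ∧ z = b o'}) (b o)
  gen : ∀ z, z ∈ W T ((R : Set A) ∪ Q ∪ Set.range b)

variable {F}
variable {R : StarSubalgebra ℂ A} {Q : Set A} {b : O → A}

theorem Ctx.inQ (h : Ctx F T R Q b) : ∀ r ∈ R, F.InQ r := fun _ hr i =>
  (comm_adjoin h.comm hr (h.f_mem i)).symm

theorem Ctx.sa (h : Ctx F T R Q b) (s : O × ι) : IsSelfAdjoint (Zc F b s) :=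
  Zc_sa F (fun o => (h.sd o).1) s

theorem Ctx.sdZ (h : Ctx F T R Q b) (s : O × ι) : SD T (Ss F Q b s) (Zc F b s) :=
  sd_coord F h.star_mem h.f_mem h.sd s

theorem Ctx.starS (h : Ctx F T R Q b) (s : O × ι) : ∀ z ∈ Ss F Q b s, star z ∈ Ss F Q b s :=
  star_Ss F (fun o => (h.sd o).1) s

/-- `R'` commutes with `G0` -/
theorem Ctx.comm_G0 (h : Ctx F T R Q b) {q : A} (hq : q ∈ G0 F Q) {r : A} (hr : r ∈ Rp F R) :
    r * q = q * r :=
  comm_Rp F hq.2 (fun _ hr' => comm_adjoin h.comm hr' hq.1) hr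

/-- `R'` commutes with the coordinates -/
theorem Ctx.comm_Z (h : Ctx F T R Q b) (s : O × ι) {r : A} (hr : r ∈ Rp F R) :
    r * Zc F b s = Zc F b s * r :=
  comm_Rp F (coo_inQ F _ _) (fun r' hr' => comm_coo F (h.inQ r' hr') (h.comm_b r' hr' _) _) hr

theorem Ctx.comm_Ss (h : Ctx F T R Q b) (s : O × ι) {z : A} (hz : z ∈ Ss F Q b s) {r : A}
    (hr : r ∈ Rp F R) : r * z = z * r := by
  rcases hz with hz | ⟨t, _, rfl⟩
  · exact h.comm_G0 hz hr
  · exact h.comm_Z t hr

theorem Ctx.comm_W (h : Ctx F T R Q b) (s : O × ι) {z : A} (hz : z ∈ W T (Ss F Q b s)) {r : A}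
    (hr : r ∈ Rp F R) : r * z = z * r :=
  mem_W_commutes h.amb.faithful (fun _ hs => h.comm_Ss s hs hr)
    (fun _ hs => h.comm_Ss s hs (StarMemClass.star_mem hr)) hz

theorem Ctx.comm_uu (h : Ctx F T R Q b) (s : O × ι) {r : A} (hr : r ∈ Rp F R) :
    r * uu (Zc F b s) = uu (Zc F b s) * r := by
  refine mem_W_commutes (T := T) (S := {Zc F b s}) h.amb.faithful ?_ ?_ (uu_mem T (h.sa s))
  · rintro _ rfl; exact h.comm_Z s hr
  · rintro _ rfl; exact h.comm_Z s (StarMemClass.star_mem hr)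

theorem Ctx.uu_unitary (h : Ctx F T R Q b) (s : O × ι) : uu (Zc F b s) ∈ unitary A := by
  rw [← ru_pow one_pos (h.sa s)]
  exact pow_mem (ru_unitary 1 (h.sa s)) 1

theorem Ctx.uu_mem_W (h : Ctx F T R Q b) {s : O × ι} {S : Set A} (hs : Zc F b s ∈ S) :
    uu (Zc F b s) ∈ W T S :=
  W_mono T (Set.singleton_subset_iff.2 hs) (uu_mem T (h.sa s))

theorem Ctx.freeHaar (h : Ctx F T R Q b) (s : O × ι) :
    FreeHaar T (W T (Ss F Q b s) : Set A) (uu (Zc F b s)) :=
  FreeHaar.closure T (SD.freeHaar T h.amb (h.starS s) (h.sdZ s))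

/-- generation: `R'`, the coefficients and the Haar unitary of the slot generate everything -/
theorem Ctx.gen_slot (h : Ctx F T R Q b) (s : O × ι) (S : Set A)
    (hR : (Rp F R : Set A) ⊆ W T S) (hS : (W T (Ss F Q b s) : Set A) ⊆ W T S)
    (hu : uu (Zc F b s) ∈ W T S) (z : A) : z ∈ W T S := by
  refine W_le T ?_ (h.gen z)
  have hf : ∀ i, F.f i ∈ W T S := fun i => hR (f_mem_Rp F R i)
  have hZ : ∀ t, Zc F b t ∈ W T S := by
    intro t
    by_cases hts : t = s
    · subst hts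
      exact W_le T (Set.singleton_subset_iff.2 hu) (SD.mem_W_uu T h.amb (h.starS t) (h.sdZ t))
    · exact hS (subset_W T _ (Zc_mem_Ss F hts))
  rintro z ((hz | hz) | ⟨o, rfl⟩)
  · exact hR (le_Rp F h.inQ hz)
  · rw [F.decomp z]
    refine sum_mem fun i _ => mul_mem (hf i) (hS (subset_W T _ (G0_sub_Ss F ⟨?_, F.E_inQ _⟩)))
    exact F.E_mem h.f_mem (mul_mem (h.f_mem i) (StarAlgebra.subset_adjoin ℂ _ hz))
  · exact mem_of_coo_mem F _ hf fun i => hZ (o, i)

/-- the slot automorphisms -/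
theorem Ctx.slot (h : Ctx F T R Q b) (s : O × ι) {V V' : A} (hV : V ∈ unitary A)
    (hVW : V ∈ W T (Ss F Q b s)) (hV' : V' ∈ unitary A) (hVW' : V' ∈ W T (Ss F Q b s)) :
    ∃ α : A ≃⋆ₐ[ℂ] A, Pres T α ∧ Fixes α (Rp F R : Set A) ∧
      Fixes α (W T (Ss F Q b s) : Set A) ∧ α (uu (Zc F b s)) = V * uu (Zc F b s) * V' := by
  refine FreeHaar.ext T h.amb (tensorPos_Rp F h.inQ h.tens) (fun r hr g hg => h.comm_W s hg hr)
    (fun r hr => h.comm_uu s hr) ?_ (h.freeHaar s) ((h.freeHaar s).mul T hV hVW hV' hVW') ?_ ?_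
  · intro r hr
    have h1 := h.comm_W s hVW hr
    have h2 := h.comm_W s hVW' hr
    have h3 := h.comm_uu s hr
    calc r * (V * uu (Zc F b s) * V') = (r * V) * uu (Zc F b s) * V' := by noncomm_ring
      _ = V * (r * uu (Zc F b s)) * V' := by rw [h1]; noncomm_ring
      _ = V * uu (Zc F b s) * (r * V') := by rw [h3]; noncomm_ring
      _ = V * uu (Zc F b s) * V' * r := by rw [h2]; noncomm_ring
  · refine fun z => h.gen_slot s _ ?_ ?_ ?_ z
    · exact (Set.subset_union_left.trans Set.subset_union_left).trans (subset_W T _)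
    · exact (Set.subset_union_right.trans Set.subset_union_left).trans (subset_W T _)
    · exact subset_W T _ (Or.inr rfl)
  · have hsub : (W T (Ss F Q b s) : Set A) ⊆ W T ((Rp F R : Set A) ∪ W T (Ss F Q b s) ∪
        {V * uu (Zc F b s) * V'}) :=
      (Set.subset_union_right.trans Set.subset_union_left).trans (subset_W T _)
    refine fun z => h.gen_slot s _ ?_ hsub ?_ z
    · exact (Set.subset_union_left.trans Set.subset_union_left).trans (subset_W T _)
    · have e : uu (Zc F b s) = star V * (V * uu (Zc F b s) * V') * star V' := by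
        rw [Unitary.mem_iff] at hV hV'
        calc uu (Zc F b s) = (star V * V) * uu (Zc F b s) * (V' * star V') := by
              rw [hV.1, hV'.2, one_mul, mul_one]
          _ = _ := by noncomm_ring
      have hmem : star V * (V * uu (Zc F b s) * V') * star V' ∈ W T ((Rp F R : Set A) ∪
          W T (Ss F Q b s) ∪ {V * uu (Zc F b s) * V'}) :=
        mul_mem (mul_mem (StarMemClass.star_mem (hsub hVW)) (subset_W T _ (Or.inr rfl)))
          (StarMemClass.star_mem (hsub hVW'))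
      rwa [← e] at hmem

end Pauli

/-! ## the application of the core -/

section Apply

variable {J m : ℕ} {F : PauliSys A (Fin (4 ^ J))} {R : StarSubalgebra ℂ A} {Q : Set A}
  {b : Option (Fin m) → A}

/-- the slot of the target `k` -/
def sc (J m : ℕ) (k : Fin (m * 4 ^ J)) : Option (Fin m) × Fin (4 ^ J) :=
  (some (finProdFinEquiv.symm k).1, (finProdFinEquiv.symm k).2)

theorem sc_inj {J m : ℕ} {k l : Fin (m * 4 ^ J)} (h : sc J m k = sc J m l) : k = l := by
  unfold sc at h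
  rw [Prod.ext_iff] at h
  exact finProdFinEquiv.symm.injective (Prod.ext (Option.some.inj h.1) h.2)

theorem sc_apply (j : Fin m) (i : Fin (4 ^ J)) : sc J m (finProdFinEquiv (j, i)) = (some j, i) := by
  unfold sc
  rw [Equiv.symm_apply_apply]

theorem Ctx.core (h : Ctx F T R Q b) (d : Fin (m * 4 ^ J) → ℕ) (hd : ∀ k, 0 < d k)
    (L : ∀ k, Fin (d k) → Fin (4 ^ J)) (hLinj : ∀ k, Function.Injective (L k))
    (hL2 : ∀ k k', k ≠ k' → ∀ l m l' m', L k l = L k' l' → L k m = L k' m' → l = m) :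
    ∃ α : A ≃⋆ₐ[ℂ] A, Pres T α ∧ Fixes α ((Rp F R : Set A) ∪ G0 F Q) ∧
      (∀ k, T.τ (star (uu (Zc F b (sc J m k))) *
          α (List.ofFn fun l => uu (Zc F b (none, L k l))).prod) =
        ∏ k' with (k < k' ∧ ∃ l l', L k l = L k' l'), (kap (d k') : ℂ)) ∧
      (∀ i, T.τ (star (uu (Zc F b (none, i))) * α (uu (Zc F b (none, i)))) =
        ∏ k with (∃ l, L k l = i), (kap (d k) : ℂ)) := by
  have hne : ∀ (i : Fin (4 ^ J)) (k : Fin (m * 4 ^ J)), sc J m k ≠ (none, i) := fun i k hk => by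
    have := congrArg Prod.fst hk
    exact absurd this (by unfold sc; simp)
  -- the membership facts
  have hBu : ∀ i, (G0 F Q ∪ {z | ∃ j, j ≠ i ∧ z = uu (Zc F b (none, j))} ∪
      Set.range fun k => uu (Zc F b (sc J m k))) ⊆ (W T (Ss F Q b (none, i)) : Set A) := by
    rintro i z ((hz | ⟨j, hj, rfl⟩) | ⟨k, rfl⟩)
    · exact subset_W T _ (G0_sub_Ss F hz)
    · exact h.uu_mem_W (Zc_mem_Ss F fun hh => hj (congrArg Prod.snd hh))
    · exact h.uu_mem_W (Zc_mem_Ss F (hne i k))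
  have hBc : ∀ k, (G0 F Q ∪ (Set.range fun i => uu (Zc F b (none, i))) ∪
      {z | ∃ l, l ≠ k ∧ z = uu (Zc F b (sc J m l))}) ⊆ (W T (Ss F Q b (sc J m k)) : Set A) := by
    rintro k z ((hz | ⟨i, rfl⟩) | ⟨l, hl, rfl⟩)
    · exact subset_W T _ (G0_sub_Ss F hz)
    · exact h.uu_mem_W (Zc_mem_Ss F (hne i k).symm)
    · exact h.uu_mem_W (Zc_mem_Ss F fun hh => hl (sc_inj hh))
  refine R134.core T h.amb.faithful (G0 F Q) ((Rp F R : Set A) ∪ G0 F Q)
    (fun i => uu (Zc F b (none, i))) (fun k => uu (Zc F b (sc J m k)))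
    (fun k => ru (d k) (Zc F b (sc J m k))) d (fun k => kap (d k)) L
    Set.subset_union_right (fun i => h.uu_unitary _) (fun k => h.uu_unitary _)
    (fun k => ru_unitary _ (h.sa _)) (fun k => ru_pow (hd k) (h.sa _)) ?_ ?_ ?_ ?_
    hLinj hL2
  · intro k
    -- `ru` is in the algebra generated by `uu`
    have h1 := ru_mem T (d k) (h.sa (sc J m k))
    exact W_le T (Set.singleton_subset_iff.2
      (SD.mem_W_uu T h.amb (h.starS _) (h.sdZ (sc J m k)))) h1
  · intro k a ha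
    exact SD.tau_mul_ru T h.amb (h.starS _) (h.sdZ (sc J m k)) (hd k) (W_le T (hBc k) ha)
  · intro i V hV hVW
    obtain ⟨α, hα, hαR, hαW, hαu⟩ := h.slot (none, i) (one_mem (unitary A)) (one_mem _) hV
      (W_le T (hBu i) hVW)
    refine ⟨α, hα, ?_, ?_, ?_, by rw [hαu, one_mul]⟩
    · rintro z (hz | hz)
      · exact hαR z hz
      · exact hαW z (hBu i (Or.inl (Or.inl hz)))
    · intro j hj
      exact hαW _ (hBu i (Or.inl (Or.inr ⟨j, hj, rfl⟩)))
    · intro k
      exact hαW _ (hBu i (Or.inr ⟨k, rfl⟩))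
  · intro k V hV hVW
    obtain ⟨α, hα, hαR, hαW, hαu⟩ := h.slot (sc J m k) hV (W_le T (hBc k) hVW)
      (one_mem (unitary A)) (one_mem _)
    refine ⟨α, hα, ?_, ?_, ?_, by rw [hαu, mul_one]⟩
    · rintro z (hz | hz)
      · exact hαR z hz
      · exact hαW z (hBc k (Or.inl (Or.inl hz)))
    · intro i
      exact hαW _ (hBc k (Or.inl (Or.inr ⟨i, rfl⟩)))
    · intro l hl
      exact hαW _ (hBc k (Or.inr ⟨l, hl, rfl⟩))

/-- the estimate for a trace that is a product of `kap`s -/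
theorem nrm2_lt_of_prod {a c : A} (ha : a ∈ unitary A) (hc : c ∈ unitary A) {K : Type*}
    (s : Finset K) (d : K → ℕ) (hd : ∀ k, 0 < d k)
    (htr : T.τ (star c * a) = ∏ k ∈ s, (kap (d k) : ℂ)) {δ : ℝ} (hδ : 0 < δ)
    (hs : ∑ k ∈ s, (5 : ℝ) / (d k : ℝ) ^ 2 ≤ δ ^ 2 / 4) : T.nrm2 (a - c) < δ := by
  have h1 := nrm2_sub_sq_unitary (T := T) hc ha
  have hre : (T.τ (star c * a)).re = ∏ k ∈ s, kap (d k) := by
    rw [htr, ← Complex.ofReal_prod, Complex.ofReal_re]
  have h2 := one_sub_sum_le_prod s (fun k => kap (d k))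
    (fun k => (kap_bounds (hd k)).1) (fun k => (kap_bounds (hd k)).2.1)
  have h3 : ∑ k ∈ s, (1 - kap (d k)) ≤ ∑ k ∈ s, (5 : ℝ) / (d k : ℝ) ^ 2 :=
    Finset.sum_le_sum fun k _ => (kap_bounds (hd k)).2.2
  have h4 : T.nrm2 (a - c) ^ 2 < δ ^ 2 := by
    rw [h1, hre]
    have : 0 < δ ^ 2 := by positivity
    linarith
  exact lt_of_pow_lt_pow_left₀ 2 hδ.le h4

end Apply

end Ab

/-- **The absorption step.** -/
theorem absorb (hT : Amb T) {m : ℕ} {R : StarSubalgebra ℂ A} {Q : Set A} {u v : ℕ → A} {x : A}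
    {y : Fin m → A} (h : Data T R Q u v x y) (ε : ℝ) (hε : 0 < ε) :
    ∃ α : A ≃⋆ₐ[ℂ] A, Pres T α ∧ Fixes α ((R : Set A) ∪ Q) ∧ T.nrm2 (α x - x) < ε ∧
      ∀ j, ∃ z ∈ W T ((R : Set A) ∪ Q ∪ {α x}), IsSelfAdjoint z ∧ T.nrm2 (z - y j) < ε := by
  obtain ⟨δa, hδa, ha⟩ := inverse_a.{u} (ε / 2) (by positivity)
  obtain ⟨δb, hδb, hb⟩ := inverse_b.{u} (ε / 2) (by positivity)
  set δ := min δa δb with hδdef
  have hδ : 0 < δ := lt_min hδa hδb
  obtain ⟨J, d, L, hd, hLinj, hL2, hcross, hdeg⟩ := Lines.exists_design m (δ ^ 2 / 4)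
    (by positivity)
  obtain ⟨F, hF⟩ := PauliSys.exists_pauliSys u v h.pairs.1 h.pairs.2 J
  have hfQ : ∀ i, F.f i ∈ StarAlgebra.adjoin ℂ Q := hF _ fun j =>
    ⟨StarAlgebra.subset_adjoin ℂ _ (h.u_mem j), StarAlgebra.subset_adjoin ℂ _ (h.v_mem j)⟩
  let b : Option (Fin m) → A := fun o => o.elim x y
  have hbx : ∀ i, Ab.Zc F b (none, i) = coo F x i := fun i => rfl
  have hby : ∀ j i, Ab.Zc F b (some j, i) = coo F (y j) i := fun j i => rfl
  have hctx : Ab.Ctx F T R Q b := by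
    refine ⟨hT, h.tens, h.star_mem, h.comm, hfQ, ?_, ?_, ?_⟩
    · rintro r hr (_ | j)
      · exact h.comm_x r hr
      · exact h.comm_y r hr j
    · rintro (_ | j)
      · refine h.sd_x.mono ?_
        rintro z (hz | ⟨o', ho', rfl⟩)
        · exact Or.inl hz
        · rcases o' with _ | l
          · exact absurd rfl ho'
          · exact Or.inr ⟨l, rfl⟩
      · refine (h.sd_y j).mono ?_
        rintro z (hz | ⟨o', ho', rfl⟩)
        · exact Or.inl (Or.inl hz)
        · rcases o' with _ | l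
          · exact Or.inl (Or.inr rfl)
          · exact Or.inr ⟨l, fun hh => ho' (by rw [hh]), rfl⟩
    · intro z
      refine W_mono T ?_ (h.gen z)
      rintro w (((hw | hw) | hw) | ⟨j, rfl⟩)
      · exact Or.inl (Or.inl hw)
      · exact Or.inl (Or.inr hw)
      · rw [Set.mem_singleton_iff] at hw
        subst hw
        exact Or.inr ⟨none, rfl⟩
      · exact Or.inr ⟨some j, rfl⟩
  obtain ⟨α, hα, hαfix, hαc, hαu⟩ := hctx.core d hd L hLinj hL2
  have hαf : ∀ i, α (F.f i) = F.f i := fun i => hαfix _ (Or.inl (Ab.f_mem_Rp F R i))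
  refine ⟨α, hα, ?_, ?_, ?_⟩
  · -- `α` fixes `R` and `Q`
    rintro z (hz | hz)
    · exact hαfix z (Or.inl (Ab.le_Rp F hctx.inQ hz))
    · have hE : ∀ i, α (F.E (F.f i * z)) = F.E (F.f i * z) := fun i =>
        hαfix _ (Or.inr ⟨F.E_mem hfQ (mul_mem (hfQ i) (StarAlgebra.subset_adjoin ℂ _ hz)),
          F.E_inQ _⟩)
      conv_lhs => rw [F.decomp z]
      rw [map_sum]
      conv_rhs => rw [F.decomp z]
      exact Finset.sum_congr rfl fun i _ => by rw [map_mul, hαf, hE]
  · -- `α x` is close to `x`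
    refine (nrm2_sub_le_of_coo T F (ε := ε / 2) (by positivity) fun i => ?_).trans_lt (by linarith)
    rw [coo_map F α hαf]
    have h1 : T.nrm2 (α (uu (coo F x i)) - uu (coo F x i)) < δa := by
      refine lt_of_lt_of_le ?_ (min_le_left δa δb)
      exact Ab.nrm2_lt_of_prod (T := T) (Unitary.map_mem α (hctx.uu_unitary (none, i)))
        (hctx.uu_unitary (none, i)) _ d hd (hαu i) hδ (hdeg i)
    exact (ha A T hT _ (hctx.starS (none, i)) _ (hctx.sdZ (none, i)) α hα h1).le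
  · -- the targets
    intro j
    have hV : ∀ k, (List.ofFn fun l => uu (Ab.Zc F b (none, L k l))).prod ∈ unitary A := by
      intro k
      refine Submonoid.list_prod_mem _ fun z hz => ?_
      rw [List.mem_ofFn] at hz
      obtain ⟨l, rfl⟩ := hz
      exact hctx.uu_unitary _
    have hz : ∀ k, ∃ z ∈ StarAlgebra.adjoin ℂ
        ({α (List.ofFn fun l => uu (Ab.Zc F b (none, L k l))).prod} : Set A), IsSelfAdjoint z ∧
          T.nrm2 (z - Ab.Zc F b (Ab.sc J m k)) < ε / 2 := by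
      intro k
      refine hb A T hT _ (hctx.starS (Ab.sc J m k)) _ (hctx.sdZ (Ab.sc J m k)) _
        (Unitary.map_mem α (hV k)) ?_
      refine lt_of_lt_of_le ?_ (min_le_right δa δb)
      exact Ab.nrm2_lt_of_prod (T := T) (Unitary.map_mem α (hV k))
        (hctx.uu_unitary _) _ d hd (hαc k) hδ (hcross k)
    choose z hzm hzs hzε using hz
    -- `z k` commutes with the Pauli system
    have hVQ : ∀ k, F.InQ (α (List.ofFn fun l => uu (Ab.Zc F b (none, L k l))).prod) := by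
      intro k i
      have hmem : (List.ofFn fun l => uu (Ab.Zc F b (none, L k l))).prod ∈
          StarSubalgebra.centralizer ℂ ({F.f i} : Set A) := by
        refine list_prod_mem fun w hw => ?_
        rw [List.mem_ofFn] at hw
        obtain ⟨l, rfl⟩ := hw
        rw [StarSubalgebra.mem_centralizer_iff]
        rintro g hg
        rw [Set.mem_singleton_iff] at hg
        subst hg
        rw [F.star_f]
        exact ⟨hctx.comm_uu _ (Ab.f_mem_Rp F R i), hctx.comm_uu _ (Ab.f_mem_Rp F R i)⟩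
      rw [StarSubalgebra.mem_centralizer_iff] at hmem
      have h1 := (hmem _ rfl).1
      have h2 := congrArg α h1
      rwa [map_mul, map_mul, hαf] at h2
    have hzQ : ∀ k, F.InQ (z k) := by
      intro k i
      have hle : StarAlgebra.adjoin ℂ
          ({α (List.ofFn fun l => uu (Ab.Zc F b (none, L k l))).prod} : Set A) ≤
          StarSubalgebra.centralizer ℂ ({F.f i} : Set A) := by
        refine StarAlgebra.adjoin_le ?_
        intro w hw
        rw [Set.mem_singleton_iff] at hw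
        subst hw
        rw [SetLike.mem_coe, StarSubalgebra.mem_centralizer_iff]
        rintro g hg
        rw [Set.mem_singleton_iff] at hg
        subst hg
        rw [F.star_f]
        exact ⟨hVQ k i, hVQ k i⟩
      have := hle (hzm k)
      rw [StarSubalgebra.mem_centralizer_iff] at this
      exact (this _ rfl).1
    -- membership
    have hαW : ∀ i, α (coo F x i) ∈ W T ((R : Set A) ∪ Q ∪ {α x}) := by
      intro i
      rw [← coo_map F α hαf]
      refine coo_mem F _ (fun i => ?_) (subset_W T _ (Or.inr rfl)) i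
      exact W_mono T (Set.subset_union_right.trans Set.subset_union_left) (adjoin_le_W T _ (hfQ i))
    have hVW : ∀ k, α (List.ofFn fun l => uu (Ab.Zc F b (none, L k l))).prod ∈
        W T ((R : Set A) ∪ Q ∪ {α x}) := by
      intro k
      rw [map_list_prod]
      refine list_prod_mem fun w hw => ?_
      rw [List.mem_map] at hw
      obtain ⟨w', hw', rfl⟩ := hw
      rw [List.mem_ofFn] at hw'
      obtain ⟨l, rfl⟩ := hw'
      rw [map_uu (hctx.sa _)]
      refine W_le T (Set.singleton_subset_iff.2 (hαW (L k l))) (uu_mem T ?_)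
      exact (hctx.sa (none, L k l)).map α
    have hzW : ∀ k, z k ∈ W T ((R : Set A) ∪ Q ∪ {α x}) := fun k =>
      StarAlgebra.adjoin_le (Set.singleton_subset_iff.2 (hVW k)) (hzm k)
    refine ⟨((rt (Fin (4 ^ J)) : ℝ) : ℂ)⁻¹ • ∑ i, F.f i * z (finProdFinEquiv (j, i)), ?_, ?_, ?_⟩
    · refine (W T _).smul_mem (sum_mem fun i _ => mul_mem ?_ (hzW _)) _
      exact W_mono T (Set.subset_union_right.trans Set.subset_union_left) (adjoin_le_W T _ (hfQ i))
    · rw [isSelfAdjoint_iff, star_smul, (F.sum_isSelfAdjoint (fun i => hzQ _)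
        fun i => hzs _).star_eq]
      congr 1
      rw [star_inv₀]
      congr 1
      exact Complex.conj_ofReal _
    · refine (nrm2_sub_le_of_coo T F (ε := ε / 2) (by positivity) fun i => ?_).trans_lt
        (by linarith)
      rw [coo_sum F (fun i => z (finProdFinEquiv (j, i))) fun i => hzQ _]
      have := (hzε (finProdFinEquiv (j, i))).le
      rwa [Ab.sc_apply, hby] at this

end Crest.Agent.R134
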