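import Crest.Agent.R134.SD

/-!
# R134: SD ⟺ Chebyshev freeness

`ch x n = U_n(x)` (`U_n (2 cos t) = sin ((n+1) t) / sin t`).
`CF T x G`: `τ (Wc l * (ch x (n+1) * h)) = 0` where `Wc l = ∏ (ch x (n_i+1) * g_i)` with `g_i ∈ G`
centred, `h ∈ G` arbitrary.
-/

set_option autoImplicit false
set_option linter.unusedSectionVars false

namespace Crest.Agent.R134.Sm

open Crest.Agent.R95 TensorProduct

variable {A : Type*} [CStarAlgebra A] (T : TracialState A)

/-- Chebyshev polynomials of the second kind, `U_n(x/2)` -/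
def ch {R : Type*} [Ring R] (x : R) : ℕ → R
  | 0 => 1
  | 1 => x
  | (n + 2) => x * ch x (n + 1) - ch x n

@[simp] theorem ch_zero {R : Type*} [Ring R] (x : R) : ch x 0 = 1 := by simp [ch]
@[simp] theorem ch_one {R : Type*} [Ring R] (x : R) : ch x 1 = x := by simp [ch]
theorem ch_add_two {R : Type*} [Ring R] (x : R) (n : ℕ) :
    ch x (n + 2) = x * ch x (n + 1) - ch x n := by simp [ch]

theorem map_ch {R S : Type*} [Ring R] [Ring S] (f : R →+* S) (x : R) (n : ℕ) :
    f (ch x n) = ch (f x) n := by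
  induction n using Nat.strong_induction_on with
  | _ n ih =>
    match n with
    | 0 => simp
    | 1 => simp
    | n + 2 => rw [ch_add_two, map_sub, map_mul, ih (n+1) (by omega), ih n (by omega), ch_add_two]

/-- formal Chebyshev polynomials -/
noncomputable def chf (A : Type*) (n : ℕ) : FreeAlgebra ℂ (Option A) := ch (FreeAlgebra.ι ℂ none) n

theorem ev_chf (x : A) (n : ℕ) : ev x (chf A n) = ch x n := by
  unfold chf
  have := map_ch ((ev x : FreeAlgebra ℂ (Option A) →ₐ[ℂ] A) : FreeAlgebra ℂ (Option A) →+* A)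
    (FreeAlgebra.ι ℂ none) n
  simpa using this

theorem D_chf (x : A) (n : ℕ) :
    D x (chf A n) = ∑ a ∈ Finset.range n, ch x a ⊗ₜ[ℂ] ch x (n - 1 - a) := by
  induction n using Nat.strong_induction_on with
  | _ n ih =>
    match n with
    | 0 => simp [chf, D_one]
    | 1 => simp [chf, Algebra.TensorProduct.one_def]
    | n + 2 =>
      have h1 := ih (n+1) (by omega)
      have h0 := ih n (by omega)
      have e : chf A (n+2) = FreeAlgebra.ι ℂ none * chf A (n+1) - chf A n := by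
        simp [chf, ch_add_two]
      rw [e, D_sub, D_mul, D_none, ev_none, one_mul, ev_chf, h1, h0, Finset.mul_sum]
      -- `x * ch a`
      have key : ∀ m : ℕ, ∑ a ∈ Finset.range (m+1),
          (x ⊗ₜ[ℂ] (1:A)) * (ch x a ⊗ₜ[ℂ] ch x (m + 1 - 1 - a)) + 1 ⊗ₜ[ℂ] ch x (m+1)
          - ∑ a ∈ Finset.range m, ch x a ⊗ₜ[ℂ] ch x (m - 1 - a)
          = ∑ a ∈ Finset.range (m + 2), ch x a ⊗ₜ[ℂ] ch x (m + 2 - 1 - a) := by
        intro m
        rw [Finset.sum_range_succ' _ (m+1), Finset.sum_range_succ' _ m,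
          Finset.sum_range_succ' _ m]
        have : ∀ a ∈ Finset.range m, (x ⊗ₜ[ℂ] (1:A)) * (ch x (a+1) ⊗ₜ[ℂ] ch x (m + 1 - 1 - (a+1)))
            = ch x (a + 1 + 1) ⊗ₜ[ℂ] ch x (m + 2 - 1 - (a + 1 + 1)) +
              ch x a ⊗ₜ[ℂ] ch x (m - 1 - a) := by
          intro a ha
          have ha' := Finset.mem_range.1 ha
          have e1 : m + 1 - 1 - (a+1) = m - 1 - a := by omega
          have e2 : m + 2 - 1 - (a+1+1) = m - 1 - a := by omega
          rw [e1, e2, ← TensorProduct.add_tmul, ch_add_two, Algebra.TensorProduct.tmul_mul_tmul,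
            one_mul, sub_add_cancel]
        rw [Finset.sum_congr rfl this, Finset.sum_add_distrib]
        simp only [Algebra.TensorProduct.tmul_mul_tmul, one_mul, mul_one, ch_zero, ch_one,
          zero_add, Nat.sub_zero]
        have e3 : m + 1 - 1 = m := by omega
        have e4 : m + 2 - 1 - 1 = m := by omega
        have e5 : m + 2 - 1 = m + 1 := by omega
        rw [e3, e4, e5]
        abel
      exact key n

/-- `Wc x l = ∏ (ch x (n_i+1) * g_i)` -/
def Wc (x : A) (l : List (ℕ × A)) : A := (l.map (fun p => ch x (p.1 + 1) * p.2)).prod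

@[simp] theorem Wc_nil (x : A) : Wc x [] = 1 := rfl
@[simp] theorem Wc_cons (x : A) (p : ℕ × A) (l : List (ℕ × A)) :
    Wc x (p :: l) = ch x (p.1+1) * p.2 * Wc x l := by simp [Wc]
theorem Wc_append (x : A) (l l' : List (ℕ × A)) : Wc x (l ++ l') = Wc x l * Wc x l' := by simp [Wc]

/-- total degree -/
def dg (l : List (ℕ × A)) : ℕ := (l.map (fun p => p.1 + 1)).sum

@[simp] theorem dg_nil : dg ([] : List (ℕ × A)) = 0 := rfl
@[simp] theorem dg_cons (p : ℕ × A) (l : List (ℕ × A)) : dg (p :: l) = p.1 + 1 + dg l := by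
  simp [dg]
theorem dg_append (l l' : List (ℕ × A)) : dg (l ++ l') = dg l + dg l' := by simp [dg]

/-- centred coefficient lists -/
def Cen (G : Set A) (l : List (ℕ × A)) : Prop := ∀ p ∈ l, p.2 ∈ G ∧ T.τ p.2 = 0

/-- Chebyshev freeness, words of degree `≤ N` -/
def CFN (x : A) (G : Set A) (N : ℕ) : Prop :=
  ∀ (l : List (ℕ × A)) (n : ℕ) (h : A), Cen T G l → h ∈ G → dg l + (n + 1) ≤ N →
    T.τ (Wc x l * (ch x (n+1) * h)) = 0

/-- Chebyshev freeness -/
def CF (x : A) (G : Set A) : Prop :=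
  ∀ (l : List (ℕ × A)) (n : ℕ) (h : A), Cen T G l → h ∈ G →
    T.τ (Wc x l * (ch x (n+1) * h)) = 0

variable {T}

theorem CFN.mono {x : A} {G : Set A} {N M : ℕ} (h : CFN T x G N) (hM : M ≤ N) : CFN T x G M :=
  fun l n g hl hg hd => h l n g hl hg (hd.trans hM)

theorem prefix_zero {x : A} {G : Set A} (hG : ∀ a ∈ G, ∀ b ∈ G, a * b ∈ G) {N : ℕ}
    (h : CFN T x G N) {g0 : A} (hg0 : g0 ∈ G) {l : List (ℕ × A)} (hl : Cen T G l)
    (h0 : l ≠ [] ∨ T.τ g0 = 0) {a : ℕ} (hd : dg l + a ≤ N) :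
    T.τ (g0 * Wc x l * ch x a) = 0 := by
  cases a with
  | succ a =>
    rw [mul_assoc, T.tr, mul_assoc]
    exact h l a g0 hl hg0 hd
  | zero =>
    rw [ch_zero, mul_one]
    rcases List.eq_nil_or_concat l with rfl | ⟨l', p, rfl⟩
    · simpa using h0
    · rw [T.tr, List.concat_eq_append, Wc_append, mul_assoc]
      have hp := hl p (by simp)
      have : Wc x [p] * g0 = ch x (p.1+1) * (p.2 * g0) := by simp [mul_assoc]
      rw [this]
      refine h l' p.1 (p.2 * g0) (fun q hq => hl q (by simp [hq])) (hG _ hp.1 _ hg0) ?_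
      rw [List.concat_eq_append, dg_append] at hd
      simpa using hd

/-- formal version of `W` -/
noncomputable def Wf (l : List (ℕ × A)) : FreeAlgebra ℂ (Option A) :=
  (l.map (fun p => chf A (p.1 + 1) * FreeAlgebra.ι ℂ (some p.2))).prod

@[simp] theorem Wf_nil : Wf ([] : List (ℕ × A)) = 1 := rfl
@[simp] theorem Wf_cons (p : ℕ × A) (l : List (ℕ × A)) :
    Wf (p :: l) = chf A (p.1+1) * FreeAlgebra.ι ℂ (some p.2) * Wf l := by simp [Wf]

theorem ev_Wf (x : A) (l : List (ℕ × A)) : ev x (Wf l) = Wc x l := by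
  induction l with
  | nil => simp
  | cons p l ih => simp [ih, ev_chf]

/-- `tt ((pre ⊗ 1) * D (chf (m+1)) * (1 ⊗ y)) = ∑ τ (pre * ch a) * τ (ch (m - a) * y)` -/
theorem tt_D_chf (x pre y : A) (m : ℕ) :
    tt T ((pre ⊗ₜ[ℂ] (1:A)) * (D x (chf A (m+1)) * ((1:A) ⊗ₜ[ℂ] y))) =
      ∑ a ∈ Finset.range (m+1), T.τ (pre * ch x a) * T.τ (ch x (m - a) * y) := by
  rw [D_chf, Finset.sum_mul, Finset.mul_sum, map_sum]
  refine Finset.sum_congr rfl fun a _ => ?_
  simp [Algebra.TensorProduct.tmul_mul_tmul]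

theorem tt_D_word_zero {x : A} {G : Set A} (hG : ∀ a ∈ G, ∀ b ∈ G, a * b ∈ G) {N : ℕ}
    (h : CFN T x G N) {g0 : A} (hg0 : g0 ∈ G) (l' : List (ℕ × A)) (n : ℕ) (y : A)
    (hl' : Cen T G l') :
    ∀ {l : List (ℕ × A)}, Cen T G l → (l ≠ [] ∨ T.τ g0 = 0) → (dg l + dg l' + n ≤ N) →
    tt T (((g0 * Wc x l) ⊗ₜ[ℂ] (1:A)) *
      D x (Wf l' * (chf A (n+1) * FreeAlgebra.ι ℂ (some y)))) = 0 := by
  induction l' with
  | nil =>
    intro l hl h0 hd
    rw [Wf_nil, one_mul, D_mul, D_some, mul_zero, zero_add, ev_some, tt_D_chf]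
    refine Finset.sum_eq_zero fun a ha => ?_
    have ha' := Finset.mem_range.1 ha
    rw [prefix_zero hG h hg0 hl h0 (a := a) (by simp at hd; omega), zero_mul]
  | cons p l' ih =>
    intro l hl h0 hd
    have hp := hl' p (by simp)
    rw [Wf_cons, mul_assoc, D_mul, mul_add, map_add]
    have e1 : ((g0 * Wc x l) ⊗ₜ[ℂ] (1:A)) *
        ((ev x (chf A (p.1 + 1) * FreeAlgebra.ι ℂ (some p.2)) ⊗ₜ[ℂ] (1:A)) *
          D x (Wf l' * (chf A (n+1) * FreeAlgebra.ι ℂ (some y)))) =
        ((g0 * Wc x (l ++ [p])) ⊗ₜ[ℂ] (1:A)) *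
          D x (Wf l' * (chf A (n+1) * FreeAlgebra.ι ℂ (some y))) := by
      rw [← mul_assoc, Algebra.TensorProduct.tmul_mul_tmul, one_mul, Wc_append]
      simp [ev_chf, mul_assoc]
    rw [e1, ih (fun q hq => hl' q (by simp [hq])) (l := l ++ [p])
      (by
        intro q hq
        rcases List.mem_append.1 hq with hq | hq
        · exact hl q hq
        · rw [List.mem_singleton] at hq; rw [hq]; exact hp)
      (Or.inl (by simp)) (by rw [dg_append]; simp at hd ⊢; omega), zero_add]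
    rw [D_mul, D_some, mul_zero, zero_add, ev_some, mul_assoc, Algebra.TensorProduct.tmul_mul_tmul,
      one_mul, tt_D_chf]
    refine Finset.sum_eq_zero fun a ha => ?_
    have ha' := Finset.mem_range.1 ha
    rw [prefix_zero hG h hg0 hl h0 (a := a) (by simp at hd; omega), zero_mul]

theorem tau_ch_zero {x : A} {G : Set A} (h1 : (1:A) ∈ G) {N : ℕ} (h : CFN T x G N) {a : ℕ}
    (ha : a + 1 ≤ N) : T.τ (ch x (a+1)) = 0 := by
  have := h [] a 1 (by simp [Cen]) h1 (by simpa using ha)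
  simpa using this

theorem tt_D_chf_one {x : A} {G : Set A} (h1 : (1:A) ∈ G) {N : ℕ} (h : CFN T x G N)
    (y : A) {m : ℕ} (hm : m ≤ N) :
    tt T (D x (chf A (m+1)) * ((1:A) ⊗ₜ[ℂ] y)) = T.τ (ch x m * y) := by
  have := tt_D_chf (T := T) x 1 y m
  rw [← Algebra.TensorProduct.one_def, one_mul] at this
  rw [this, Finset.sum_range_succ', Finset.sum_eq_zero]
  · simp [T.one]
  · intro a ha
    have ha' := Finset.mem_range.1 ha
    rw [one_mul, tau_ch_zero h1 h (by omega), zero_mul]

theorem chf_mem (G : Set A) (n : ℕ) : chf A n ∈ FPoly G := by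
  induction n using Nat.strong_induction_on with
  | _ n ih =>
    match n with
    | 0 => simpa [chf] using FPoly_one G
    | 1 => simpa [chf] using FPoly_none G
    | n + 2 =>
      have e : chf A (n+2) = FreeAlgebra.ι ℂ none * chf A (n+1) - chf A n := by
        simp [chf, ch_add_two]
      rw [e]
      exact Submodule.sub_mem _ (FPoly_mul (FPoly_none G) (ih _ (by omega))) (ih _ (by omega))

theorem Wf_mem {G : Set A} {l : List (ℕ × A)} (hl : Cen T G l) : Wf l ∈ FPoly G := by
  induction l with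
  | nil => simpa using FPoly_one G
  | cons p l ih =>
    rw [Wf_cons]
    exact FPoly_mul (FPoly_mul (chf_mem G _) (FPoly_some (hl p (by simp)).1))
      (ih fun q hq => hl q (by simp [hq]))

/-- **SD ⟹ Chebyshev freeness** -/
theorem SDW.cfn {x : A} {G : Set A} (hG : ∀ a ∈ G, ∀ b ∈ G, a * b ∈ G) (h1 : (1:A) ∈ G)
    (hSD : SDW T x G) (N : ℕ) : CFN T x G N := by
  induction N with
  | zero => intro l n h _ _ hd; omega
  | succ N ih =>
    intro l n h hl hh hd
    -- general step: `τ (ch (m+1) * y) = 0` where `y = ev yf` and `tt (ch m ⊗ 1 * D yf) = 0`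
    have step : ∀ (m : ℕ) (yf : FreeAlgebra ℂ (Option A)), yf ∈ FPoly G → m ≤ N + 1 →
        tt T ((ch x m ⊗ₜ[ℂ] (1:A)) * D x yf) = 0 → T.τ (ch x (m+1) * ev x yf) = 0 := by
      intro m yf hyf hm hz
      cases m with
      | zero =>
        rw [zero_add, ch_one, hSD.free hyf]
        rw [ch_zero, ← Algebra.TensorProduct.one_def, one_mul] at hz
        exact hz
      | succ m =>
        have := hSD.free (FPoly_mul (chf_mem G (m+1)) hyf)
        rw [D_mul, map_add, ev_chf, hz, zero_add, tt_D_chf_one h1 ih _ (by omega),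
          map_mul (ev x), ev_chf] at this
        rw [show m + 1 + 1 = m + 2 from rfl, ch_add_two, sub_mul, map_sub, mul_assoc, this, sub_self]
    cases l with
    | nil =>
      rw [Wc_nil, one_mul]
      have := step n (FreeAlgebra.ι ℂ (some h)) (FPoly_some hh) (by simp at hd; omega) (by simp)
      simpa using this
    | cons p l =>
      have hp := hl p (by simp)
      have hl2 : Cen T G l := fun q hq => hl q (by simp [hq])
      rw [Wc_cons, mul_assoc, mul_assoc]
      have := step p.1 (FreeAlgebra.ι ℂ (some p.2) * (Wf l * (chf A (n+1) *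
        FreeAlgebra.ι ℂ (some h)))) (FPoly_mul (FPoly_some hp.1) (FPoly_mul (Wf_mem hl2)
          (FPoly_mul (chf_mem G _) (FPoly_some hh)))) (by simp at hd; omega) ?_
      · simpa [ev_chf, ev_Wf] using this
      · rw [D_mul, D_some, zero_mul, add_zero, ev_some, ← mul_assoc,
          Algebra.TensorProduct.tmul_mul_tmul, one_mul]
        obtain ⟨m, g⟩ := p
        cases m with
        | zero =>
          have := tt_D_word_zero hG ih hp.1 l n h hl2 (l := []) (by simp [Cen])
            (Or.inr hp.2) (by simp at hd ⊢; omega)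
          simpa using this
        | succ m =>
          have := tt_D_word_zero hG ih h1 l n h hl2 (l := [(m, g)])
            (by simpa [Cen] using hp) (Or.inl (by simp)) (by simp at hd ⊢; omega)
          simpa using this

theorem SDW.cf {x : A} {G : Set A} (hG : ∀ a ∈ G, ∀ b ∈ G, a * b ∈ G) (h1 : (1:A) ∈ G)
    (hSD : SDW T x G) : CF T x G :=
  fun l n h hl hh => hSD.cfn hG h1 (dg l + (n+1)) l n h hl hh le_rfl

theorem CF.cfn {x : A} {G : Set A} (h : CF T x G) (N : ℕ) : CFN T x G N :=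
  fun l n g hl hg _ => h l n g hl hg

end Crest.Agent.R134.Sm
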