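import Crest.Agent.R134.Conv
import Crest.Agent.R134.Inv
import Crest.Agent.R134.FreeHaar

/-!
# R134: `SD T S x → SD T (W T S) x`
-/

set_option autoImplicit false

universe u

namespace Crest.Agent.R134

open Crest.Agent.R95 Filter Topology

variable {A : Type u} [CStarAlgebra A] (T : TracialState A)

/-- Schwinger-Dyson passes to the 2-norm closure of the coefficients. -/
theorem SD.closure (hT : Amb T) {S : Set A} (hS : ∀ s ∈ S, star s ∈ S) {x : A} (h : SD T S x) :
    SD T (W T S : Set A) x := by
  have h1 : FreeHaar T (W T S : Set A) (uu x) := FreeHaar.closure T (SD.freeHaar T hT hS h)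
  have hone : (1 : A) ∈ (W T S : Set A) := one_mem (W T S)
  have h2 := Conv.freeL_W hone h1
  have hch := Sm.tau_ch_of_SD hS h
  refine Conv.sd_of_free (C := W T {uu x}) h.1 (SD.mem_W_uu T hT hS h) ?_ h2
    fun c D hD => Conv.sd_single' hch hD
  have := hch 0
  simpa using this

end Crest.Agent.R134
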