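import Crest.Agent.R134.Conv5

/-!
# R134 Conv: main results

* `exists_semicircular` : a Haar unitary free from `W T S` is `uu X` for a semicircular `X` free from
  `W T S`.
-/

set_option autoImplicit false
set_option linter.unusedSectionVars false

universe u

namespace Crest.Agent.R134

open Crest.Agent.R95 Filter Topology MeasureTheory Polynomial
open Crest.Agent.R134.Limit Crest.Agent.R134.Sm

namespace Conv

variable {A : Type u} [CStarAlgebra A] {T : TracialState A}

/-! ### one variable Schwinger-Dyson from Chebyshev moments -/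

variable (T) in
/-- the pair of a Chebyshev polynomial -/
noncomputable def chp (X : A) (n : ℕ) : PP A :=
  (ch X n, fun p q => ∑ a ∈ Finset.range n, T.τ (p * ch X a) * T.τ (ch X (n - 1 - a) * q))

theorem X_mul_ch (X : A) (n : ℕ) : X * ch X (n + 1) = ch X (n + 2) + ch X n := by
  rw [ch_add_two]
  abel

theorem lmX_chp_zero (X : A) : lmX T X (chp T X 0) = chp T X 1 := by
  ext p q
  · simp [lmX, chp]
  · simp [lmX, chp]

theorem lmX_chp_succ (X : A) (n : ℕ) :
    lmX T X (chp T X (n + 1)) = chp T X (n + 2) + chp T X n := by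
  ext p q
  · simp only [lmX, chp, Prod.fst_add]
    exact X_mul_ch X n
  · simp only [lmX, chp, Prod.snd_add, Pi.add_apply]
    have e1 : ∑ a ∈ Finset.range (n + 1), T.τ (p * X * ch X a) * T.τ (ch X (n + 1 - 1 - a) * q) =
        ∑ a ∈ Finset.range (n + 1), T.τ (p * ch X (a + 1)) * T.τ (ch X (n - a) * q) +
        ∑ a ∈ Finset.range n, T.τ (p * ch X a) * T.τ (ch X (n - 1 - a) * q) := by
      rw [Finset.sum_range_succ', Finset.sum_range_succ' (fun a => T.τ (p * ch X (a + 1)) * _)]
      have e2 : ∀ a ∈ Finset.range n, T.τ (p * X * ch X (a + 1)) *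
          T.τ (ch X (n + 1 - 1 - (a + 1)) * q) =
          T.τ (p * ch X (a + 1 + 1)) * T.τ (ch X (n - (a + 1)) * q) +
          T.τ (p * ch X a) * T.τ (ch X (n - 1 - a) * q) := by
        intro a _
        rw [mul_assoc p X, X_mul_ch, mul_add, map_add]
        have h1 : n + 1 - 1 - (a + 1) = n - (a + 1) := by omega
        have h2 : n - 1 - a = n - (a + 1) := by omega
        rw [h1, h2]
        ring
      rw [Finset.sum_congr rfl e2, Finset.sum_add_distrib]
      simp only [ch_zero, ch_one, mul_one, zero_add, Nat.sub_zero, Nat.add_sub_cancel]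
      ring
    rw [e1]
    rw [Finset.sum_range_succ' (fun a => T.τ (p * ch X a) * T.τ (ch X (n + 2 - 1 - a) * q))]
    have e3 : ∑ a ∈ Finset.range (n + 1), T.τ (p * ch X (a + 1)) *
        T.τ (ch X (n + 2 - 1 - (a + 1)) * q) =
        ∑ a ∈ Finset.range (n + 1), T.τ (p * ch X (a + 1)) * T.τ (ch X (n - a) * q) := by
      refine Finset.sum_congr rfl fun a _ => ?_
      have h1 : n + 2 - 1 - (a + 1) = n - a := by omega
      rw [h1]
    rw [e3]
    simp only [ch_zero, mul_one, Nat.sub_zero]
    have h4 : n + 2 - 1 = n + 1 := by omega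
    rw [h4]
    ring

theorem mem_chp {X c : A} {D : A → A → ℂ} (h : Der T ∅ X c D) :
    ((c, D) : PP A) ∈ Submodule.span ℂ (Set.range (chp T X)) := by
  refine mem_of_stable (T := T) (X := X) _ ?_ ?_ ?_ ?_ h
  · refine Submodule.subset_span ⟨0, ?_⟩
    ext p q <;> simp [chp]
  · intro P hP
    refine LinL.span ?_ hP
    rintro _ ⟨n, rfl⟩
    refine ⟨fun p p' q => ?_, fun r p q => ?_⟩
    · simp only [chp, add_mul, map_add, Finset.sum_add_distrib]
    · simp only [chp, smul_mul_assoc, map_smul, smul_eq_mul, Finset.mul_sum, mul_assoc]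
  · intro P hP
    refine lmX_mem_span ?_ hP
    rintro _ ⟨n, rfl⟩
    cases n with
    | zero =>
      rw [lmX_chp_zero]
      exact Submodule.subset_span ⟨1, rfl⟩
    | succ n =>
      rw [lmX_chp_succ]
      exact Submodule.add_mem _ (Submodule.subset_span ⟨n + 2, rfl⟩)
        (Submodule.subset_span ⟨n, rfl⟩)
  · intro g hg
    exact absurd hg (Set.notMem_empty g)

/-- The one variable Schwinger-Dyson equation from the Chebyshev moments. -/
theorem sd_single' {X : A} (hm : ∀ n : ℕ, T.τ (ch X (n + 1)) = 0) {c : A} {D : A → A → ℂ}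
    (h : Der T ∅ X c D) : T.τ (X * c) = D 1 1 := by
  have h1 := mem_chp h
  have hm' : ∀ n : ℕ, T.τ (ch X n) = if n = 0 then 1 else 0 := by
    intro n
    cases n with
    | zero => simp [T.one]
    | succ n => simpa using hm n
  have key : ∀ P ∈ Submodule.span ℂ (Set.range (chp T X)), T.τ (X * P.1) = P.2 1 1 := by
    intro P hP
    induction hP using Submodule.span_induction with
    | mem P hP =>
      obtain ⟨n, rfl⟩ := hP
      simp only [chp, one_mul, mul_one, hm']
      cases n with
      | zero =>
        have := hm 0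
        simpa using this
      | succ n =>
        rw [X_mul_ch, map_add, hm', hm']
        rw [Finset.sum_eq_single 0]
        · cases n with
          | zero => simp
          | succ n => simp
        · intro b _ hb
          rw [if_neg hb, zero_mul]
        · intro h
          exact absurd (Finset.mem_range.2 (Nat.succ_pos n)) h
    | zero => simp
    | add P P' _ _ hP hP' =>
      simp only [Prod.fst_add, Prod.snd_add, mul_add, map_add, Pi.add_apply, hP, hP']
    | smul r P _ hP =>
      simp only [Prod.smul_fst, Prod.smul_snd, mul_smul_comm, map_smul, Pi.smul_apply, hP]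
  exact key _ h1

/-- **main construction** -/
theorem exists_semicircular (hT : Amb T) {S : Set A} {u : A} (h : FreeHaar T (W T S : Set A) u) :
    ∃ X : A, SD T (W T S : Set A) X ∧ ‖X‖ ≤ 2 ∧ uu X = u ∧ X ∈ W T {u} := by
  have h1 : (1 : A) ∈ (W T S : Set A) := one_mem (W T S)
  obtain ⟨X, hsa, hX2, huX, hXW, hlaw⟩ := exists_X hT h.1 (tau_pow_of_freeHaar h1 h)
  have hch : ∀ n : ℕ, T.τ (ch X (n + 1)) = 0 := by
    intro n
    have h2 := hlaw (fun s => (ch (Polynomial.X : ℂ[X]) (n + 1)).eval (s : ℂ)) (continuous_eval _)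
    rw [fc_poly hsa, aeval_ch] at h2
    rw [h2]
    simp only [eval_ch]
    exact Sc_ch n
  refine ⟨X, ?_, hX2, huX, hXW⟩
  refine sd_of_free (C := W T {u}) hsa hXW ?_ (freeL_W h1 h) fun c D hD => sd_single' hch hD
  have := hch 0
  simpa using this

end Conv

end Crest.Agent.R134
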