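import Crest.Agent.R134.Defs

/-!
# R134 Conv1: freeness of `G` and `W T {u}` for a Haar unitary `u` free from `G`
-/

set_option autoImplicit false

universe u

namespace Crest.Agent.R134

open Crest.Agent.R95 Filter Topology

namespace Conv

variable {A : Type u} [CStarAlgebra A] {T : TracialState A}

/-- value of a list of (letter, coefficient) pairs -/
def lv : List (A × A) → A
  | [] => 1
  | p :: L => p.1 * p.2 * lv L

@[simp] theorem lv_nil : lv ([] : List (A × A)) = 1 := rfl
@[simp] theorem lv_cons (p : A × A) (L : List (A × A)) : lv (p :: L) = p.1 * p.2 * lv L := rfl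

theorem lv_append (L M : List (A × A)) : lv (L ++ M) = lv L * lv M := by
  induction L with
  | nil => simp
  | cons p L ih => simp [ih, mul_assoc]

variable (T) in
/-- all coefficients but the last one are centred -/
def Inner : List (A × A) → Prop
  | [] => True
  | [_] => True
  | p :: q :: L => T.τ p.2 = 0 ∧ Inner (q :: L)

theorem Inner.tail {p : A × A} {L : List (A × A)} (h : Inner T (p :: L)) : Inner T L := by
  cases L with
  | nil => trivial
  | cons q L => exact h.2

theorem Inner.head {p : A × A} {L : List (A × A)} (hL : L ≠ []) (h : Inner T (p :: L)) :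
    T.τ p.2 = 0 := by
  cases L with
  | nil => exact absurd rfl hL
  | cons q L => exact h.1

theorem Inner.cons {p : A × A} {L : List (A × A)} (h : Inner T L) (hp : L ≠ [] → T.τ p.2 = 0) :
    Inner T (p :: L) := by
  cases L with
  | nil => trivial
  | cons q L => exact ⟨hp (by simp), h⟩

/-- changing a letter does not change `Inner` -/
theorem Inner.change {c c' g : A} : ∀ {L M : List (A × A)}, Inner T (L ++ (c, g) :: M) →
    Inner T (L ++ (c', g) :: M)
  | [], [], _ => trivial
  | [], q :: M, h => h
  | p :: L, M, h => by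
    have h1 : Inner T (L ++ (c', g) :: M) := Inner.change (Inner.tail h)
    refine Inner.cons h1 fun _ => ?_
    exact Inner.head (by simp) h

variable (T) in
/-- Freeness of the coefficient set `G` and the (centred) letter set `𝓛`. -/
def FreeL (G : Set A) (𝓛 : Set A) : Prop :=
  ∀ L : List (A × A), L ≠ [] → (∀ p ∈ L, p.1 ∈ 𝓛) → (∀ p ∈ L, p.2 ∈ G) → Inner T L →
    T.τ (lv L) = 0

/-- Freeness passes to the "bipolar" of the letter set. -/
theorem FreeL.bipolar {G 𝓛 𝓛' : Set A} (h : FreeL T G 𝓛)
    (h' : ∀ c ∈ 𝓛', ∀ x y : A, (∀ l ∈ 𝓛, T.τ (x * l * y) = 0) → T.τ (x * c * y) = 0) :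
    FreeL T G 𝓛' := by
  have key : ∀ L2 L1 : List (A × A), L1 ++ L2 ≠ [] → (∀ p ∈ L1, p.1 ∈ 𝓛) →
      (∀ p ∈ L2, p.1 ∈ 𝓛') → (∀ p ∈ L1 ++ L2, p.2 ∈ G) → Inner T (L1 ++ L2) →
      T.τ (lv (L1 ++ L2)) = 0 := by
    intro L2
    induction L2 with
    | nil =>
      intro L1 hne h1 _ h3 h4
      rw [List.append_nil] at *
      exact h L1 hne h1 h3 h4
    | cons p L2 ih =>
      intro L1 hne h1 h2 h3 h4
      obtain ⟨c, g⟩ := p
      have h5 : ∀ l ∈ 𝓛, T.τ (lv L1 * l * (g * lv L2)) = 0 := by
        intro l hl
        have := ih (L1 ++ [(l, g)]) (by simp) ?_ ?_ ?_ ?_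
        · rw [List.append_assoc, lv_append] at this
          simpa [mul_assoc] using this
        · intro p hp
          rcases List.mem_append.1 hp with hp | hp
          · exact h1 p hp
          · rw [List.mem_singleton] at hp
            rw [hp]
            exact hl
        · intro p hp
          exact h2 p (List.mem_cons_of_mem _ hp)
        · intro p hp
          rw [List.append_assoc] at hp
          rcases List.mem_append.1 hp with hp | hp
          · exact h3 p (List.mem_append_left _ hp)
          · rcases List.mem_cons.1 hp with hp | hp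
            · rw [hp]
              exact h3 (c, g) (by simp)
            · exact h3 p (List.mem_append_right _ (List.mem_cons_of_mem _ hp))
        · rw [List.append_assoc]
          exact Inner.change h4
      have h6 := h' c (h2 (c, g) (by simp)) _ _ h5
      rw [lv_append]
      simpa [mul_assoc] using h6
  intro L hne hc hg hi
  exact key L [] hne (by simp) hc hg hi

/-! ### powers of the unitary -/

/-- `u^(n+1)` or `(u*)^(n+1)` -/
def pw (u : A) (b : Bool) (n : ℕ) : A := sg u b ^ (n + 1)

/-- expansion of a list of powers into a word -/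
def expand : List ((Bool × ℕ) × A) → List (Bool × A)
  | [] => []
  | (p, g) :: L => List.replicate p.2 (p.1, 1) ++ (p.1, g) :: expand L

theorem word_append (u : A) (L M : List (Bool × A)) : word u (L ++ M) = word u L * word u M := by
  induction L with
  | nil => simp [word]
  | cons p L ih => obtain ⟨b, a⟩ := p; simp [word, ih, mul_assoc]

theorem word_replicate (u : A) (b : Bool) (n : ℕ) :
    word u (List.replicate n (b, (1 : A))) = sg u b ^ n := by
  induction n with
  | zero => simp [word]
  | succ n ih => simp [List.replicate_succ, word, ih, pow_succ']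

theorem word_expand (u : A) (L : List ((Bool × ℕ) × A)) :
    word u (expand L) = lv (L.map fun p => (pw u p.1.1 p.1.2, p.2)) := by
  induction L with
  | nil => simp [expand, word]
  | cons p L ih =>
    obtain ⟨⟨b, n⟩, g⟩ := p
    simp only [expand, word_append, word_replicate, word, ih, List.map_cons, lv_cons, pw]
    rw [pow_succ]
    simp only [mul_assoc]

theorem expand_mem {G : Set A} (h1 : (1 : A) ∈ G) {L : List ((Bool × ℕ) × A)}
    (h : ∀ p ∈ L, p.2 ∈ G) : ∀ p ∈ expand L, p.2 ∈ G := by
  induction L with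
  | nil => simp [expand]
  | cons p L ih =>
    intro q hq
    obtain ⟨⟨b, n⟩, g⟩ := p
    simp only [expand, List.mem_append, List.mem_replicate, List.mem_cons] at hq
    rcases hq with ⟨_, rfl⟩ | rfl | hq
    · exact h1
    · exact h ((b, n), g) (by simp)
    · exact ih (fun p hp => h p (List.mem_cons_of_mem _ hp)) q hq

theorem expand_head (p : (Bool × ℕ) × A) (L : List ((Bool × ℕ) × A)) :
    ∃ a M, expand (p :: L) = (p.1.1, a) :: M := by
  obtain ⟨⟨b, n⟩, g⟩ := p
  cases n with
  | zero => exact ⟨g, expand L, by simp [expand]⟩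
  | succ n =>
    exact ⟨1, List.replicate n (b, 1) ++ (b, g) :: expand L,
      by simp [expand, List.replicate_succ]⟩

theorem Alt_replicate {b : Bool} {g : A} {M : List (Bool × A)} (h : Alt T ((b, g) :: M)) (n : ℕ) :
    Alt T (List.replicate n (b, (1 : A)) ++ (b, g) :: M) := by
  induction n with
  | zero => simpa using h
  | succ n ih =>
    rw [List.replicate_succ, List.cons_append]
    cases n with
    | zero => exact ⟨fun hb => absurd rfl hb, by simpa using ih⟩
    | succ n =>
      rw [List.replicate_succ, List.cons_append] at ih ⊢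
      exact ⟨fun hb => absurd rfl hb, ih⟩

theorem Alt_expand : ∀ {L : List ((Bool × ℕ) × A)},
    Inner T (L.map fun p => ((1 : A), p.2)) → Alt T (expand L)
  | [], _ => trivial
  | [((b, n), g)], _ => by
    simp only [expand]
    exact Alt_replicate (by trivial) n
  | ((b, n), g) :: q :: L, h => by
    have h1 : Alt T (expand (q :: L)) := Alt_expand h.2
    have h2 : T.τ g = 0 := h.1
    rw [expand]
    refine Alt_replicate ?_ n
    obtain ⟨a, M, hM⟩ := expand_head q L
    rw [hM] at h1 ⊢
    exact ⟨fun _ => h2, h1⟩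

theorem Inner.map_congr {α : Type*} {f g : α → A × A} (hfg : ∀ a, (f a).2 = (g a).2) :
    ∀ {L : List α}, Inner T (L.map f) → Inner T (L.map g)
  | [], _ => trivial
  | [_], _ => trivial
  | a :: b :: L, h => by
    refine ⟨?_, Inner.map_congr (L := b :: L) hfg h.2⟩
    rw [← hfg a]
    exact h.1

/-- Freeness with letters `u^(n+1)`, `(u*)^(n+1)`. -/
theorem freeL_pow {G : Set A} (h1 : (1 : A) ∈ G) {u : A} (hu : FreeHaar T G u) :
    FreeL T G {c | ∃ b n, c = pw u b n} := by
  intro L hne hc hg hi
  -- lift `L` to a list of codes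
  have hlift : ∀ L : List (A × A), (∀ p ∈ L, p.1 ∈ {c | ∃ b n, c = pw u b n}) →
      ∃ M : List ((Bool × ℕ) × A), L = M.map fun p => (pw u p.1.1 p.1.2, p.2) := by
    intro L
    induction L with
    | nil => intro _; exact ⟨[], rfl⟩
    | cons p L ih =>
      intro h
      obtain ⟨M, hM⟩ := ih fun q hq => h q (List.mem_cons_of_mem _ hq)
      obtain ⟨b, n, hbn⟩ := h p (by simp)
      refine ⟨((b, n), p.2) :: M, ?_⟩
      rw [List.map_cons, ← hM]
      congr 1
      exact Prod.ext hbn rfl
  obtain ⟨M, rfl⟩ := hlift L hc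
  rw [← word_expand]
  refine hu.2 _ ?_ ?_ ?_
  · intro h
    apply hne
    cases M with
    | nil => rfl
    | cons q M =>
      obtain ⟨a, M', hM'⟩ := expand_head q M
      rw [hM'] at h
      exact absurd h (by simp)
  · refine expand_mem h1 ?_
    intro p hp
    exact hg (pw u p.1.1 p.1.2, p.2) (List.mem_map.2 ⟨p, hp, rfl⟩)
  · refine Alt_expand ?_
    exact Inner.map_congr (f := fun p : (Bool × ℕ) × A => (pw u p.1.1 p.1.2, p.2))
      (g := fun p : (Bool × ℕ) × A => ((1 : A), p.2)) (fun _ => rfl) hi

/-! ### the algebra generated by a unitary -/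

theorem sg_mem_unitary {u : A} (hu : u ∈ unitary A) (b : Bool) : sg u b ∈ unitary A := by
  cases b
  · exact Unitary.star_mem hu
  · exact hu

theorem star_sg (u : A) (b : Bool) : star (sg u b) = sg u (!b) := by
  cases b <;> simp [sg]

/-- the span of the powers -/
noncomputable def LS (u : A) : Submodule ℂ A := Submodule.span ℂ (Set.range fun k : Bool × ℕ => sg u k.1 ^ k.2)

theorem pow_mem_LS (u : A) (b : Bool) (n : ℕ) : sg u b ^ n ∈ LS u :=
  Submodule.subset_span ⟨(b, n), rfl⟩

theorem pow_mul_pow_mem_LS {u : A} (hu : u ∈ unitary A) (b b' : Bool) (m n : ℕ) :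
    sg u b ^ m * sg u b' ^ n ∈ LS u := by
  by_cases hb : b = b'
  · subst hb
    rw [← pow_add]
    exact pow_mem_LS u b _
  · have hb' : b' = !b := by cases b <;> cases b' <;> simp_all
    subst hb'
    have h1 : sg u b * sg u (!b) = 1 := by
      rw [← star_sg]
      exact Unitary.mul_star_self_of_mem (sg_mem_unitary hu b)
    have hc : Commute (sg u b) (sg u (!b)) := by
      rw [← star_sg]
      show sg u b * star (sg u b) = star (sg u b) * sg u b
      rw [Unitary.mul_star_self_of_mem (sg_mem_unitary hu b),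
        Unitary.star_mul_self_of_mem (sg_mem_unitary hu b)]
    rcases le_total m n with h | h
    · obtain ⟨k, rfl⟩ := Nat.exists_eq_add_of_le h
      rw [pow_add, ← mul_assoc, ← hc.mul_pow, h1, one_pow, one_mul]
      exact pow_mem_LS u _ _
    · obtain ⟨k, rfl⟩ := Nat.exists_eq_add_of_le h
      rw [add_comm n k, pow_add, mul_assoc, ← hc.mul_pow, h1, one_pow, mul_one]
      exact pow_mem_LS u _ _

theorem LS_mul {u : A} (hu : u ∈ unitary A) {x y : A} (hx : x ∈ LS u) (hy : y ∈ LS u) :
    x * y ∈ LS u := by
  have h := Submodule.mul_mem_mul hx hy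
  unfold LS at h
  rw [Submodule.span_mul_span] at h
  refine (Submodule.span_le.2 ?_) h
  rintro _ ⟨_, ⟨⟨b, m⟩, rfl⟩, _, ⟨⟨b', n⟩, rfl⟩, rfl⟩
  exact pow_mul_pow_mem_LS hu b b' m n

theorem adjoin_le_LS {u : A} (hu : u ∈ unitary A) {x : A}
    (hx : x ∈ StarAlgebra.adjoin ℂ ({u} : Set A)) : x ∈ LS u := by
  induction hx using StarAlgebra.adjoin_induction with
  | mem x hx =>
    rw [Set.mem_singleton_iff] at hx
    rw [hx]
    have := pow_mem_LS u true 1
    simpa [sg] using this
  | algebraMap r =>
    rw [Algebra.algebraMap_eq_smul_one]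
    have := pow_mem_LS u true 0
    rw [pow_zero] at this
    exact Submodule.smul_mem _ _ this
  | add x y _ _ hx hy => exact Submodule.add_mem _ hx hy
  | mul x y _ _ hx hy => exact LS_mul hu hx hy
  | star x hx0 hx =>
    clear hx0
    unfold LS at *
    induction hx using Submodule.span_induction with
    | mem x hx =>
      obtain ⟨⟨b, n⟩, rfl⟩ := hx
      simp only [star_pow, star_sg]
      exact Submodule.subset_span ⟨(!b, n), rfl⟩
    | zero => simp
    | add x y _ _ hx hy => rw [star_add]; exact Submodule.add_mem _ hx hy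
    | smul c x _ hx => rw [star_smul]; exact Submodule.smul_mem _ _ hx

theorem tau_pw {G : Set A} (h1 : (1 : A) ∈ G) {u : A} (hu : FreeHaar T G u) (b : Bool) (n : ℕ) :
    T.τ (pw u b n) = 0 := by
  have := freeL_pow h1 hu [(pw u b n, 1)] (by simp)
    (by
      intro p hp
      rw [List.mem_singleton] at hp
      rw [hp]
      exact ⟨b, n, rfl⟩) (by simpa using h1) trivial
  simpa using this

/-- **Freeness of `G` and `W T {u}`**. -/
theorem freeL_W {G : Set A} (h1 : (1 : A) ∈ G) {u : A} (hu : FreeHaar T G u) :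
    FreeL T G {c | c ∈ W T {u} ∧ T.τ c = 0} := by
  refine (freeL_pow h1 hu).bipolar ?_
  rintro c ⟨hc, hc0⟩ x y hxy
  -- on the Laurent polynomials
  have hL : ∀ a ∈ LS u, T.τ (x * a * y) = T.τ a * T.τ (x * y) := by
    intro a ha
    unfold LS at ha
    induction ha using Submodule.span_induction with
    | mem a ha =>
      obtain ⟨⟨b, n⟩, rfl⟩ := ha
      cases n with
      | zero => simp [T.one]
      | succ n =>
        have e1 : T.τ (x * pw u b n * y) = 0 := hxy _ ⟨b, n, rfl⟩
        have e2 : T.τ (pw u b n) = 0 := tau_pw h1 hu b n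
        simp only
        change T.τ (x * pw u b n * y) = T.τ (pw u b n) * _
        rw [e1, e2, zero_mul]
    | zero => simp
    | add a a' _ _ ha ha' => simp only [mul_add, add_mul, map_add, ha, ha']
    | smul r a _ ha =>
      simp only [mul_smul_comm, smul_mul_assoc, map_smul, ha, smul_eq_mul]
      ring
  -- pass to the closure
  have key : T.τ (x * c * y) = T.τ c * T.τ (x * y) := by
    rw [← sub_eq_zero]
    by_contra hne
    set δ := ‖T.τ (x * c * y) - T.τ c * T.τ (x * y)‖ with hδ
    have hδ0 : 0 < δ := norm_pos_iff.2 hne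
    set K := T.nrm2 (y * x) + ‖T.τ (x * y)‖ + 1 with hK
    have hK0 : 0 < K := by
      have := T.nrm2_nonneg (y * x)
      positivity
    obtain ⟨a, ha, hca⟩ := hc (δ / K) (by positivity)
    have ha' := hL a (adjoin_le_LS hu.1 ha)
    have e1 : T.τ (x * c * y) - T.τ c * T.τ (x * y) =
        T.τ ((c - a) * (y * x)) - T.τ (c - a) * T.τ (x * y) := by
      have e2 : T.τ ((c - a) * (y * x)) = T.τ (x * c * y) - T.τ (x * a * y) := by
        rw [← map_sub, ← mul_assoc, T.tr, ← mul_assoc, mul_sub, sub_mul]
      rw [e2, ha', map_sub]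
      ring
    have e3 : ‖T.τ ((c - a) * (y * x))‖ ≤ T.nrm2 (c - a) * T.nrm2 (y * x) := T.norm_tau_mul_le _ _
    have e4 : ‖T.τ (c - a)‖ ≤ T.nrm2 (c - a) := by
      have := T.norm_tau_mul_le (c - a) 1
      rwa [mul_one, T.nrm2_one, mul_one] at this
    have e5 : δ ≤ T.nrm2 (c - a) * K := by
      rw [hδ, e1]
      calc ‖T.τ ((c - a) * (y * x)) - T.τ (c - a) * T.τ (x * y)‖
          ≤ ‖T.τ ((c - a) * (y * x))‖ + ‖T.τ (c - a) * T.τ (x * y)‖ := norm_sub_le _ _
        _ ≤ T.nrm2 (c - a) * T.nrm2 (y * x) + T.nrm2 (c - a) * ‖T.τ (x * y)‖ := by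
          rw [norm_mul]
          gcongr
        _ ≤ T.nrm2 (c - a) * K := by
          rw [hK]
          nlinarith [T.nrm2_nonneg (c - a)]
    have e6 : T.nrm2 (c - a) * K < δ := by
      calc T.nrm2 (c - a) * K < δ / K * K := mul_lt_mul_of_pos_right hca hK0
        _ = δ := div_mul_cancel₀ _ hK0.ne'
    linarith
  rw [key, hc0, zero_mul]

end Conv

end Crest.Agent.R134
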