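import Crest.Agent.R134.Conv1

/-!
# R134 Conv2: freeness + moments ⇒ Schwinger-Dyson
-/

set_option autoImplicit false
set_option linter.unusedSectionVars false

universe u

namespace Crest.Agent.R134

open Crest.Agent.R95 Filter Topology

namespace Conv

variable {A : Type u} [CStarAlgebra A] {T : TracialState A}

/-- pairs (polynomial, bilinear form of its difference quotient) -/
abbrev PP (A : Type u) : Type u := A × (A → A → ℂ)

/-- left multiplication by a coefficient -/
def lmG (g : A) (P : PP A) : PP A := (g * P.1, fun p q => P.2 (p * g) q)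

variable (T) in
/-- left multiplication by the variable -/
noncomputable def lmX (X : A) (P : PP A) : PP A :=
  (X * P.1, fun p q => T.τ p * T.τ (P.1 * q) + P.2 (p * X) q)

/-- the form is linear in the first variable -/
def LinL (P : PP A) : Prop :=
  (∀ p p' q, P.2 (p + p') q = P.2 p q + P.2 p' q) ∧ (∀ (c : ℂ) p q, P.2 (c • p) q = c * P.2 p q)

theorem LinL.zero : LinL (0 : PP A) := ⟨by simp, by simp⟩

theorem LinL.add {P P' : PP A} (h : LinL P) (h' : LinL P') : LinL (P + P') := by
  refine ⟨fun p p' q => ?_, fun c p q => ?_⟩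
  · simp only [Prod.snd_add, Pi.add_apply, h.1, h'.1]
    ring
  · simp only [Prod.snd_add, Pi.add_apply, h.2, h'.2]
    ring

theorem LinL.smul {P : PP A} (r : ℂ) (h : LinL P) : LinL (r • P) := by
  refine ⟨fun p p' q => ?_, fun c p q => ?_⟩
  · simp only [Prod.smul_snd, Pi.smul_apply, h.1, smul_eq_mul]
    ring
  · simp only [Prod.smul_snd, Pi.smul_apply, h.2, smul_eq_mul]
    ring

theorem LinL.span {s : Set (PP A)} (h : ∀ P ∈ s, LinL P) {P : PP A}
    (hP : P ∈ Submodule.span ℂ s) : LinL P := by
  induction hP using Submodule.span_induction with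
  | mem P hP => exact h P hP
  | zero => exact LinL.zero
  | add P P' _ _ hP hP' => exact hP.add hP'
  | smul r P _ hP => exact hP.smul r

theorem lmG_add (g : A) (P P' : PP A) : lmG g (P + P') = lmG g P + lmG g P' := by
  ext
  · simp [lmG, mul_add]
  · simp [lmG]

theorem lmG_smul (g : A) (r : ℂ) (P : PP A) : lmG g (r • P) = r • lmG g P := by
  ext
  · simp [lmG]
  · simp [lmG]

theorem lmG_zero (g : A) : lmG g (0 : PP A) = 0 := by
  ext
  · simp [lmG]
  · simp [lmG]

theorem lmX_add (X : A) (P P' : PP A) : lmX T X (P + P') = lmX T X P + lmX T X P' := by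
  ext
  · simp [lmX, mul_add]
  · simp only [lmX, Prod.fst_add, Prod.snd_add, Pi.add_apply, add_mul, map_add]
    ring

theorem lmX_smul (X : A) (r : ℂ) (P : PP A) : lmX T X (r • P) = r • lmX T X P := by
  ext
  · simp [lmX]
  · simp only [lmX, Prod.smul_fst, Prod.smul_snd, Pi.smul_apply, smul_mul_assoc, map_smul,
      smul_eq_mul]
    ring

theorem lmX_zero (X : A) : lmX T X (0 : PP A) = 0 := by
  ext
  · simp [lmX]
  · simp [lmX]

theorem lmG_mem_span {s : Set (PP A)} {g : A} (h : ∀ P ∈ s, lmG g P ∈ Submodule.span ℂ s)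
    {P : PP A} (hP : P ∈ Submodule.span ℂ s) : lmG g P ∈ Submodule.span ℂ s := by
  induction hP using Submodule.span_induction with
  | mem P hP => exact h P hP
  | zero => rw [lmG_zero]; exact Submodule.zero_mem _
  | add P P' _ _ hP hP' => rw [lmG_add]; exact Submodule.add_mem _ hP hP'
  | smul r P _ hP => rw [lmG_smul]; exact Submodule.smul_mem _ _ hP

theorem lmX_mem_span {s : Set (PP A)} {X : A} (h : ∀ P ∈ s, lmX T X P ∈ Submodule.span ℂ s)
    {P : PP A} (hP : P ∈ Submodule.span ℂ s) : lmX T X P ∈ Submodule.span ℂ s := by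
  induction hP using Submodule.span_induction with
  | mem P hP => exact h P hP
  | zero => rw [lmX_zero]; exact Submodule.zero_mem _
  | add P P' _ _ hP hP' => rw [lmX_add]; exact Submodule.add_mem _ hP hP'
  | smul r P _ hP => rw [lmX_smul]; exact Submodule.smul_mem _ _ hP

/-- A space of pairs containing `(1,0)` and stable under left multiplications contains all pairs. -/
theorem mem_of_stable {G : Set A} {X : A} (V : Submodule ℂ (PP A))
    (h1 : ((1 : A), (fun _ _ => 0 : A → A → ℂ)) ∈ V) (hlin : ∀ P ∈ V, LinL P)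
    (hX : ∀ P ∈ V, lmX T X P ∈ V) (hG : ∀ g ∈ G, ∀ P ∈ V, lmG g P ∈ V) {w : A} {D : A → A → ℂ}
    (h : Der T G X w D) : ((w, D) : PP A) ∈ V := by
  have key : ∀ P ∈ V, ((w * P.1, fun p q => P.2 (p * w) q + D p (P.1 * q)) : PP A) ∈ V := by
    induction h with
    | one =>
      intro P hP
      have e : ((1 * P.1, fun p q => P.2 (p * 1) q + 0) : PP A) = P := by
        ext <;> simp
      rw [e]
      exact hP
    | coef ha =>
      intro P hP
      have := hG _ ha P hP
      convert this using 1
      ext p q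
      · rfl
      · exact add_zero _
    | var =>
      intro P hP
      have := hX P hP
      convert this using 1
      ext p q
      · rfl
      · exact add_comm _ _
    | add _ _ ih ih' =>
      intro P hP
      have := V.add_mem (ih P hP) (ih' P hP)
      convert this using 1
      ext p q
      · simp [add_mul]
      · simp only [Prod.mk_add_mk, Pi.add_apply, mul_add, (hlin P hP).1]
        ring
    | smul c _ ih =>
      intro P hP
      have := V.smul_mem c (ih P hP)
      convert this using 1
      ext p q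
      · simp
      · simp only [Prod.smul_mk, Pi.smul_apply, mul_smul_comm, (hlin P hP).2, smul_eq_mul]
        ring
    | mul _ _ ih ih' =>
      intro P hP
      have := ih _ (ih' P hP)
      convert this using 1
      ext p q
      · simp [mul_assoc]
      · simp only [mul_assoc]
        ring
  have := key _ h1
  convert this using 1
  ext p q
  · simp
  · simp

/-! ### one variable -/

variable (T) in
/-- the pair of a monomial -/
noncomputable def mono (X : A) (n : ℕ) : PP A :=
  (X ^ n, fun p q => ∑ a ∈ Finset.range n, T.τ (p * X ^ a) * T.τ (X ^ (n - 1 - a) * q))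

theorem lmX_mono (X : A) (n : ℕ) : lmX T X (mono T X n) = mono T X (n + 1) := by
  ext p q
  · simp [lmX, mono, pow_succ']
  · simp only [lmX, mono]
    rw [Finset.sum_range_succ']
    rw [add_comm]
    congr 1
    · refine Finset.sum_congr rfl fun a _ => ?_
      rw [mul_assoc, ← pow_succ']
      congr 4
      omega
    · simp

theorem mem_mono {X c : A} {D : A → A → ℂ} (h : Der T ∅ X c D) :
    ((c, D) : PP A) ∈ Submodule.span ℂ (Set.range (mono T X)) := by
  refine mem_of_stable (T := T) (X := X) _ ?_ ?_ ?_ ?_ h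
  · refine Submodule.subset_span ⟨0, ?_⟩
    ext p q <;> simp [mono]
  · intro P hP
    refine LinL.span ?_ hP
    rintro _ ⟨n, rfl⟩
    refine ⟨fun p p' q => ?_, fun r p q => ?_⟩
    · simp only [mono, add_mul, map_add, Finset.sum_add_distrib]
    · simp only [mono, smul_mul_assoc, map_smul, smul_eq_mul, Finset.mul_sum, mul_assoc]
  · intro P hP
    refine lmX_mem_span ?_ hP
    rintro _ ⟨n, rfl⟩
    rw [lmX_mono]
    exact Submodule.subset_span ⟨n + 1, rfl⟩
  · intro g hg
    exact absurd hg (Set.notMem_empty g)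

/-- The one variable Schwinger-Dyson equation from the moments. -/
theorem sd_single {X : A}
    (hm : ∀ n : ℕ, T.τ (X ^ (n + 1)) =
      ∑ a ∈ Finset.range n, T.τ (X ^ a) * T.τ (X ^ (n - 1 - a))) {c : A} {D : A → A → ℂ}
    (h : Der T ∅ X c D) : T.τ (X * c) = D 1 1 := by
  have h1 := mem_mono h
  have key : ∀ P ∈ Submodule.span ℂ (Set.range (mono T X)), T.τ (X * P.1) = P.2 1 1 := by
    intro P hP
    induction hP using Submodule.span_induction with
    | mem P hP =>
      obtain ⟨n, rfl⟩ := hP
      simp only [mono, one_mul, mul_one]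
      rw [← pow_succ', hm]
    | zero => simp
    | add P P' _ _ hP hP' =>
      simp only [Prod.fst_add, Prod.snd_add, mul_add, map_add, Pi.add_apply, hP, hP']
    | smul r P _ hP =>
      simp only [Prod.smul_fst, Prod.smul_snd, mul_smul_comm, map_smul, Pi.smul_apply, hP]
  exact key _ h1

/-! ### the free case -/

/-- words of letter data -/
def lw (L : List (PP A × A)) : List (A × A) := L.map fun t => (t.1.1, t.2)

@[simp] theorem lw_nil : lw ([] : List (PP A × A)) = [] := rfl
@[simp] theorem lw_cons (t : PP A × A) (L : List (PP A × A)) : lw (t :: L) = (t.1.1, t.2) :: lw L :=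
  rfl

/-- form of a word -/
def dl : List (PP A × A) → A → A → ℂ
  | [], _, _ => 0
  | t :: L, p, q => t.1.2 p (t.2 * lv (lw L) * q) + dl L (p * t.1.1 * t.2) q

/-- generators -/
def gen (g0 : A) (L : List (PP A × A)) : PP A := (g0 * lv (lw L), fun p q => dl L (p * g0) q)

variable (T) in
/-- reduced lists -/
def Red (G : Set A) (X : A) (L : List (PP A × A)) : Prop :=
  (∀ t ∈ L, Der T ∅ X t.1.1 t.1.2 ∧ T.τ t.1.1 = 0) ∧ (∀ t ∈ L, t.2 ∈ G) ∧ Inner T (lw L)

theorem Der.linL {G : Set A} {X w : A} {D : A → A → ℂ} (h : Der T G X w D) : LinL (w, D) := by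
  induction h with
  | one => exact ⟨by simp, by simp⟩
  | coef _ => exact ⟨by simp, by simp⟩
  | var => exact ⟨fun p p' q => by simp [add_mul], fun c p q => by simp [mul_assoc]⟩
  | add _ _ ih ih' =>
    refine ⟨fun p p' q => ?_, fun c p q => ?_⟩
    · have h1 := ih.1 p p' q
      have h2 := ih'.1 p p' q
      simp only at h1 h2 ⊢
      rw [h1, h2]
      ring
    · have h1 := ih.2 c p q
      have h2 := ih'.2 c p q
      simp only at h1 h2 ⊢
      rw [h1, h2]
      ring
  | smul r _ ih =>
    refine ⟨fun p p' q => ?_, fun c p q => ?_⟩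
    · have h1 := ih.1 p p' q
      simp only at h1 ⊢
      rw [h1]
      ring
    · have h1 := ih.2 c p q
      simp only at h1 ⊢
      rw [h1]
      ring
  | @mul w w' D D' _ _ ih ih' =>
    refine ⟨fun p p' q => ?_, fun c p q => ?_⟩
    · have h1 := ih.1 p p' (w' * q)
      have h2 := ih'.1 (p * w) (p' * w) q
      simp only [add_mul] at h1 h2 ⊢
      rw [h1, h2]
      ring
    · have h1 := ih.2 c p (w' * q)
      have h2 := ih'.2 c (p * w) q
      simp only [smul_mul_assoc] at h1 h2 ⊢
      rw [h1, h2]
      ring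

theorem dl_lin {X : A} : ∀ {L : List (PP A × A)},
    (∀ t ∈ L, Der T ∅ X t.1.1 t.1.2) →
    (∀ p p' q, dl L (p + p') q = dl L p q + dl L p' q) ∧
      (∀ (c : ℂ) p q, dl L (c • p) q = c * dl L p q)
  | [], _ => ⟨by simp [dl], by simp [dl]⟩
  | t :: L, h => by
    have h1 := dl_lin (L := L) fun t' ht' => h t' (List.mem_cons_of_mem _ ht')
    have h2 := Der.linL (h t (by simp))
    refine ⟨fun p p' q => ?_, fun c p q => ?_⟩
    · have h3 := h2.1 p p' (t.2 * lv (lw L) * q)
      simp only at h3
      simp only [dl, add_mul, h1.1, h3]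
      ring
    · have h3 := h2.2 c p (t.2 * lv (lw L) * q)
      simp only at h3
      simp only [dl, smul_mul_assoc, h1.2, h3]
      ring

theorem Der.mem {C : StarSubalgebra ℂ A} {X : A} (hX : X ∈ C) {w : A} {D : A → A → ℂ}
    (h : Der T ∅ X w D) : w ∈ C := by
  induction h with
  | one => exact one_mem C
  | coef h => exact absurd h (Set.notMem_empty _)
  | var => exact hX
  | add _ _ ih ih' => exact add_mem ih ih'
  | smul c _ ih => exact C.smul_mem ih c
  | mul _ _ ih ih' => exact mul_mem ih ih'

/-- the form `D` only sees the functionals `τ (p ·)`, `τ (· q)` on `C` -/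
theorem Der.form {C : StarSubalgebra ℂ A} {X : A} (hX : X ∈ C) {w : A} {D : A → A → ℂ}
    (h : Der T ∅ X w D) : ∀ {p q p0 q0 : A} {α β : ℂ},
    (∀ a ∈ C, T.τ (p * a) = α * T.τ (p0 * a)) → (∀ b ∈ C, T.τ (b * q) = β * T.τ (b * q0)) →
    D p q = α * β * D p0 q0 := by
  induction h with
  | one => intros; simp
  | coef h => exact absurd h (Set.notMem_empty _)
  | var =>
    intro p q p0 q0 α β hp hq
    have h1 := hp 1 (one_mem C)
    have h2 := hq 1 (one_mem C)
    rw [mul_one, mul_one] at h1
    rw [one_mul, one_mul] at h2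
    simp only [h1, h2]
    ring
  | add _ _ ih ih' =>
    intro p q p0 q0 α β hp hq
    simp only [ih hp hq, ih' hp hq]
    ring
  | smul c _ ih =>
    intro p q p0 q0 α β hp hq
    simp only [ih hp hq]
    ring
  | @mul w w' D D' hw hw' ih ih' =>
    intro p q p0 q0 α β hp hq
    have m := Der.mem hX hw
    have m' := Der.mem hX hw'
    have h1 : D' (p * w) q = α * β * D' (p0 * w) q0 := by
      refine ih' (fun a ha => ?_) hq
      rw [mul_assoc, mul_assoc]
      exact hp _ (mul_mem m ha)
    have h2 : D p (w' * q) = α * β * D p0 (w' * q0) := by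
      refine ih hp (fun b hb => ?_)
      rw [← mul_assoc, ← mul_assoc]
      exact hq _ (mul_mem hb m')
    simp only [h1, h2]
    ring

section free

variable {G C : StarSubalgebra ℂ A} {X : A}

theorem Inner.change_last {c c' g g' : A} : ∀ {L : List (A × A)}, Inner T (L ++ [(c, g)]) →
    Inner T (L ++ [(c', g')])
  | [], _ => trivial
  | p :: L, h => by
    have h1 : Inner T (L ++ [(c', g')]) := Inner.change_last (Inner.tail h)
    refine Inner.cons h1 fun _ => ?_
    exact Inner.head (by simp) h

/-- freeness with an additional coefficient on the left -/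
theorem FreeL.left (hf : FreeL T (G : Set A) {c | c ∈ C ∧ T.τ c = 0}) {g : A} (hg : g ∈ G)
    {L : List (A × A)} (hne : L ≠ []) (hc : ∀ p ∈ L, p.1 ∈ {c | c ∈ C ∧ T.τ c = 0})
    (hG : ∀ p ∈ L, p.2 ∈ (G : Set A)) (hi : Inner T L) : T.τ (g * lv L) = 0 := by
  obtain ⟨L0, ⟨c, g'⟩, h⟩ : ∃ (L0 : List (A × A)) (x : A × A), L = L0 ++ [x] :=
    ⟨L.dropLast, L.getLast hne, (List.dropLast_append_getLast hne).symm⟩
  · rw [h] at hc hG hi ⊢
    rw [T.tr]
    have h1 := hf (L0 ++ [(c, g' * g)]) (by simp) ?_ ?_ (Inner.change_last hi)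
    · rw [lv_append] at h1 ⊢
      simpa [mul_assoc] using h1
    · intro p hp
      rcases List.mem_append.1 hp with hp | hp
      · exact hc p (List.mem_append_left _ hp)
      · rw [List.mem_singleton] at hp
        rw [hp]
        exact hc (c, g') (by simp)
    · intro p hp
      rcases List.mem_append.1 hp with hp | hp
      · exact hG p (List.mem_append_left _ hp)
      · rw [List.mem_singleton] at hp
        rw [hp]
        exact mul_mem (hG (c, g') (by simp)) hg

/-- centring -/
noncomputable def ctr (T : TracialState A) (a : A) : A := a - T.τ a • (1 : A)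

theorem tau_ctr (a : A) : T.τ (ctr T a) = 0 := by
  simp [ctr, T.one]

theorem ctr_mem {B : StarSubalgebra ℂ A} {a : A} (ha : a ∈ B) : ctr T a ∈ B :=
  sub_mem ha (B.smul_mem (one_mem B) _)

theorem eq_ctr (a : A) : a = ctr T a + T.τ a • (1 : A) := by simp [ctr]

theorem Inner_of_all : ∀ {M : List (A × A)}, (∀ p ∈ M, T.τ p.2 = 0) → ∀ q : A × A,
    Inner T (M ++ [q])
  | [], _, _ => trivial
  | p :: M, h, q => by
    refine Inner.cons (Inner_of_all (fun p' hp' => h p' (List.mem_cons_of_mem _ hp')) q) fun _ => ?_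
    exact h p (by simp)

theorem Inner_of_all' : ∀ {M : List (A × A)}, (∀ p ∈ M, T.τ p.2 = 0) → Inner T M
  | [], _ => trivial
  | p :: M, h => by
    refine Inner.cons (Inner_of_all' (fun p' hp' => h p' (List.mem_cons_of_mem _ hp'))) fun _ => ?_
    exact h p (by simp)

theorem Z1 (hf : FreeL T (G : Set A) {c | c ∈ C ∧ T.τ c = 0}) {g a : A} (hg : g ∈ G) (ha : a ∈ C)
    {M : List (A × A)} (hne : M ≠ []) (hc : ∀ p ∈ M, p.1 ∈ {c | c ∈ C ∧ T.τ c = 0})
    (hG : ∀ p ∈ M, p.2 ∈ (G : Set A)) (hi : ∀ p ∈ M, T.τ p.2 = 0) : T.τ (g * lv M * a) = 0 := by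
  rw [eq_ctr (T := T) a, mul_add, map_add, mul_smul_comm, mul_one, map_smul,
    FreeL.left hf hg hne hc hG (Inner_of_all' hi), smul_zero, add_zero]
  have h1 := FreeL.left hf hg (L := M ++ [(ctr T a, 1)]) (by simp) ?_ ?_ (Inner_of_all hi _)
  · rw [lv_append] at h1
    simpa [mul_assoc] using h1
  · intro p hp
    rcases List.mem_append.1 hp with hp | hp
    · exact hc p hp
    · rw [List.mem_singleton] at hp
      rw [hp]
      exact ⟨ctr_mem ha, tau_ctr a⟩
  · intro p hp
    rcases List.mem_append.1 hp with hp | hp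
    · exact hG p hp
    · rw [List.mem_singleton] at hp
      rw [hp]
      exact one_mem G

theorem Z2 (hf : FreeL T (G : Set A) {c | c ∈ C ∧ T.τ c = 0}) {g a : A} (hg : g ∈ G)
    (hg0 : T.τ g = 0) (ha : a ∈ C)
    {M : List (A × A)} (hne : M ≠ []) (hc : ∀ p ∈ M, p.1 ∈ {c | c ∈ C ∧ T.τ c = 0})
    (hG : ∀ p ∈ M, p.2 ∈ (G : Set A)) (hi : Inner T M) : T.τ (a * (g * lv M)) = 0 := by
  rw [eq_ctr (T := T) a, add_mul, map_add, smul_mul_assoc, one_mul, map_smul,
    FreeL.left hf hg hne hc hG hi, smul_zero, add_zero]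
  have h1 := hf ((ctr T a, g) :: M) (by simp) ?_ ?_ (Inner.cons hi fun _ => hg0)
  · simpa [mul_assoc] using h1
  · intro p hp
    rcases List.mem_cons.1 hp with hp | hp
    · rw [hp]
      exact ⟨ctr_mem ha, tau_ctr a⟩
    · exact hc p hp
  · intro p hp
    rcases List.mem_cons.1 hp with hp | hp
    · rw [hp]
      exact hg
    · exact hG p hp

theorem tau_mul_free (hf : FreeL T (G : Set A) {c | c ∈ C ∧ T.τ c = 0}) {g a : A} (hg : g ∈ G)
    (ha : a ∈ C) : T.τ (a * g) = T.τ a * T.τ g := by
  have h1 := hf [(ctr T a, g)] (by simp)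
    (by
      intro p hp
      rw [List.mem_singleton] at hp
      rw [hp]
      exact ⟨ctr_mem ha, tau_ctr a⟩)
    (by
      intro p hp
      rw [List.mem_singleton] at hp
      rw [hp]
      exact hg) trivial
  simp only [lv_cons, lv_nil, mul_one] at h1
  rw [eq_ctr (T := T) a, add_mul, map_add, h1, smul_mul_assoc, one_mul, map_smul, zero_add,
    map_add, tau_ctr, map_smul, T.one, smul_eq_mul, smul_eq_mul, mul_one, zero_add]

theorem dl_zero (hX : X ∈ C) (hf : FreeL T (G : Set A) {c | c ∈ C ∧ T.τ c = 0}) {g0 : A}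
    (hg0 : g0 ∈ G) : ∀ (L : List (PP A × A)), Red T (G : Set A) X L →
    ∀ M : List (A × A), M ≠ [] → (∀ p ∈ M, p.1 ∈ {c | c ∈ C ∧ T.τ c = 0}) →
    (∀ p ∈ M, p.2 ∈ (G : Set A)) → (∀ p ∈ M, T.τ p.2 = 0) → ∀ q, dl L (g0 * lv M) q = 0 := by
  intro L
  induction L with
  | nil => intros; rfl
  | cons t L ih =>
    intro hL M hne hc hG hi q
    obtain ⟨⟨c, D⟩, g⟩ := t
    obtain ⟨h1, h2, h3⟩ := hL
    have hD : Der T ∅ X c D := (h1 ((c, D), g) (by simp)).1
    have hc0 : T.τ c = 0 := (h1 ((c, D), g) (by simp)).2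
    have hg : g ∈ G := h2 ((c, D), g) (by simp)
    have e1 : D (g0 * lv M) (g * lv (lw L) * q) = 0 := by
      rw [Der.form hX hD (p0 := 1) (q0 := g * lv (lw L) * q) (α := 0) (β := 1)]
      · simp
      · intro a ha
        rw [zero_mul]
        exact Z1 hf hg0 ha hne hc hG hi
      · intro b _
        rw [one_mul]
    simp only [dl]
    rw [e1, zero_add]
    cases L with
    | nil => rfl
    | cons t' L' =>
      have hg1 : T.τ g = 0 := h3.1
      have e2 : g0 * lv M * c * g = g0 * lv (M ++ [(c, g)]) := by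
        rw [lv_append]
        simp [mul_assoc]
      rw [e2]
      refine ih ⟨fun t ht => h1 t (List.mem_cons_of_mem _ ht),
        fun t ht => h2 t (List.mem_cons_of_mem _ ht), h3.2⟩ _ (by simp) ?_ ?_ ?_ q
      · intro p hp
        rcases List.mem_append.1 hp with hp | hp
        · exact hc p hp
        · rw [List.mem_singleton] at hp
          rw [hp]
          exact ⟨Der.mem hX hD, hc0⟩
      · intro p hp
        rcases List.mem_append.1 hp with hp | hp
        · exact hG p hp
        · rw [List.mem_singleton] at hp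
          rw [hp]
          exact hg
      · intro p hp
        rcases List.mem_append.1 hp with hp | hp
        · exact hi p hp
        · rw [List.mem_singleton] at hp
          rw [hp]
          exact hg1

theorem Red.lw_mem (hX : X ∈ C) {L : List (PP A × A)} (hL : Red T (G : Set A) X L) :
    ∀ p ∈ lw L, p.1 ∈ {c | c ∈ C ∧ T.τ c = 0} := by
  intro p hp
  obtain ⟨t, ht, rfl⟩ := List.mem_map.1 hp
  exact ⟨Der.mem hX (hL.1 t ht).1, (hL.1 t ht).2⟩

theorem Red.lw_mem' {L : List (PP A × A)} (hL : Red T (G : Set A) X L) :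
    ∀ p ∈ lw L, p.2 ∈ (G : Set A) := by
  intro p hp
  obtain ⟨t, ht, rfl⟩ := List.mem_map.1 hp
  exact hL.2.1 t ht

theorem Red.tail {t : PP A × A} {L : List (PP A × A)} (hL : Red T (G : Set A) X (t :: L)) :
    Red T (G : Set A) X L :=
  ⟨fun s hs => hL.1 s (List.mem_cons_of_mem _ hs), fun s hs => hL.2.1 s (List.mem_cons_of_mem _ hs),
    Inner.tail hL.2.2⟩

/-- Schwinger-Dyson on the generators. -/
theorem sd_gen (hX : X ∈ C) (hX0 : T.τ X = 0) (hf : FreeL T (G : Set A) {c | c ∈ C ∧ T.τ c = 0})
    (hs : ∀ (c : A) (D : A → A → ℂ), Der T ∅ X c D → T.τ (X * c) = D 1 1)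
    {g0 : A} (hg0 : g0 ∈ G) {L : List (PP A × A)} (hL : Red T (G : Set A) X L) :
    T.τ (X * (gen g0 L).1) = (gen g0 L).2 1 1 := by
  simp only [gen, one_mul]
  cases L with
  | nil =>
    simp only [lw_nil, lv_nil, mul_one, dl]
    rw [tau_mul_free hf hg0 hX, hX0, zero_mul]
  | cons t L =>
    obtain ⟨⟨c, D⟩, g⟩ := t
    have hD : Der T ∅ X c D := (hL.1 ((c, D), g) (by simp)).1
    have hc0 : T.τ c = 0 := (hL.1 ((c, D), g) (by simp)).2
    have hc : c ∈ C := Der.mem hX hD
    have hg : g ∈ G := hL.2.1 ((c, D), g) (by simp)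
    have hL' := Red.tail hL
    -- left hand side
    have e1 : T.τ (X * (g0 * lv (lw (((c, D), g) :: L)))) =
        T.τ g0 * T.τ (X * c * (g * lv (lw L))) := by
      have e2 : T.τ (X * (ctr T g0 * lv (lw (((c, D), g) :: L)))) = 0 := by
        have := hf ((X, ctr T g0) :: lw (((c, D), g) :: L)) (by simp) ?_ ?_
          (Inner.cons hL.2.2 fun _ => tau_ctr g0)
        · rw [lv_cons] at this
          simpa [mul_assoc] using this
        · intro p hp
          rcases List.mem_cons.1 hp with hp | hp
          · rw [hp]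
            exact ⟨hX, hX0⟩
          · exact Red.lw_mem hX hL p hp
        · intro p hp
          rcases List.mem_cons.1 hp with hp | hp
          · rw [hp]
            exact ctr_mem hg0
          · exact Red.lw_mem' hL p hp
      nth_rewrite 1 [eq_ctr (T := T) g0]
      rw [add_mul, mul_add, map_add, e2, zero_add, smul_mul_assoc, one_mul, mul_smul_comm, map_smul,
        smul_eq_mul]
      congr 2
      simp [mul_assoc]
    rw [e1]
    simp only [dl, mul_one]
    cases L with
    | nil =>
      simp only [lw_nil, lv_nil, mul_one, dl, add_zero]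
      rw [Der.form hX hD (p0 := 1) (q0 := 1) (α := T.τ g0) (β := T.τ g), ← hs c D hD,
        tau_mul_free hf hg (mul_mem hX hc)]
      · ring
      · intro a ha
        rw [T.tr, tau_mul_free hf hg0 ha, one_mul, mul_comm]
      · intro b hb
        rw [tau_mul_free hf hg hb, mul_one, mul_comm]
    | cons t' L' =>
      have hg1 : T.τ g = 0 := hL.2.2.1
      have h3 : T.τ (X * c * (g * lv (lw (t' :: L')))) = 0 :=
        Z2 hf hg hg1 (mul_mem hX hc) (by simp) (Red.lw_mem hX hL') (Red.lw_mem' hL') hL'.2.2
      have h4 : D g0 (g * lv (lw (t' :: L'))) = 0 := by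
        rw [Der.form hX hD (p0 := g0) (q0 := 1) (α := 1) (β := 0)]
        · simp
        · intro a _
          rw [one_mul]
        · intro b hb
          rw [zero_mul]
          exact Z2 hf hg hg1 hb (by simp) (Red.lw_mem hX hL') (Red.lw_mem' hL') hL'.2.2
      have h5 : dl (t' :: L') (g0 * c * g) 1 = 0 := by
        have e2 : g0 * c * g = g0 * lv [(c, g)] := by simp [mul_assoc]
        rw [e2]
        refine dl_zero hX hf hg0 _ hL' _ (by simp) ?_ ?_ ?_ 1
        · intro p hp
          rw [List.mem_singleton] at hp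
          rw [hp]
          exact ⟨hc, hc0⟩
        · intro p hp
          rw [List.mem_singleton] at hp
          rw [hp]
          exact hg
        · intro p hp
          rw [List.mem_singleton] at hp
          rw [hp]
          exact hg1
      rw [h3, h4, h5]
      ring

theorem gen_linL {g0 : A} {L : List (PP A × A)} (hL : Red T (G : Set A) X L) :
    LinL (gen g0 L) := by
  have h := dl_lin (T := T) (X := X) (L := L) fun t ht => (hL.1 t ht).1
  refine ⟨fun p p' q => ?_, fun c p q => ?_⟩
  · simp only [gen, add_mul, h.1]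
  · simp only [gen, smul_mul_assoc, h.2]

theorem lmX_gen_one {L : List (PP A × A)} (hL : Red T (G : Set A) X L) (hX0 : T.τ X = 0) :
    lmX T X (gen 1 L) ∈ Submodule.span ℂ {P | ∃ g0 ∈ G, ∃ L, Red T (G : Set A) X L ∧ P = gen g0 L} := by
  cases L with
  | nil =>
    refine Submodule.subset_span ⟨1, one_mem G, [((X, fun p q => T.τ p * T.τ q), 1)], ?_, ?_⟩
    · refine ⟨?_, ?_, trivial⟩
      · intro t ht
        rw [List.mem_singleton] at ht
        rw [ht]
        exact ⟨Der.var, hX0⟩
      · intro t ht
        rw [List.mem_singleton] at ht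
        rw [ht]
        exact one_mem G
    · ext p q
      · simp [lmX, gen]
      · simp [lmX, gen, dl]
  | cons t L =>
    obtain ⟨⟨c, D⟩, g⟩ := t
    have hD : Der T ∅ X c D := (hL.1 ((c, D), g) (by simp)).1
    have hg : g ∈ G := hL.2.1 ((c, D), g) (by simp)
    have hL' := Red.tail hL
    have hXc := Der.add (Der.mul (Der.var (T := T) (G := ∅) (X := X)) hD)
      (Der.smul (-(T.τ (X * c))) (Der.one (T := T) (G := ∅) (X := X)))
    set w : A := X * c + -(T.τ (X * c)) • (1 : A) with hw
    set E : A → A → ℂ := fun p q => (D (p * X) q + T.τ p * T.τ (c * q)) + -(T.τ (X * c)) * 0 with hE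
    have hw0 : T.τ w = 0 := by
      rw [hw]
      simp [T.one]
    have hred : Red T (G : Set A) X (((w, E), g) :: L) := by
      refine ⟨?_, ?_, ?_⟩
      · intro t ht
        rcases List.mem_cons.1 ht with ht | ht
        · rw [ht]
          exact ⟨hXc, hw0⟩
        · exact hL'.1 t ht
      · intro t ht
        rcases List.mem_cons.1 ht with ht | ht
        · rw [ht]
          exact hg
        · exact hL'.2.1 t ht
      · exact Inner.change (L := []) (c := c) hL.2.2
    have e : lmX T X (gen 1 (((c, D), g) :: L)) =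
        gen 1 (((w, E), g) :: L) + T.τ (X * c) • gen g L := by
      have hl := dl_lin (T := T) (X := X) (L := L) fun t ht => (hL'.1 t ht).1
      ext p q
      · simp only [lmX, gen, lw_cons, lv_cons, one_mul, Prod.fst_add, Prod.smul_fst, hw]
        simp only [add_mul, neg_smul, neg_mul, smul_mul_assoc, one_mul]
        rw [← mul_assoc, ← mul_assoc]
        abel
      · simp only [lmX, gen, dl, lw_cons, lv_cons, one_mul, mul_one, Prod.snd_add, Prod.smul_snd,
          Pi.add_apply, Pi.smul_apply, smul_eq_mul, hE, mul_zero, add_zero, hw]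
        have e3 : p * (X * c + -(T.τ (X * c)) • (1 : A)) * g =
            p * X * c * g + (-(T.τ (X * c))) • (p * g) := by
          simp only [mul_add, add_mul, mul_smul_comm, smul_mul_assoc, mul_one, mul_assoc]
        rw [e3, hl.1, hl.2]
        simp only [mul_assoc]
        ring
    rw [e]
    refine Submodule.add_mem _ (Submodule.subset_span ⟨1, one_mem G, _, hred, rfl⟩) ?_
    exact Submodule.smul_mem _ _ (Submodule.subset_span ⟨g, hg, L, hL', rfl⟩)

/-- **Freeness + one variable Schwinger-Dyson ⇒ Schwinger-Dyson over `G`.** -/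
theorem sd_of_free (hsa : IsSelfAdjoint X) (hX : X ∈ C) (hX0 : T.τ X = 0)
    (hf : FreeL T (G : Set A) {c | c ∈ C ∧ T.τ c = 0})
    (hs : ∀ (c : A) (D : A → A → ℂ), Der T ∅ X c D → T.τ (X * c) = D 1 1) :
    SD T (G : Set A) X := by
  refine ⟨hsa, fun w D hD => ?_⟩
  set V := Submodule.span ℂ {P | ∃ g0 ∈ G, ∃ L, Red T (G : Set A) X L ∧ P = gen g0 L} with hV
  have hmem : ((w, D) : PP A) ∈ V := by
    refine mem_of_stable (T := T) (X := X) (G := (G : Set A)) V ?_ ?_ ?_ ?_ hD
    · refine Submodule.subset_span ⟨1, one_mem G, [], ⟨by simp, by simp, trivial⟩, ?_⟩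
      ext p q
      · simp [gen]
      · simp [gen, dl]
    · intro P hP
      refine LinL.span ?_ hP
      rintro _ ⟨g0, _, L, hL, rfl⟩
      exact gen_linL hL
    · intro P hP
      refine lmX_mem_span ?_ hP
      rintro _ ⟨g0, hg0, L, hL, rfl⟩
      have h1 : Red T (G : Set A) X (((X, fun p q => T.τ p * T.τ q), ctr T g0) :: L) := by
        refine ⟨?_, ?_, ?_⟩
        · intro t ht
          rcases List.mem_cons.1 ht with ht | ht
          · rw [ht]
            exact ⟨Der.var, hX0⟩
          · exact hL.1 t ht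
        · intro t ht
          rcases List.mem_cons.1 ht with ht | ht
          · rw [ht]
            exact ctr_mem hg0
          · exact hL.2.1 t ht
        · exact Inner.cons hL.2.2 fun _ => tau_ctr g0
      have e : lmX T X (gen g0 L) =
          gen 1 (((X, fun p q => T.τ p * T.τ q), ctr T g0) :: L) + T.τ g0 • lmX T X (gen 1 L) := by
        have hl := dl_lin (T := T) (X := X) (L := L) fun t ht => (hL.1 t ht).1
        ext p q
        · simp only [lmX, gen, lw_cons, lv_cons, one_mul, Prod.fst_add, Prod.smul_fst]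
          nth_rewrite 1 [eq_ctr (T := T) g0]
          simp only [add_mul, mul_add, smul_mul_assoc, one_mul, mul_smul_comm, mul_assoc]
        · simp only [lmX, gen, dl, one_mul, mul_one, Prod.snd_add, Prod.smul_snd,
            Pi.add_apply, Pi.smul_apply, smul_eq_mul]
          have e3 : p * X * g0 = p * X * ctr T g0 + T.τ g0 • (p * X) := by
            nth_rewrite 1 [eq_ctr (T := T) g0]
            simp only [mul_add, mul_smul_comm, mul_one]
          have e4 : T.τ (g0 * lv (lw L) * q) =
              T.τ (ctr T g0 * lv (lw L) * q) + T.τ g0 * T.τ (lv (lw L) * q) := by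
            nth_rewrite 1 [eq_ctr (T := T) g0]
            simp only [add_mul, smul_mul_assoc, one_mul, map_add, map_smul, smul_eq_mul]
          rw [e3, hl.1, hl.2, e4]
          ring
      rw [e]
      refine Submodule.add_mem _ (Submodule.subset_span ⟨1, one_mem G, _, h1, rfl⟩) ?_
      exact Submodule.smul_mem _ _ (lmX_gen_one hL hX0)
    · intro g hg P hP
      refine lmG_mem_span ?_ hP
      rintro _ ⟨g0, hg0, L, hL, rfl⟩
      refine Submodule.subset_span ⟨g * g0, mul_mem hg hg0, L, hL, ?_⟩
      ext p q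
      · simp [lmG, gen, mul_assoc]
      · simp [lmG, gen, mul_assoc]
  have key : ∀ P ∈ V, T.τ (X * P.1) = P.2 1 1 := by
    intro P hP
    induction hP using Submodule.span_induction with
    | mem P hP =>
      obtain ⟨g0, hg0, L, hL, rfl⟩ := hP
      exact sd_gen hX hX0 hf hs hg0 hL
    | zero => simp
    | add P P' _ _ hP hP' =>
      simp only [Prod.fst_add, Prod.snd_add, mul_add, map_add, Pi.add_apply, hP, hP']
    | smul r P _ hP =>
      simp only [Prod.smul_fst, Prod.smul_snd, mul_smul_comm, map_smul, Pi.smul_apply, hP]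
  exact key _ hmem

end free

end Conv

end Crest.Agent.R134
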