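import Crest.Agent.R134.Cheb

/-!
# R134: the law of a semicircular element: `τ (f(x)) = Sc f`, and `‖x‖ ≤ 2`
-/

set_option autoImplicit false
set_option linter.unusedSectionVars false

namespace Crest.Agent.R134.Sm

open Crest.Agent.R95 Polynomial MeasureTheory

/-! ### The functional `Sc` -/

theorem Sc_integrable {F : ℝ → ℂ} (hF : Continuous F) (a b : ℝ) :
    IntervalIntegrable (fun t : ℝ => F (2 * Real.cos t) * ((Real.sin t ^ 2 : ℝ) : ℂ))
      volume a b := by
  apply Continuous.intervalIntegrable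
  fun_prop

theorem Sc_add {F G : ℝ → ℂ} (hF : Continuous F) (hG : Continuous G) :
    Sc (fun s => F s + G s) = Sc F + Sc G := by
  unfold Sc
  rw [← mul_add, ← intervalIntegral.integral_add (Sc_integrable hF _ _) (Sc_integrable hG _ _)]
  simp only [add_mul]

theorem Sc_sub {F G : ℝ → ℂ} (hF : Continuous F) (hG : Continuous G) :
    Sc (fun s => F s - G s) = Sc F - Sc G := by
  unfold Sc
  rw [← mul_sub, ← intervalIntegral.integral_sub (Sc_integrable hF _ _) (Sc_integrable hG _ _)]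
  simp only [sub_mul]

theorem Sc_const_mul (c : ℂ) (F : ℝ → ℂ) : Sc (fun s => c * F s) = c * Sc F := by
  unfold Sc
  have : ∀ t : ℝ, c * F (2 * Real.cos t) * ((Real.sin t ^ 2 : ℝ) : ℂ) =
    c * (F (2 * Real.cos t) * ((Real.sin t ^ 2 : ℝ) : ℂ)) := fun t => by ring
  simp only [this]
  rw [intervalIntegral.integral_const_mul]
  ring

theorem integral_sin_sq_pi : ∫ t in (0:ℝ)..Real.pi, Real.sin t ^ 2 = Real.pi / 2 := by
  rw [integral_sin_sq]; simp

theorem Sc_congr {F G : ℝ → ℂ} (h : ∀ s ∈ Set.Icc (-2:ℝ) 2, F s = G s) : Sc F = Sc G := by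
  unfold Sc
  congr 1
  refine intervalIntegral.integral_congr fun t _ => ?_
  have : F (2 * Real.cos t) = G (2 * Real.cos t) := by
    apply h
    constructor
    · linarith [Real.neg_one_le_cos t]
    · linarith [Real.cos_le_one t]
  simp only [this]

theorem norm_Sc_le {F : ℝ → ℂ} {c : ℝ}
    (h : ∀ s ∈ Set.Icc (-2:ℝ) 2, ‖F s‖ ≤ c) : ‖Sc F‖ ≤ c := by
  unfold Sc
  rw [norm_mul]
  have h1 : ‖∫ t in (0:ℝ)..Real.pi, F (2 * Real.cos t) * ((Real.sin t ^ 2 : ℝ) : ℂ)‖ ≤
      ∫ t in (0:ℝ)..Real.pi, c * Real.sin t ^ 2 := by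
    apply intervalIntegral.norm_integral_le_of_norm_le Real.pi_pos.le
    · refine Filter.Eventually.of_forall fun t _ => ?_
      rw [norm_mul, Complex.norm_real, Real.norm_of_nonneg (sq_nonneg _)]
      refine mul_le_mul_of_nonneg_right (h _ ?_) (sq_nonneg _)
      constructor
      · linarith [Real.neg_one_le_cos t]
      · linarith [Real.cos_le_one t]
    · apply Continuous.intervalIntegrable
      fun_prop
  rw [intervalIntegral.integral_const_mul, integral_sin_sq_pi] at h1
  have h2 : ‖(2 / Real.pi : ℂ)‖ = 2 / Real.pi := by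
    have : (2 / Real.pi : ℂ) = ((2 / Real.pi : ℝ) : ℂ) := by push_cast; ring
    rw [this, Complex.norm_real, Real.norm_of_nonneg (by positivity)]
  rw [h2]
  have hpi := Real.pi_pos
  calc 2 / Real.pi * ‖∫ t in (0:ℝ)..Real.pi, F (2 * Real.cos t) * ((Real.sin t ^ 2 : ℝ) : ℂ)‖
      ≤ 2 / Real.pi * (c * (Real.pi / 2)) := by gcongr
    _ = c := by field_simp

theorem Sc_one : Sc (fun _ => 1) = 1 := by
  unfold Sc
  have : ∫ t in (0:ℝ)..Real.pi, (1:ℂ) * ((Real.sin t ^ 2 : ℝ) : ℂ) = ((Real.pi / 2 : ℝ) : ℂ) := by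
    simp only [one_mul]
    rw [intervalIntegral.integral_ofReal, integral_sin_sq_pi]
  rw [this]
  have hpi : (Real.pi : ℂ) ≠ 0 := by exact_mod_cast Real.pi_ne_zero
  push_cast
  field_simp

theorem Sc_const (c : ℂ) : Sc (fun _ => c) = c := by
  have := Sc_const_mul c (fun _ => 1)
  simpa [Sc_one] using this

theorem ch_cos_mul_sin (t : ℝ) (n : ℕ) :
    ch (2 * Real.cos t) n * Real.sin t = Real.sin ((n + 1) * t) := by
  induction n using Nat.strong_induction_on with
  | _ n ih =>
    match n with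
    | 0 => simp
    | 1 => rw [ch_one]; push_cast; rw [show (1 + 1) * t = 2 * t by ring, Real.sin_two_mul]; ring
    | n + 2 =>
      have h1 := ih (n+1) (by omega)
      have h0 := ih n (by omega)
      rw [ch_add_two, sub_mul, mul_assoc, h1, h0]
      push_cast
      have e1 : ((n:ℝ) + 2 + 1) * t = ((n:ℝ) + 1 + 1) * t + t := by ring
      have e2 : ((n:ℝ) + 1) * t = ((n:ℝ) + 1 + 1) * t - t := by ring
      rw [e1, e2, Real.sin_add, Real.sin_sub]
      ring

theorem integral_sin_mul_sin (n : ℕ) :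
    ∫ t in (0:ℝ)..Real.pi, Real.sin ((n + 1 + 1) * t) * Real.sin t = 0 := by
  have h : ∀ t : ℝ, Real.sin (((n:ℝ) + 1 + 1) * t) * Real.sin t =
      (1/2) * Real.cos (((n+1 : ℕ) : ℝ) * t) - (1/2) * Real.cos (((n+3 : ℕ) : ℝ) * t) := by
    intro t
    have e1 : ((n+1 : ℕ) : ℝ) * t = ((n:ℝ) + 1 + 1) * t - t := by push_cast; ring
    have e2 : ((n+3 : ℕ) : ℝ) * t = ((n:ℝ) + 1 + 1) * t + t := by push_cast; ring
    rw [e1, e2, Real.cos_add, Real.cos_sub]
    ring
  have hk : ∀ k : ℕ, k ≠ 0 → ∫ t in (0:ℝ)..Real.pi, Real.cos ((k : ℝ) * t) = 0 := by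
    intro k hk
    rw [intervalIntegral.integral_comp_mul_left _ (Nat.cast_ne_zero.2 hk), integral_cos]
    simp [Real.sin_nat_mul_pi]
  simp only [h]
  rw [intervalIntegral.integral_sub, intervalIntegral.integral_const_mul,
    intervalIntegral.integral_const_mul, hk _ (by omega), hk _ (by omega)]
  · ring
  · apply Continuous.intervalIntegrable; fun_prop
  · apply Continuous.intervalIntegrable; fun_prop

theorem Sc_ch (n : ℕ) : Sc (fun s => ((ch s (n+1) : ℝ) : ℂ)) = 0 := by
  unfold Sc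
  have : ∀ t : ℝ, ((ch (2 * Real.cos t) (n+1) : ℝ) : ℂ) * ((Real.sin t ^ 2 : ℝ) : ℂ) =
      ((Real.sin ((n + 1 + 1) * t) * Real.sin t : ℝ) : ℂ) := by
    intro t
    have := ch_cos_mul_sin t (n+1)
    push_cast at this
    rw [← this]
    push_cast
    ring
  simp only [this]
  rw [intervalIntegral.integral_ofReal, integral_sin_mul_sin]
  simp

/-! ### Moments -/

section
variable {A : Type*} [CStarAlgebra A] {T : TracialState A}

theorem continuous_eval (p : ℂ[X]) : Continuous fun s : ℝ => p.eval (s : ℂ) :=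
  p.continuous.comp Complex.continuous_ofReal

theorem aeval_ch (x : A) (n : ℕ) : aeval x (ch (X : ℂ[X]) n) = ch x n := by
  have := map_ch ((aeval x : ℂ[X] →ₐ[ℂ] A) : ℂ[X] →+* A) X n
  simpa using this

theorem eval_ch (s : ℝ) (n : ℕ) : (ch (X : ℂ[X]) n).eval (s : ℂ) = ((ch s n : ℝ) : ℂ) := by
  have h1 := map_ch (Polynomial.evalRingHom (s : ℂ)) X n
  have h2 := map_ch Complex.ofRealHom s n
  simp only [coe_evalRingHom, eval_X] at h1
  simp only [Complex.ofRealHom_eq_coe] at h2
  rw [h1, h2]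

/-- **law, polynomial version** -/
theorem law_poly {x : A} (h : ∀ n, T.τ (ch x (n+1)) = 0) (p : ℂ[X]) :
    T.τ (aeval x p) = Sc (fun s => p.eval (s : ℂ)) := by
  have key : ∀ m n : ℕ, T.τ (aeval x (X ^ m * ch (X : ℂ[X]) n)) =
      Sc (fun s => (X ^ m * ch (X : ℂ[X]) n).eval (s : ℂ)) := by
    intro m
    induction m with
    | zero =>
      intro n
      simp only [pow_zero, one_mul, aeval_ch, eval_ch]
      cases n with
      | zero => simp [T.one, Sc_one]
      | succ n => rw [h, Sc_ch]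
    | succ m ih =>
      intro n
      cases n with
      | zero =>
        have := ih 1
        simpa [pow_succ] using this
      | succ n =>
        have e : X ^ (m+1) * ch (X : ℂ[X]) (n+1) = X ^ m * ch (X : ℂ[X]) (n+2) +
            X ^ m * ch (X : ℂ[X]) n := by
          rw [ch_add_two]; ring
        have h1 := ih (n+2)
        have h2 := ih n
        rw [e, map_add, map_add, h1, h2, ← Sc_add (continuous_eval _) (continuous_eval _)]
        simp only [eval_add]
  induction p using Polynomial.induction_on' with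
  | add p q hp hq =>
    simp only [map_add, hp, hq, eval_add]
    rw [← Sc_add (continuous_eval _) (continuous_eval _)]
  | monomial n a =>
    have := key n 0
    simp only [ch_zero, mul_one] at this
    rw [← C_mul_X_pow_eq_monomial, map_mul, aeval_C, Algebra.algebraMap_eq_smul_one,
      smul_mul_assoc, one_mul, map_smul, this, smul_eq_mul, ← Sc_const_mul]
    simp

/-- functional calculus with a function of a real variable -/
noncomputable def fc (x : A) (F : ℝ → ℂ) : A := cfc (fun z : ℂ => F z.re) x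

theorem uu_eq_fc (x : A) : uu x = fc x (fun s => Complex.exp (Complex.I * (Θ s : ℂ))) := rfl

theorem ru_eq_fc (d : ℕ) (x : A) :
    ru d x = fc x (fun s => Complex.exp (Complex.I * (Θ s / d : ℂ))) := rfl

theorem spec_real {x : A} (hx : IsSelfAdjoint x) {z : ℂ} (hz : z ∈ spectrum ℂ x) :
    z = (z.re : ℂ) := (hx.mem_spectrum_eq_re hz)

theorem fc_poly {x : A} (hx : IsSelfAdjoint x) (p : ℂ[X]) :
    fc x (fun s => p.eval (s : ℂ)) = aeval x p := by
  rw [← cfc_polynomial p x hx.isStarNormal]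
  unfold fc
  refine cfc_congr fun z hz => ?_
  show p.eval ((z.re : ℝ) : ℂ) = p.eval z
  rw [← spec_real hx hz]

theorem fc_sub {x : A} {F G : ℝ → ℂ} (hF : Continuous F) (hG : Continuous G) :
    fc x (fun s => F s - G s) = fc x F - fc x G := by
  unfold fc
  rw [← cfc_sub (fun z : ℂ => F z.re) (fun z : ℂ => G z.re) x (by fun_prop) (by fun_prop)]

theorem fc_add {x : A} {F G : ℝ → ℂ} (hF : Continuous F) (hG : Continuous G) :
    fc x (fun s => F s + G s) = fc x F + fc x G := by
  unfold fc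
  rw [← cfc_add x (fun z : ℂ => F z.re) (fun z : ℂ => G z.re) (by fun_prop) (by fun_prop)]

theorem fc_mul {x : A} {F G : ℝ → ℂ} (hF : Continuous F) (hG : Continuous G) :
    fc x (fun s => F s * G s) = fc x F * fc x G := by
  unfold fc
  rw [← cfc_mul (fun z : ℂ => F z.re) (fun z : ℂ => G z.re) x (by fun_prop) (by fun_prop)]

theorem fc_const {x : A} (hx : IsSelfAdjoint x) (c : ℂ) : fc x (fun _ => c) = algebraMap ℂ A c := by
  unfold fc
  exact cfc_const c x hx.isStarNormal

theorem fc_star {x : A} (F : ℝ → ℂ) : fc x (fun s => star (F s)) = star (fc x F) := by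
  unfold fc
  exact cfc_star (fun z : ℂ => F z.re) x

theorem fc_ofReal {x : A} (hx : IsSelfAdjoint x) : fc x (fun s => (s : ℂ)) = x := by
  have := fc_poly hx X
  simpa using this

/-- approximation by polynomials -/
theorem exists_poly_near {F : ℝ → ℂ} (hF : Continuous F) (R : ℝ) {ε : ℝ} (hε : 0 < ε) :
    ∃ p : ℂ[X], ∀ s ∈ Set.Icc (-R) R, ‖p.eval (s : ℂ) - F s‖ ≤ ε := by
  obtain ⟨p, hp⟩ := exists_polynomial_near_of_continuousOn (-R) R (fun s => (F s).re)
    (by fun_prop) (ε / 2) (by positivity)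
  obtain ⟨q, hq⟩ := exists_polynomial_near_of_continuousOn (-R) R (fun s => (F s).im)
    (by fun_prop) (ε / 2) (by positivity)
  refine ⟨p.map Complex.ofRealHom + C Complex.I * q.map Complex.ofRealHom, fun s hs => ?_⟩
  have e1 : (p.map Complex.ofRealHom).eval (s : ℂ) = ((p.eval s : ℝ) : ℂ) := by
    rw [← Complex.ofRealHom_eq_coe, eval_map_apply]; rfl
  have e2 : (q.map Complex.ofRealHom).eval (s : ℂ) = ((q.eval s : ℝ) : ℂ) := by
    rw [← Complex.ofRealHom_eq_coe, eval_map_apply]; rfl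
  rw [eval_add, eval_mul, eval_C, e1, e2]
  have e3 : ((p.eval s : ℝ) : ℂ) + Complex.I * ((q.eval s : ℝ) : ℂ) - F s =
      ((p.eval s - (F s).re : ℝ) : ℂ) + Complex.I * ((q.eval s - (F s).im : ℝ) : ℂ) := by
    apply Complex.ext <;> simp
  rw [e3]
  refine (norm_add_le _ _).trans ?_
  rw [norm_mul, Complex.norm_I, one_mul, Complex.norm_real, Complex.norm_real, Real.norm_eq_abs,
    Real.norm_eq_abs]
  linarith [hp s hs, hq s hs]

theorem norm_fc_le {x : A} (_hx : IsSelfAdjoint x) {F : ℝ → ℂ} {c R : ℝ} (hc : 0 ≤ c)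
    (hR : ‖x‖ ≤ R) (h : ∀ s ∈ Set.Icc (-R) R, ‖F s‖ ≤ c) : ‖fc x F‖ ≤ c := by
  refine norm_cfc_le hc fun z hz => h _ ?_
  have h1 : ‖z‖ ≤ ‖x‖ := by
    cases subsingleton_or_nontrivial A with
    | inl h => simp [spectrum.of_subsingleton] at hz
    | inr h => exact spectrum.norm_le_norm_of_mem hz
  have h2 := Complex.abs_re_le_norm z
  rw [Set.mem_Icc]
  exact abs_le.1 (h2.trans (h1.trans hR))

/-- **law** -/
theorem law {x : A} (hx : IsSelfAdjoint x) (h : ∀ n, T.τ (ch x (n+1)) = 0) {F : ℝ → ℂ}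
    (hF : Continuous F) : T.τ (fc x F) = Sc F := by
  refine eq_of_forall_dist_le fun ε hε => ?_
  obtain ⟨p, hp⟩ := exists_poly_near hF (max ‖x‖ 2) (half_pos hε)
  rw [dist_eq_norm]
  have e : T.τ (fc x F) - Sc F = (T.τ (fc x (fun s => F s - p.eval (s:ℂ)))) +
      Sc (fun s => p.eval (s:ℂ) - F s) := by
    rw [fc_sub hF (continuous_eval p), map_sub, Sc_sub (continuous_eval p) hF, fc_poly hx,
      law_poly h]
    ring
  rw [e]
  refine (norm_add_le _ _).trans ?_
  have h1 : ‖T.τ (fc x (fun s => F s - p.eval (s:ℂ)))‖ ≤ ε / 2 := by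
    refine (T.norm_tau_le _).trans (norm_fc_le hx (R := max ‖x‖ 2) (by positivity)
      (le_max_left _ _) fun s hs => ?_)
    rw [norm_sub_rev]
    exact hp s hs
  have h2 : ‖Sc (fun s => p.eval (s:ℂ) - F s)‖ ≤ ε / 2 := by
    refine norm_Sc_le fun s hs => hp s ?_
    constructor
    · linarith [hs.1, le_max_right ‖x‖ 2]
    · linarith [hs.2, le_max_right ‖x‖ 2]
  linarith

/-- 2-norms of functions of a semicircular element -/
theorem nrm2_fc_sq {x : A} (hx : IsSelfAdjoint x) (h : ∀ n, T.τ (ch x (n+1)) = 0) {F : ℝ → ℂ}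
    (hF : Continuous F) : T.nrm2 (fc x F) ^ 2 = (Sc (fun s => star (F s) * F s)).re := by
  have h1 : Continuous fun s => star (F s) := by fun_prop
  have h2 : Continuous fun s => star (F s) * F s := h1.mul hF
  rw [T.nrm2_sq, ← fc_star, ← fc_mul h1 hF, law hx h h2]

/-- **norm bound** -/
theorem norm_le_two (hf : ∀ a : A, T.nrm2 a = 0 → a = 0) {x : A} (hx : IsSelfAdjoint x)
    (h : ∀ n, T.τ (ch x (n+1)) = 0) : ‖x‖ ≤ 2 := by
  -- `f (s) = max 0 (|s| - 2)`
  set F : ℝ → ℂ := fun s => ((max 0 (|s| - 2) : ℝ) : ℂ) with hF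
  have hFc : Continuous F := by
    rw [hF]; fun_prop
  have h0 : T.nrm2 (fc x F) ^ 2 = 0 := by
    rw [nrm2_fc_sq hx h hFc]
    have : Sc (fun s => star (F s) * F s) = Sc (fun _ => 0) := by
      refine Sc_congr fun s hs => ?_
      have : max 0 (|s| - 2) = 0 := max_eq_left (by have := abs_le.2 hs; linarith)
      simp [hF, this]
    rw [this, Sc_const, Complex.zero_re]
  have h1 : fc x F = 0 := hf _ (by nlinarith [T.nrm2_nonneg (fc x F)])
  have h2 : ∀ z ∈ spectrum ℂ x, ‖z‖ ≤ 2 := by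
    intro z hz
    have h3 := norm_apply_le_norm_cfc (𝕜 := ℂ) (fun z : ℂ => F z.re) x hz
      (by fun_prop) hx.isStarNormal
    have h4 : cfc (fun z : ℂ => F z.re) x = 0 := h1
    rw [h4, norm_zero] at h3
    have h5 : F z.re = 0 := norm_le_zero_iff.1 h3
    have h6 : max 0 (|z.re| - 2) = 0 := by
      have : ((max 0 (|z.re| - 2) : ℝ) : ℂ) = 0 := h5
      exact_mod_cast this
    have h7 : |z.re| - 2 ≤ 0 := by rw [← h6]; exact le_max_right _ _
    rw [spec_real hx hz, Complex.norm_real, Real.norm_eq_abs]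
    linarith
  have h3 : cfc (id : ℂ → ℂ) x = x := cfc_id ℂ x hx.isStarNormal
  rw [← h3]
  exact norm_cfc_le (by norm_num) fun z hz => h2 z hz

end

end Crest.Agent.R134.Sm
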