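import Crest.Agent.R134.Conv2
import Crest.Agent.R134.Law

/-!
# R134 Conv3: the trace of a continuous function of a Haar unitary
-/

set_option autoImplicit false
set_option linter.unusedSectionVars false

universe u

namespace Crest.Agent.R134

open Crest.Agent.R95 Filter Topology MeasureTheory

namespace Conv

variable {A : Type u} [CStarAlgebra A] {T : TracialState A}

/-- circle mean -/
noncomputable def Mc (F : ℂ → ℂ) : ℂ :=
  (1 / (2 * Real.pi) : ℂ) * ∫ θ in (-Real.pi)..Real.pi, F (Complex.exp (θ * Complex.I))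

/-- the unit circle -/
abbrev Sp : Set ℂ := Metric.sphere (0 : ℂ) 1

theorem exp_mem_Sp (θ : ℝ) : Complex.exp (θ * Complex.I) ∈ Sp := by
  simp [Complex.norm_exp_ofReal_mul_I]

theorem Mc_integrable {F : ℂ → ℂ} (hF : ContinuousOn F Sp) (a b : ℝ) :
    IntervalIntegrable (fun θ : ℝ => F (Complex.exp (θ * Complex.I))) volume a b := by
  apply Continuous.intervalIntegrable
  exact hF.comp_continuous (by fun_prop) exp_mem_Sp

theorem Mc_add {F G : ℂ → ℂ} (hF : ContinuousOn F Sp) (hG : ContinuousOn G Sp) :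
    Mc (fun z => F z + G z) = Mc F + Mc G := by
  unfold Mc
  rw [← mul_add, ← intervalIntegral.integral_add (Mc_integrable hF _ _) (Mc_integrable hG _ _)]

theorem Mc_sub {F G : ℂ → ℂ} (hF : ContinuousOn F Sp) (hG : ContinuousOn G Sp) :
    Mc (fun z => F z - G z) = Mc F - Mc G := by
  unfold Mc
  rw [← mul_sub, ← intervalIntegral.integral_sub (Mc_integrable hF _ _) (Mc_integrable hG _ _)]

theorem Mc_const_mul (c : ℂ) (F : ℂ → ℂ) : Mc (fun z => c * F z) = c * Mc F := by
  unfold Mc
  rw [intervalIntegral.integral_const_mul]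
  ring

theorem Mc_one : Mc (fun _ => 1) = 1 := by
  unfold Mc
  rw [intervalIntegral.integral_const]
  have hpi : (Real.pi : ℂ) ≠ 0 := by exact_mod_cast Real.pi_ne_zero
  rw [Complex.real_smul]
  push_cast
  field_simp
  ring

theorem norm_Mc_le {F : ℂ → ℂ} {c : ℝ} (h : ∀ z ∈ Sp, ‖F z‖ ≤ c) : ‖Mc F‖ ≤ c := by
  unfold Mc
  rw [norm_mul]
  have h1 : ‖∫ θ in (-Real.pi)..Real.pi, F (Complex.exp (θ * Complex.I))‖ ≤
      c * |Real.pi - -Real.pi| :=
    intervalIntegral.norm_integral_le_of_norm_le_const fun θ _ => h _ (exp_mem_Sp θ)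
  have h2 : ‖(1 / (2 * Real.pi) : ℂ)‖ = 1 / (2 * Real.pi) := by
    have : (1 / (2 * Real.pi) : ℂ) = ((1 / (2 * Real.pi) : ℝ) : ℂ) := by push_cast; ring
    rw [this, Complex.norm_real, Real.norm_of_nonneg (by positivity)]
  have hpi := Real.pi_pos
  rw [h2]
  rw [abs_of_pos (by linarith)] at h1
  calc 1 / (2 * Real.pi) * ‖∫ θ in (-Real.pi)..Real.pi, F (Complex.exp (θ * Complex.I))‖
      ≤ 1 / (2 * Real.pi) * (c * (Real.pi - -Real.pi)) := by gcongr
    _ = c := by
      field_simp
      ring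

theorem Mc_exp {n : ℤ} (hn : n ≠ 0) :
    ∫ θ in (-Real.pi)..Real.pi, Complex.exp ((n * Complex.I) * (θ : ℂ)) = 0 := by
  have hc : (n : ℂ) * Complex.I ≠ 0 := mul_ne_zero (by exact_mod_cast hn) Complex.I_ne_zero
  rw [integral_exp_mul_complex hc]
  have e : Complex.exp ((n : ℂ) * Complex.I * (Real.pi : ℂ)) =
      Complex.exp ((n : ℂ) * Complex.I * ((-Real.pi : ℝ) : ℂ)) := by
    have : (n : ℂ) * Complex.I * (Real.pi : ℂ) =
        (n : ℂ) * Complex.I * ((-Real.pi : ℝ) : ℂ) + n * (2 * Real.pi * Complex.I) := by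
      push_cast
      ring
    rw [this, Complex.exp_add, Complex.exp_int_mul_two_pi_mul_I, mul_one]
  rw [e, sub_self, zero_div]

theorem Mc_pow (n : ℕ) : Mc (fun z => z ^ n) = if n = 0 then 1 else 0 := by
  split_ifs with h
  · subst h
    simpa using Mc_one
  · unfold Mc
    have e : ∀ θ : ℝ, Complex.exp (θ * Complex.I) ^ n =
        Complex.exp ((((n : ℕ) : ℤ) : ℂ) * Complex.I * θ) := by
      intro θ
      rw [← Complex.exp_nat_mul]
      push_cast
      ring_nf
    simp only [e]
    rw [Mc_exp (by exact_mod_cast h), mul_zero]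

theorem Mc_star_pow (n : ℕ) : Mc (fun z => (star z) ^ n) = if n = 0 then 1 else 0 := by
  split_ifs with h
  · subst h
    simpa using Mc_one
  · unfold Mc
    have e : ∀ θ : ℝ, (star (Complex.exp (θ * Complex.I))) ^ n =
        Complex.exp (((-(n : ℤ) : ℤ) : ℂ) * Complex.I * θ) := by
      intro θ
      rw [Complex.star_def, ← Complex.exp_conj, ← Complex.exp_nat_mul]
      simp only [map_mul, Complex.conj_ofReal, Complex.conj_I]
      push_cast
      ring_nf
    simp only [e]
    rw [Mc_exp (by simpa using h), mul_zero]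

/-! ### density -/

/-- approximation of continuous functions on the circle by Laurent polynomials, in the form of an
induction principle. -/
theorem circle_induction {p : (ℂ → ℂ) → Prop} (h1 : ∀ n : ℕ, p (fun z => z ^ n))
    (h2 : ∀ n : ℕ, p (fun z => (star z) ^ n))
    (hadd : ∀ F G : ℂ → ℂ, ContinuousOn F Sp → ContinuousOn G Sp → p F → p G →
      p (fun z => F z + G z))
    (hsmul : ∀ (c : ℂ) (F : ℂ → ℂ), ContinuousOn F Sp → p F → p (fun z => c * F z))
    (hlim : ∀ F : ℂ → ℂ, ContinuousOn F Sp → (∀ ε : ℝ, 0 < ε → ∃ G : ℂ → ℂ, ContinuousOn G Sp ∧ p G ∧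
      ∀ z ∈ Sp, ‖G z - F z‖ ≤ ε) → p F) {F : ℂ → ℂ} (hF : ContinuousOn F Sp) : p F := by
  refine hlim F hF fun ε hε => ?_
  have : Fact (0 < 2 * Real.pi) := ⟨by positivity⟩
  -- the function on the additive circle
  let f : C(AddCircle (2 * Real.pi), ℂ) :=
    ⟨fun x => F (AddCircle.toCircle x : ℂ), hF.comp_continuous
      (by
        have := AddCircle.continuous_toCircle (T := 2 * Real.pi)
        exact continuous_subtype_val.comp this)
      (fun x => mem_sphere_zero_iff_norm.2 (Circle.norm_coe _))⟩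
  have hf : f ∈ (Submodule.span ℂ (Set.range (@fourier (2 * Real.pi)))).topologicalClosure := by
    rw [span_fourier_closure_eq_top]
    trivial
  rw [← SetLike.mem_coe, Submodule.topologicalClosure_coe] at hf
  obtain ⟨g, hg, hfg⟩ := Metric.mem_closure_iff.1 hf ε hε
  have hspan : ∀ g ∈ Submodule.span ℂ (Set.range (@fourier (2 * Real.pi))),
      ∃ G : ℂ → ℂ, ContinuousOn G Sp ∧ p G ∧ ∀ x, g x = G (AddCircle.toCircle x : ℂ) := by
    intro g hg
    induction hg using Submodule.span_induction with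
    | mem g hg =>
      obtain ⟨n, rfl⟩ := hg
      rcases Int.eq_nat_or_neg n with ⟨m, rfl | rfl⟩
      · refine ⟨fun z => z ^ m, by fun_prop, h1 m, fun x => ?_⟩
        rw [fourier_apply]
        simp [AddCircle.toCircle_nsmul]
      · refine ⟨fun z => (star z) ^ m, by fun_prop, h2 m, fun x => ?_⟩
        rw [fourier_apply]
        simp only [neg_smul, AddCircle.toCircle_neg, natCast_zsmul, AddCircle.toCircle_nsmul]
        rw [Circle.coe_inv_eq_conj, Circle.coe_pow, map_pow]
        rfl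
    | zero =>
      refine ⟨fun z => 0 * z ^ 0, by fun_prop, hsmul 0 _ (by fun_prop) (h1 0), fun x => by simp⟩
    | add g g' _ _ hg hg' =>
      obtain ⟨G, a1, a2, a3⟩ := hg
      obtain ⟨G', b1, b2, b3⟩ := hg'
      exact ⟨fun z => G z + G' z, a1.add b1, hadd G G' a1 b1 a2 b2, fun x => by
        rw [ContinuousMap.add_apply, a3, b3]⟩
    | smul c g _ hg =>
      obtain ⟨G, a1, a2, a3⟩ := hg
      exact ⟨fun z => c * G z, continuousOn_const.mul a1, hsmul c G a1 a2, fun x => by
        rw [ContinuousMap.smul_apply, a3, smul_eq_mul]⟩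
  obtain ⟨G, hG1, hG2, hG3⟩ := hspan g hg
  refine ⟨G, hG1, hG2, fun z hz => ?_⟩
  -- every point of the circle is in the image
  obtain ⟨x, hx⟩ : ∃ x : AddCircle (2 * Real.pi), (AddCircle.toCircle x : ℂ) = z := by
    have hz' : ‖z‖ = 1 := by simpa using hz
    refine ⟨((Complex.arg z : ℝ) : AddCircle (2 * Real.pi)), ?_⟩
    rw [AddCircle.toCircle_apply_mk]
    have : 2 * Real.pi / (2 * Real.pi) * Complex.arg z = Complex.arg z := by
      rw [div_self (by positivity), one_mul]
    rw [this, Circle.coe_exp]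
    have := Complex.norm_mul_exp_arg_mul_I z
    rwa [hz', Complex.ofReal_one, one_mul] at this
  rw [← hx, ← hG3]
  have h3 : ‖(f - g) x‖ ≤ ‖f - g‖ := ContinuousMap.norm_coe_le_norm _ _
  rw [dist_eq_norm] at hfg
  have h4 : (f - g) x = F (AddCircle.toCircle x : ℂ) - g x := rfl
  rw [norm_sub_rev, ← h4]
  exact (h3.trans hfg.le)

theorem spectrum_subset_Sp {v : A} (hv : v ∈ unitary A) : spectrum ℂ v ⊆ Sp :=
  Unitary.spectrum_subset_circle ⟨v, hv⟩

theorem isStarNormal_of_unitary {v : A} (hv : v ∈ unitary A) : IsStarNormal v := by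
  refine ⟨?_⟩
  show star v * v = v * star v
  rw [Unitary.star_mul_self_of_mem hv, Unitary.mul_star_self_of_mem hv]

/-- **the circle formula** -/
theorem tau_cfc {v : A} (hv : v ∈ unitary A) (h0 : ∀ n : ℕ, T.τ (v ^ (n + 1)) = 0) {F : ℂ → ℂ}
    (hF : ContinuousOn F Sp) : T.τ (cfc F v) = Mc F := by
  have hn := isStarNormal_of_unitary hv
  have hs := spectrum_subset_Sp hv
  refine circle_induction (p := fun F => T.τ (cfc F v) = Mc F) ?_ ?_ ?_ ?_ ?_ hF
  · intro n
    rw [cfc_pow_id v n, Mc_pow]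
    split_ifs with h
    · rw [h, pow_zero, T.one]
    · obtain ⟨m, rfl⟩ := Nat.exists_eq_succ_of_ne_zero h
      exact h0 m
  · intro n
    have e : cfc (fun z : ℂ => (star z) ^ n) v = star (v ^ n) := by
      rw [← cfc_pow_id (R := ℂ) v n, ← cfc_star]
      simp only [star_pow]
    rw [e, Mc_star_pow, T.star']
    split_ifs with h
    · rw [h, pow_zero, T.one, map_one]
    · obtain ⟨m, rfl⟩ := Nat.exists_eq_succ_of_ne_zero h
      rw [h0 m, map_zero]
  · intro F G hF hG h1 h2
    rw [cfc_add v F G (hF.mono hs) (hG.mono hs), map_add, h1, h2, Mc_add hF hG]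
  · intro c F hF h1
    rw [cfc_const_mul c F v (hF.mono hs), map_smul, h1, Mc_const_mul, smul_eq_mul]
  · intro F hF h
    refine eq_of_forall_dist_le fun ε hε => ?_
    obtain ⟨G, hG1, hG2, hG3⟩ := h (ε / 2) (by positivity)
    rw [dist_eq_norm]
    have e : T.τ (cfc F v) - Mc F = T.τ (cfc (fun z => F z - G z) v) +
        Mc (fun z => G z - F z) := by
      rw [cfc_sub (a := v) F G (hF.mono hs) (hG1.mono hs), map_sub, Mc_sub hG1 hF, hG2]
      ring
    rw [e]
    refine (norm_add_le _ _).trans ?_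
    have h1 : ‖T.τ (cfc (fun z => F z - G z) v)‖ ≤ ε / 2 := by
      refine (T.norm_tau_le _).trans (norm_cfc_le (by positivity) fun z hz => ?_)
      rw [norm_sub_rev]
      exact hG3 z (hs hz)
    have h2 : ‖Mc (fun z => G z - F z)‖ ≤ ε / 2 := norm_Mc_le hG3
    linarith

/-- 2-norm of a function of a Haar unitary -/
theorem nrm2_cfc_sq {v : A} (hv : v ∈ unitary A) (h0 : ∀ n : ℕ, T.τ (v ^ (n + 1)) = 0)
    {F : ℂ → ℂ} (hF : ContinuousOn F Sp) :
    T.nrm2 (cfc F v) ^ 2 = (Mc fun z => star (F z) * F z).re := by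
  have hs := spectrum_subset_Sp hv
  have hF' : ContinuousOn (fun z => star (F z)) Sp := hF.star
  rw [T.nrm2_sq, ← cfc_star, ← cfc_mul _ _ v (hF'.mono hs) (hF.mono hs)]
  exact congrArg Complex.re (tau_cfc hv h0 (F := fun z => star (F z) * F z) (hF'.mul hF))

end Conv

end Crest.Agent.R134
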