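import Crest.Agent.R134.Data
import Crest.Agent.R95.Cayley

/-!
# R134 (helper887): the limit argument

`main_of_absorb`: if the absorption lemma holds (`habs`, the conclusion of `absorb` for all `ε`) then
there is `x'` with `SD T Q x'`, commuting with `R` and `W T (R ∪ Q ∪ {x'}) = ⊤`.

Proof: nested balls.  State `(α_n, ρ_n)`; every `x'` (norm `≤ ‖x‖`) in the closed `ρ_n`-ball around
`α_n x` has all generators `1/n`-close to `W T (F ∪ {x'})`.
-/

set_option autoImplicit false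

universe u

namespace Crest.Agent.R134.Limit

open Crest.Agent.R95 Crest.Agent.R134 Filter Topology

variable {A : Type u} [CStarAlgebra A] (T : TracialState A)

/-! ## stably approximable elements -/

/-- elements approximable, with a uniform norm bound, in `V i` as soon as `P δ i` holds for a
small `δ`. -/
noncomputable def LimAlg {κ : Type*} (P : ℝ → κ → Prop)
    (hP : ∀ δ δ' : ℝ, ∀ i, δ ≤ δ' → P δ i → P δ' i) (V : κ → StarSubalgebra ℂ A) :
    StarSubalgebra ℂ A where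
  carrier := {x | ∃ B : ℝ, 0 ≤ B ∧ ∀ η : ℝ, 0 < η → ∃ δ : ℝ, 0 < δ ∧ ∀ i, P δ i →
    ∃ y ∈ V i, ‖y‖ ≤ B ∧ T.nrm2 (x - y) < η}
  mul_mem' := by
    rintro x x' ⟨B, hB, hx⟩ ⟨B', hB', hx'⟩
    refine ⟨B * B', by positivity, fun η hη => ?_⟩
    obtain ⟨δ, hδ, h⟩ := hx (η / (2 * (B' + 1))) (by positivity)
    obtain ⟨δ', hδ', h'⟩ := hx' (η / (2 * (‖x‖ + 1))) (by positivity)
    refine ⟨min δ δ', lt_min hδ hδ', fun i hi => ?_⟩
    obtain ⟨y, hy, hyB, hxy⟩ := h i (hP _ _ i (min_le_left _ _) hi)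
    obtain ⟨y', hy', hyB', hxy'⟩ := h' i (hP _ _ i (min_le_right _ _) hi)
    refine ⟨y * y', mul_mem hy hy', (norm_mul_le _ _).trans (by gcongr), ?_⟩
    have e : x * x' - y * y' = x * (x' - y') + (x - y) * y' := by noncomm_ring
    rw [e]
    refine (T.nrm2_add_le _ _).trans_lt ?_
    have h1 : T.nrm2 (x * (x' - y')) ≤ ‖x‖ * (η / (2 * (‖x‖ + 1))) :=
      (T.nrm2_mul_le_left _ _).trans (by gcongr)
    have h2 : T.nrm2 ((x - y) * y') ≤ (η / (2 * (B' + 1))) * B' :=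
      (T.nrm2_mul_le_right _ _).trans (by gcongr)
    have h3 : ‖x‖ * (η / (2 * (‖x‖ + 1))) < η / 2 := by
      rw [mul_div_assoc', div_lt_div_iff₀ (by positivity) (by norm_num)]
      nlinarith [norm_nonneg x]
    have h4 : (η / (2 * (B' + 1))) * B' < η / 2 := by
      rw [div_mul_eq_mul_div, div_lt_div_iff₀ (by positivity) (by norm_num)]
      nlinarith
    linarith
  one_mem' := ⟨‖(1 : A)‖, norm_nonneg _, fun η hη => ⟨1, one_pos, fun i _ =>
    ⟨1, one_mem _, le_rfl, by rw [sub_self, T.nrm2_zero]; exact hη⟩⟩⟩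
  zero_mem' := ⟨0, le_rfl, fun η hη => ⟨1, one_pos, fun i _ =>
    ⟨0, zero_mem _, by simp, by rw [sub_self, T.nrm2_zero]; exact hη⟩⟩⟩
  add_mem' := by
    rintro x x' ⟨B, hB, hx⟩ ⟨B', hB', hx'⟩
    refine ⟨B + B', by positivity, fun η hη => ?_⟩
    obtain ⟨δ, hδ, h⟩ := hx (η / 2) (by positivity)
    obtain ⟨δ', hδ', h'⟩ := hx' (η / 2) (by positivity)
    refine ⟨min δ δ', lt_min hδ hδ', fun i hi => ?_⟩
    obtain ⟨y, hy, hyB, hxy⟩ := h i (hP _ _ i (min_le_left _ _) hi)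
    obtain ⟨y', hy', hyB', hxy'⟩ := h' i (hP _ _ i (min_le_right _ _) hi)
    refine ⟨y + y', add_mem hy hy', (norm_add_le _ _).trans (by gcongr), ?_⟩
    have e : x + x' - (y + y') = (x - y) + (x' - y') := by abel
    rw [e]
    exact (T.nrm2_add_le _ _).trans_lt (by linarith)
  algebraMap_mem' := fun r => ⟨‖algebraMap ℂ A r‖, norm_nonneg _, fun η hη => ⟨1, one_pos,
    fun i _ => ⟨algebraMap ℂ A r, StarSubalgebra.algebraMap_mem _ r, le_rfl, by
      rw [sub_self, T.nrm2_zero]; exact hη⟩⟩⟩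
  star_mem' := by
    rintro x ⟨B, hB, hx⟩
    refine ⟨B, hB, fun η hη => ?_⟩
    obtain ⟨δ, hδ, h⟩ := hx η hη
    refine ⟨δ, hδ, fun i hi => ?_⟩
    obtain ⟨y, hy, hyB, hxy⟩ := h i hi
    exact ⟨star y, star_mem hy, by rwa [norm_star], by rwa [← star_sub, T.nrm2_star]⟩

variable {T}

theorem exists_approx_of_mem_W {κ : Type*} {P : ℝ → κ → Prop}
    (hP : ∀ δ δ' : ℝ, ∀ i, δ ≤ δ' → P δ i → P δ' i) {V : κ → StarSubalgebra ℂ A} {S : Set A}
    (hS : ∀ s ∈ S, ∃ B : ℝ, 0 ≤ B ∧ ∀ η : ℝ, 0 < η → ∃ δ : ℝ, 0 < δ ∧ ∀ i, P δ i →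
      ∃ y ∈ V i, ‖y‖ ≤ B ∧ T.nrm2 (s - y) < η) {z : A} (hz : z ∈ W T S) (η : ℝ) (hη : 0 < η) :
    ∃ δ : ℝ, 0 < δ ∧ ∀ i, P δ i → ∃ y ∈ V i, T.nrm2 (z - y) < η := by
  obtain ⟨a, ha, hza⟩ := hz (η / 2) (by positivity)
  have hle : StarAlgebra.adjoin ℂ S ≤ LimAlg T P hP V := StarAlgebra.adjoin_le fun s hs => hS s hs
  obtain ⟨B, hB, h⟩ := hle ha
  obtain ⟨δ, hδ, h'⟩ := h (η / 2) (by positivity)
  refine ⟨δ, hδ, fun i hi => ?_⟩
  obtain ⟨y, hy, -, hay⟩ := h' i hi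
  exact ⟨y, hy, (T.nrm2_triangle z a y).trans_lt (by linarith)⟩

/-- an element of `W T (F ∪ {x₀})` stays close to `W T (F ∪ {x'})` for `x'` near `x₀`. -/
theorem usc {F : Set A} {x₀ : A} (C : ℝ) (hC : 0 ≤ C) {z : A}
    (hz : z ∈ W T (F ∪ {x₀})) (η : ℝ) (hη : 0 < η) :
    ∃ δ : ℝ, 0 < δ ∧ ∀ x' : A, ‖x'‖ ≤ C → T.nrm2 (x' - x₀) < δ →
      ∃ y ∈ W T (F ∪ {x'}), T.nrm2 (z - y) < η := by
  have key : ∃ δ : ℝ, 0 < δ ∧ ∀ x' : A, (‖x'‖ ≤ C ∧ T.nrm2 (x' - x₀) < δ) →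
      ∃ y ∈ W T (F ∪ {x'}), T.nrm2 (z - y) < η := by
    refine exists_approx_of_mem_W (T := T) (κ := A)
      (P := fun δ x' => ‖x'‖ ≤ C ∧ T.nrm2 (x' - x₀) < δ)
      (fun δ δ' i hle hi => ⟨hi.1, hi.2.trans_le hle⟩) (V := fun x' => W T (F ∪ {x'}))
      (S := F ∪ {x₀}) ?_ hz η hη
    rintro s (hs | hs)
    · refine ⟨‖s‖, norm_nonneg _, fun η hη => ⟨1, one_pos, fun i _ => ⟨s, ?_, le_rfl, ?_⟩⟩⟩
      · exact subset_W T _ (Or.inl hs)
      · rw [sub_self, T.nrm2_zero]; exact hη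
    · rw [Set.mem_singleton_iff] at hs
      subst hs
      refine ⟨C, hC, fun η hη => ⟨η, hη, fun x' hx' => ⟨x', ?_, hx'.1, ?_⟩⟩⟩
      · exact subset_W T _ (Or.inr rfl)
      · rw [T.nrm2_sub_comm]; exact hx'.2
  obtain ⟨δ, hδ, h⟩ := key
  exact ⟨δ, hδ, fun x' h1 h2 => h x' ⟨h1, h2⟩⟩

/-- the absorption property -/
def Abs (T : TracialState A) (F : Set A) (x : A) {m : ℕ} (y : Fin m → A) (ε : ℝ)
    (α : A ≃⋆ₐ[ℂ] A) : Prop :=
  Pres T α ∧ Fixes α F ∧ T.nrm2 (α x - x) < ε ∧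
    ∀ j, ∃ z ∈ W T (F ∪ {α x}), IsSelfAdjoint z ∧ T.nrm2 (z - y j) < ε

theorem norm_aut (α : A ≃⋆ₐ[ℂ] A) (a : A) : ‖α a‖ = ‖a‖ := by
  refine le_antisymm ?_ ?_
  · exact NonUnitalStarAlgHom.norm_apply_le α a
  · have := NonUnitalStarAlgHom.norm_apply_le α.symm (α a)
    rwa [StarAlgEquiv.symm_apply_apply] at this

/-- every element is approximable in `W T (F ∪ {α x})` if `α` absorbs well. -/
theorem step_approx {F : Set A} {x : A} {m : ℕ} {y : Fin m → A}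
    (hy : ∀ j, IsSelfAdjoint (y j)) (gen : ∀ z, z ∈ W T (F ∪ {x} ∪ Set.range y)) (z : A) (η : ℝ)
    (hη : 0 < η) :
    ∃ δ : ℝ, 0 < δ ∧ ∀ α : A ≃⋆ₐ[ℂ] A, Abs T F x y δ α →
      ∃ a ∈ W T (F ∪ {α x}), T.nrm2 (z - a) < η := by
  have hgen : z ∈ W T (F ∪ {x} ∪ Set.range fun j => cay (y j)) := by
    refine W_le T ?_ (gen z)
    rintro s (hs | ⟨j, rfl⟩)
    · exact subset_W T _ (Or.inl hs)
    · exact mem_of_cay_mem (hy j) _ (isClosed_W T _) (subset_W T _ (Or.inr ⟨j, rfl⟩))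
  refine exists_approx_of_mem_W (T := T) (κ := A ≃⋆ₐ[ℂ] A)
    (P := fun δ α => Abs T F x y δ α) ?_ (V := fun α => W T (F ∪ {α x})) ?_ hgen η hη
  · rintro δ δ' α hle ⟨h1, h2, h3, h4⟩
    refine ⟨h1, h2, h3.trans_le hle, fun j => ?_⟩
    obtain ⟨z, hz, hz', hz''⟩ := h4 j
    exact ⟨z, hz, hz', hz''.trans_le hle⟩
  · rintro s ((hs | hs) | ⟨j, rfl⟩)
    · refine ⟨‖s‖, norm_nonneg _, fun η hη => ⟨1, one_pos, fun i _ => ⟨s, ?_, le_rfl, ?_⟩⟩⟩
      · exact subset_W T _ (Or.inl hs)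
      · rw [sub_self, T.nrm2_zero]; exact hη
    · rw [Set.mem_singleton_iff] at hs
      subst hs
      refine ⟨‖s‖, norm_nonneg _, fun η hη => ⟨η, hη, fun α hα => ⟨α s, ?_, ?_, ?_⟩⟩⟩
      · exact subset_W T _ (Or.inr rfl)
      · exact (norm_aut α s).le
      · rw [T.nrm2_sub_comm]; exact hα.2.2.1
    · refine ⟨1, zero_le_one, fun η hη => ⟨η / 2, by positivity, fun α hα => ?_⟩⟩
      obtain ⟨z, hz, hzs, hzn⟩ := hα.2.2.2 j
      refine ⟨cay z, cay_mem hzs _ (isClosed_W T _) hz, norm_cay_le hzs, ?_⟩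
      have := nrm2_cay_sub_le T (hy j) hzs
      rw [T.nrm2_sub_comm (y j) z] at this
      linarith

/-! ## 2-norm convergence of bounded sequences -/

/-- bounded 2-norm convergence -/
def Cv (T : TracialState A) (a : ℕ → A) (b : A) : Prop :=
  (∃ B : ℝ, ∀ n, ‖a n‖ ≤ B) ∧ Tendsto (fun n => T.nrm2 (a n - b)) atTop (𝓝 0)

theorem Cv.const (b : A) : Cv T (fun _ => b) b :=
  ⟨⟨‖b‖, fun _ => le_rfl⟩, by simp [T.nrm2_zero]⟩

theorem Cv.add {a a' : ℕ → A} {b b' : A} (h : Cv T a b) (h' : Cv T a' b') :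
    Cv T (fun n => a n + a' n) (b + b') := by
  obtain ⟨⟨B, hB⟩, h1⟩ := h
  obtain ⟨⟨B', hB'⟩, h1'⟩ := h'
  refine ⟨⟨B + B', fun n => (norm_add_le _ _).trans (add_le_add (hB n) (hB' n))⟩, ?_⟩
  have h2 := h1.add h1'
  rw [add_zero] at h2
  refine squeeze_zero (fun _ => T.nrm2_nonneg _) (fun n => ?_) h2
  have e : a n + a' n - (b + b') = (a n - b) + (a' n - b') := by abel
  rw [e]
  exact T.nrm2_add_le _ _

theorem Cv.smul {a : ℕ → A} {b : A} (c : ℂ) (h : Cv T a b) : Cv T (fun n => c • a n) (c • b) := by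
  obtain ⟨⟨B, hB⟩, h1⟩ := h
  refine ⟨⟨‖c‖ * B, fun n => ?_⟩, ?_⟩
  · rw [norm_smul]
    gcongr
    exact hB n
  · have h2 := h1.const_mul ‖c‖
    rw [mul_zero] at h2
    refine h2.congr fun n => ?_
    rw [← smul_sub, T.nrm2_smul]

theorem Cv.mul {a a' : ℕ → A} {b b' : A} (h : Cv T a b) (h' : Cv T a' b') :
    Cv T (fun n => a n * a' n) (b * b') := by
  obtain ⟨⟨B, hB⟩, h1⟩ := h
  obtain ⟨⟨B', hB'⟩, h1'⟩ := h'
  have hB0 : 0 ≤ B := (norm_nonneg _).trans (hB 0)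
  refine ⟨⟨B * B', fun n => (norm_mul_le _ _).trans ?_⟩, ?_⟩
  · exact mul_le_mul (hB n) (hB' n) (norm_nonneg _) hB0
  · have h2 : Tendsto (fun n => B * T.nrm2 (a' n - b') + T.nrm2 (a n - b) * ‖b'‖) atTop (𝓝 0) := by
      have := (h1'.const_mul B).add (h1.mul_const ‖b'‖)
      simpa using this
    refine squeeze_zero (fun _ => T.nrm2_nonneg _) (fun n => ?_) h2
    have e : a n * a' n - b * b' = a n * (a' n - b') + (a n - b) * b' := by noncomm_ring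
    rw [e]
    refine (T.nrm2_add_le _ _).trans (add_le_add ?_ (T.nrm2_mul_le_right _ _))
    refine (T.nrm2_mul_le_left _ _).trans ?_
    exact mul_le_mul_of_nonneg_right (hB n) (T.nrm2_nonneg _)

theorem Cv.star {a : ℕ → A} {b : A} (h : Cv T a b) : Cv T (fun n => star (a n)) (star b) := by
  obtain ⟨⟨B, hB⟩, h1⟩ := h
  refine ⟨⟨B, fun n => by rw [norm_star]; exact hB n⟩, ?_⟩
  refine h1.congr fun n => ?_
  rw [← star_sub, T.nrm2_star]

theorem norm_tau_le_nrm2 (a : A) : ‖T.τ a‖ ≤ T.nrm2 a := by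
  have := T.norm_tau_mul_le 1 a
  rwa [one_mul, T.nrm2_one, one_mul] at this

theorem Cv.tau {a : ℕ → A} {b : A} (h : Cv T a b) :
    Tendsto (fun n => T.τ (a n)) atTop (𝓝 (T.τ b)) := by
  rw [tendsto_iff_norm_sub_tendsto_zero]
  refine squeeze_zero (fun _ => norm_nonneg _) (fun n => ?_) h.2
  rw [← map_sub]
  exact norm_tau_le_nrm2 _

/-- uniqueness of limits -/
theorem Cv.unique (hT : ∀ a : A, T.nrm2 a = 0 → a = 0) {a : ℕ → A} {b b' : A} (h : Cv T a b)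
    (h' : Cv T a b') : b = b' := by
  rw [← sub_eq_zero]
  apply hT
  refine le_antisymm ?_ (T.nrm2_nonneg _)
  have h2 := h.2.add h'.2
  rw [add_zero] at h2
  refine ge_of_tendsto' h2 fun n => ?_
  have := T.nrm2_triangle b (a n) b'
  rwa [T.nrm2_sub_comm b (a n)] at this

/-- polynomials in `x'` are limits of polynomials in `x n` -/
theorem der_limit {Q : Set A} {x : ℕ → A} {x' : A} (hx : Cv T x x') {w : A} {D : A → A → ℂ}
    (h : Der T Q x' w D) : ∃ (wn : ℕ → A) (Dn : ℕ → A → A → ℂ), (∀ n, Der T Q (x n) (wn n) (Dn n)) ∧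
      Cv T wn w ∧ ∀ (p q : ℕ → A) (p' q' : A), Cv T p p' → Cv T q q' →
        Tendsto (fun n => Dn n (p n) (q n)) atTop (𝓝 (D p' q')) := by
  induction h with
  | one => exact ⟨fun _ => 1, fun _ _ _ => 0, fun _ => Der.one, Cv.const 1,
      fun _ _ _ _ _ _ => tendsto_const_nhds⟩
  | coef ha => exact ⟨fun _ => _, fun _ _ _ => 0, fun _ => Der.coef ha, Cv.const _,
      fun _ _ _ _ _ _ => tendsto_const_nhds⟩
  | var =>
    refine ⟨x, fun _ p q => T.τ p * T.τ q, fun _ => Der.var, hx, fun p q p' q' hp hq => ?_⟩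
    exact hp.tau.mul hq.tau
  | add _ _ ih ih' =>
    obtain ⟨wn, Dn, h1, h2, h3⟩ := ih
    obtain ⟨wn', Dn', h1', h2', h3'⟩ := ih'
    exact ⟨fun n => wn n + wn' n, fun n p q => Dn n p q + Dn' n p q,
      fun n => Der.add (h1 n) (h1' n), h2.add h2', fun p q p' q' hp hq =>
        (h3 p q p' q' hp hq).add (h3' p q p' q' hp hq)⟩
  | smul c _ ih =>
    obtain ⟨wn, Dn, h1, h2, h3⟩ := ih
    exact ⟨fun n => c • wn n, fun n p q => c * Dn n p q, fun n => Der.smul c (h1 n), h2.smul c,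
      fun p q p' q' hp hq => (h3 p q p' q' hp hq).const_mul c⟩
  | mul _ _ ih ih' =>
    obtain ⟨wn, Dn, h1, h2, h3⟩ := ih
    obtain ⟨wn', Dn', h1', h2', h3'⟩ := ih'
    refine ⟨fun n => wn n * wn' n, fun n p q => Dn' n (p * wn n) q + Dn n p (wn' n * q),
      fun n => Der.mul (h1 n) (h1' n), h2.mul h2', fun p q p' q' hp hq => ?_⟩
    exact (h3' _ _ _ _ (hp.mul h2) hq).add (h3 _ _ _ _ hp (h2'.mul hq))

/-- `SD` passes to bounded 2-norm limits -/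
theorem sd_limit (hT : ∀ a : A, T.nrm2 a = 0 → a = 0) {Q : Set A} {x : ℕ → A} {x' : A}
    (hx : Cv T x x') (h : ∀ n, SD T Q (x n)) : SD T Q x' := by
  refine ⟨?_, fun w D hD => ?_⟩
  · rw [isSelfAdjoint_iff]
    have h1 : Cv T (fun n => Star.star (x n)) x' := by
      have e : (fun n => Star.star (x n)) = x := by
        funext n
        exact (h n).1
      rw [e]; exact hx
    exact hx.star.unique hT h1
  · obtain ⟨wn, Dn, h1, h2, h3⟩ := der_limit hx hD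
    have h4 := (hx.mul h2).tau
    have h5 := h3 (fun _ => 1) (fun _ => 1) 1 1 (Cv.const 1) (Cv.const 1)
    refine tendsto_nhds_unique h4 (h5.congr fun n => ?_)
    exact ((h n).2 _ _ (h1 n)).symm

/-! ## the iteration -/

/-- state of the iteration: an automorphism and a radius -/
structure St (T : TracialState A) (F : Set A) where
  α : A ≃⋆ₐ[ℂ] A
  ρ : ℝ
  pres : Pres T α
  fixes : Fixes α F
  pos : 0 < ρ

/-- the next state relation -/
def Rel {F : Set A} (x : A) {κ : Type} (t : κ → A) (n : ℕ) (p q : St T F) : Prop :=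
  T.nrm2 (q.α x - p.α x) ≤ p.ρ / 2 ∧ q.ρ ≤ p.ρ / 2 ∧
    ∀ x' : A, ‖x'‖ ≤ ‖x‖ → T.nrm2 (x' - q.α x) ≤ q.ρ → ∀ k,
      ∃ a ∈ W T (F ∪ {x'}), T.nrm2 (t k - a) < 1 / ((n : ℝ) + 1)

theorem exists_next {F : Set A} {x : A} {m : ℕ} {y : Fin m → A} (hy : ∀ j, IsSelfAdjoint (y j))
    (gen : ∀ z, z ∈ W T (F ∪ {x} ∪ Set.range y))
    (habs : ∀ ε : ℝ, 0 < ε → ∃ α : A ≃⋆ₐ[ℂ] A, Abs T F x y ε α)
    {κ : Type} [Finite κ] (t : κ → A) (n : ℕ) (p : St T F) : ∃ q : St T F, Rel x t n p q := by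
  set η : ℝ := 1 / ((n : ℝ) + 1) with hη
  have hη0 : 0 < η := by positivity
  have h1 : ∀ k, ∃ δ : ℝ, 0 < δ ∧ ∀ β : A ≃⋆ₐ[ℂ] A, Abs T F x y δ β →
      ∃ a ∈ W T (F ∪ {β x}), T.nrm2 (p.α.symm (t k) - a) < η / 2 := fun k =>
    step_approx hy gen _ _ (by positivity)
  choose δ hδ h1 using h1
  obtain ⟨ε, hε, hε0⟩ : ∃ ε : ℝ, (∀ k, ε ≤ δ k) ∧ 0 < ε ∧ ε ≤ p.ρ / 2 := by
    have h2 : ∀ᶠ ε in 𝓝[>] (0 : ℝ), ∀ k, ε ≤ δ k := by
      rw [Filter.eventually_all]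
      intro k
      filter_upwards [Ioc_mem_nhdsGT (hδ k)] with ε hε using hε.2
    have h3 : ∀ᶠ ε in 𝓝[>] (0 : ℝ), 0 < ε ∧ ε ≤ p.ρ / 2 := by
      filter_upwards [Ioc_mem_nhdsGT (half_pos p.pos)] with ε hε using hε
    exact (h2.and h3).exists
  obtain ⟨β, hβ⟩ := habs ε hε0.1
  have hmono : ∀ k, Abs T F x y (δ k) β := by
    intro k
    obtain ⟨a1, a2, a3, a4⟩ := hβ
    refine ⟨a1, a2, a3.trans_le (hε k), fun j => ?_⟩
    obtain ⟨z, hz, hz', hz''⟩ := a4 j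
    exact ⟨z, hz, hz', hz''.trans_le (hε k)⟩
  -- the new automorphism `a ↦ α (β a)`
  set γ : A ≃⋆ₐ[ℂ] A := β.trans p.α with hγ
  have hγa : ∀ a, γ a = p.α (β a) := fun a => rfl
  have hγp : Pres T γ := hβ.1.trans p.pres
  have hγf : Fixes γ F := by
    intro a ha
    rw [hγa, hβ.2.1 a ha, p.fixes a ha]
  have h4 : ∀ k, ∃ a ∈ W T (F ∪ {γ x}), T.nrm2 (t k - a) < η / 2 := by
    intro k
    obtain ⟨a, ha, hka⟩ := h1 k β (hmono k)
    refine ⟨p.α a, ?_, ?_⟩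
    · refine p.pres.map_mem_W ?_ ha
      rintro s (hs | hs)
      · rw [p.fixes s hs]; exact subset_W T _ (Or.inl hs)
      · rw [Set.mem_singleton_iff] at hs
        rw [hs]; exact subset_W T _ (Or.inr rfl)
    · have : t k = p.α (p.α.symm (t k)) := (StarAlgEquiv.apply_symm_apply _ _).symm
      rw [this, ← map_sub, p.pres.nrm2]
      exact hka
  choose a ha hka using h4
  have h5 : ∀ k, ∃ δ' : ℝ, 0 < δ' ∧ ∀ x' : A, ‖x'‖ ≤ ‖x‖ → T.nrm2 (x' - γ x) < δ' →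
      ∃ b ∈ W T (F ∪ {x'}), T.nrm2 (a k - b) < η / 2 := fun k =>
    usc ‖x‖ (norm_nonneg _) (ha k) _ (by positivity)
  choose δ' hδ' h5 using h5
  obtain ⟨ρ, hρ, hρ0⟩ : ∃ ρ : ℝ, (∀ k, ρ < δ' k) ∧ 0 < ρ ∧ ρ ≤ p.ρ / 2 := by
    have h2 : ∀ᶠ ε in 𝓝[>] (0 : ℝ), ∀ k, ε < δ' k := by
      rw [Filter.eventually_all]
      intro k
      filter_upwards [Ioo_mem_nhdsGT (hδ' k)] with ε hε using hε.2
    have h3 : ∀ᶠ ε in 𝓝[>] (0 : ℝ), 0 < ε ∧ ε ≤ p.ρ / 2 := by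
      filter_upwards [Ioc_mem_nhdsGT (half_pos p.pos)] with ε hε using hε
    exact (h2.and h3).exists
  refine ⟨⟨γ, ρ, hγp, hγf, hρ0.1⟩, ?_, hρ0.2, ?_⟩
  · change T.nrm2 (γ x - p.α x) ≤ p.ρ / 2
    rw [hγa, ← map_sub, p.pres.nrm2]
    exact hβ.2.2.1.le.trans hε0.2
  · intro x' hx' hx'' k
    obtain ⟨b, hb, hab⟩ := h5 k x' hx' (hx''.trans_lt (hρ k))
    exact ⟨b, hb, (T.nrm2_triangle _ (a k) _).trans_lt (by have := hka k; linarith)⟩

/-- **limit theorem**, abstract form -/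
theorem exists_limit (hT : Amb T) {F : Set A} {x : A} {m : ℕ} {y : Fin m → A}
    (hy : ∀ j, IsSelfAdjoint (y j)) (gen : ∀ z, z ∈ W T (F ∪ {x} ∪ Set.range y))
    (habs : ∀ ε : ℝ, 0 < ε → ∃ α : A ≃⋆ₐ[ℂ] A, Abs T F x y ε α) :
    ∃ (x' : A) (α : ℕ → A ≃⋆ₐ[ℂ] A), (∀ n, Pres T (α n)) ∧ (∀ n, Fixes (α n) F) ∧
      Cv T (fun n => α n x) x' ∧ ∀ z, z ∈ W T (F ∪ {x'}) := by
  let t : Option (Fin m) → A := fun o => o.elim x y
  choose next hnext using exists_next hy gen habs t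
  let s0 : St T F := ⟨StarAlgEquiv.refl ℂ A, 1, Pres.refl T, fun _ _ => rfl, one_pos⟩
  let s : ℕ → St T F := fun n => Nat.rec s0 (fun n p => next n p) n
  have hs : ∀ n, Rel x t n (s n) (s (n + 1)) := fun n => hnext n (s n)
  -- Cauchy
  have hcau : ∀ n k, T.nrm2 ((s (n + k)).α x - (s n).α x) ≤ (s n).ρ - (s (n + k)).ρ := by
    intro n k
    induction k with
    | zero => simp [T.nrm2_zero]
    | succ k ih =>
      have h1 := (hs (n + k)).1
      have h2 := (hs (n + k)).2.1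
      have h3 := T.nrm2_triangle ((s (n + k + 1)).α x) ((s (n + k)).α x) ((s n).α x)
      rw [show n + (k + 1) = n + k + 1 by ring]
      linarith
  have hball : ∀ n k, T.nrm2 ((s (n + k)).α x - (s n).α x) ≤ (s n).ρ := fun n k => by
    have := hcau n k
    have := (s (n + k)).pos
    linarith
  have hρ : ∀ n, (s n).ρ ≤ (1 / 2) ^ n := by
    intro n
    induction n with
    | zero => simp [s, s0]
    | succ n ih =>
      have := (hs n).2.1
      rw [pow_succ]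
      linarith
  have hlim : Tendsto (fun n : ℕ => ((1 : ℝ) / 2) ^ n) atTop (𝓝 0) :=
    tendsto_pow_atTop_nhds_zero_of_lt_one (by norm_num) (by norm_num)
  obtain ⟨x', hx', hconv⟩ := hT.complete (fun n => (s n).α x) ‖x‖ (fun n => (norm_aut _ _).le) (by
    intro ε hε
    obtain ⟨K, hK⟩ := (hlim.eventually (gt_mem_nhds (half_pos hε))).exists_forall_of_atTop
    refine ⟨K, fun k hk l hl => ?_⟩
    have h1 := hball K (k - K)
    have h2 := hball K (l - K)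
    rw [Nat.add_sub_cancel' hk] at h1
    rw [Nat.add_sub_cancel' hl] at h2
    have h3 := T.nrm2_triangle ((s k).α x) ((s K).α x) ((s l).α x)
    rw [T.nrm2_sub_comm ((s K).α x) ((s l).α x)] at h3
    have h4 := hρ K
    have h5 := hK K le_rfl
    linarith)
  have hcv : Cv T (fun n => (s n).α x) x' := ⟨⟨‖x‖, fun n => (norm_aut _ _).le⟩, hconv⟩
  refine ⟨x', fun n => (s n).α, fun n => (s n).pres, fun n => (s n).fixes, hcv, ?_⟩
  -- `x'` is in all balls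
  have hx'ball : ∀ n, T.nrm2 (x' - (s n).α x) ≤ (s n).ρ := by
    intro n
    refine le_of_forall_pos_le_add fun ε hε => ?_
    have h1 : ∀ᶠ k in atTop, T.nrm2 ((s k).α x - x') < ε := hconv.eventually (gt_mem_nhds hε)
    obtain ⟨k, hk, hnk⟩ := (h1.and (eventually_ge_atTop n)).exists
    have h2 := hball n (k - n)
    rw [Nat.add_sub_cancel' hnk] at h2
    have h3 := T.nrm2_triangle x' ((s k).α x) ((s n).α x)
    rw [T.nrm2_sub_comm x' ((s k).α x)] at h3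
    linarith
  have htk : ∀ k, t k ∈ W T (F ∪ {x'}) := by
    intro k
    refine mem_W_of_approx T fun ε hε => ?_
    obtain ⟨n, hn⟩ := exists_nat_one_div_lt hε
    obtain ⟨a, ha, hka⟩ := (hs n).2.2 x' hx' (hx'ball (n + 1)) k
    exact ⟨a, ha, hka.trans hn⟩
  intro z
  refine W_le T ?_ (gen z)
  rintro r ((hr | hr) | ⟨j, rfl⟩)
  · exact subset_W T _ (Or.inl hr)
  · rw [Set.mem_singleton_iff] at hr
    rw [hr]
    exact htk none
  · exact htk (some j)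

/-- the main theorem, from the absorption lemma, with the approximating automorphisms -/
theorem main_of_absorb' (hT : Amb T) {m : ℕ} {R : StarSubalgebra ℂ A} {Q : Set A} {u v : ℕ → A}
    {x : A} {y : Fin m → A} (h : Data T R Q u v x y)
    (habs : ∀ ε : ℝ, 0 < ε → ∃ α : A ≃⋆ₐ[ℂ] A, Pres T α ∧ Fixes α ((R : Set A) ∪ Q) ∧
      T.nrm2 (α x - x) < ε ∧
      ∀ j, ∃ z ∈ W T ((R : Set A) ∪ Q ∪ {α x}), IsSelfAdjoint z ∧ T.nrm2 (z - y j) < ε) :
    ∃ (x' : A) (α : ℕ → A ≃⋆ₐ[ℂ] A), SD T Q x' ∧ (∀ r ∈ R, r * x' = x' * r) ∧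
      (∀ z, z ∈ W T ((R : Set A) ∪ Q ∪ {x'})) ∧ (∀ n, Pres T (α n)) ∧
      (∀ n, Fixes (α n) ((R : Set A) ∪ Q)) ∧
      Tendsto (fun n => T.nrm2 (α n x - x')) atTop (𝓝 0) := by
  obtain ⟨x', α, hα, hαF, hcv, hgen⟩ := exists_limit hT (F := (R : Set A) ∪ Q) (x := x) (y := y)
    (fun j => (h.sd_y j).1) h.gen habs
  refine ⟨x', α, ?_, ?_, hgen, hα, hαF, hcv.2⟩
  · refine sd_limit hT.faithful hcv fun n => ?_
    exact ((h.sd_x.mono Set.subset_union_left).map_fix (hα n) fun a ha => hαF n a (Or.inr ha))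
  · intro r hr
    have h1 := (Cv.const (T := T) r).mul hcv
    have h2 := hcv.mul (Cv.const (T := T) r)
    have e : (fun n => r * α n x) = fun n => α n x * r := by
      funext n
      have h3 : α n r = r := hαF n r (Or.inl hr)
      calc r * α n x = α n (r * x) := by rw [map_mul, h3]
        _ = α n (x * r) := by rw [h.comm_x r hr]
        _ = α n x * r := by rw [map_mul, h3]
    rw [e] at h1
    exact h1.unique hT.faithful h2

/-- the main theorem, from the absorption lemma -/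
theorem main_of_absorb (hT : Amb T) {m : ℕ} {R : StarSubalgebra ℂ A} {Q : Set A} {u v : ℕ → A}
    {x : A} {y : Fin m → A} (h : Data T R Q u v x y)
    (habs : ∀ ε : ℝ, 0 < ε → ∃ α : A ≃⋆ₐ[ℂ] A, Pres T α ∧ Fixes α ((R : Set A) ∪ Q) ∧
      T.nrm2 (α x - x) < ε ∧
      ∀ j, ∃ z ∈ W T ((R : Set A) ∪ Q ∪ {α x}), IsSelfAdjoint z ∧ T.nrm2 (z - y j) < ε) :
    ∃ x' : A, SD T Q x' ∧ (∀ r ∈ R, r * x' = x' * r) ∧
      ∀ z, z ∈ W T ((R : Set A) ∪ Q ∪ {x'}) := by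
  obtain ⟨x', α, h1, h2, h3, -⟩ := main_of_absorb' hT h habs
  exact ⟨x', h1, h2, h3⟩

/-- `FreeHaar` passes to bounded 2-norm limits (of unitaries) -/
theorem word_limit {u : ℕ → A} {u' : A} (hu : Cv T u u') (L : List (Bool × A)) :
    Cv T (fun n => word (u n) L) (word u' L) := by
  induction L with
  | nil => exact Cv.const 1
  | cons p L ih =>
    obtain ⟨b, a⟩ := p
    have h1 : Cv T (fun n => sg (u n) b) (sg u' b) := by
      cases b with
      | true => simpa [sg] using hu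
      | false => simpa [sg] using hu.star
    exact (h1.mul (Cv.const a)).mul ih

theorem freeHaar_limit (hT : ∀ a : A, T.nrm2 a = 0 → a = 0) {G : Set A} {u : ℕ → A} {u' : A}
    (hu : Tendsto (fun n => T.nrm2 (u n - u')) atTop (𝓝 0)) (h : ∀ n, FreeHaar T G (u n)) :
    FreeHaar T G u' := by
  have hcv : Cv T u u' := ⟨⟨1, fun n => norm_le_one_of_star_mul
    (Unitary.mem_iff.1 (h n).1).1⟩, hu⟩
  refine ⟨?_, fun L hL hG hA => ?_⟩
  · rw [Unitary.mem_iff]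
    constructor
    · have h1 := hcv.star.mul hcv
      have e : (fun n => star (u n) * u n) = fun _ => (1 : A) := by
        funext n; exact (Unitary.mem_iff.1 (h n).1).1
      rw [e] at h1
      exact (Cv.const 1).unique hT h1 |>.symm
    · have h1 := hcv.mul hcv.star
      have e : (fun n => u n * star (u n)) = fun _ => (1 : A) := by
        funext n; exact (Unitary.mem_iff.1 (h n).1).2
      rw [e] at h1
      exact (Cv.const 1).unique hT h1 |>.symm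
  · have h1 := (word_limit hcv L).tau
    refine tendsto_nhds_unique h1 ?_
    have e : (fun n => T.τ (word (u n) L)) = fun _ => (0 : ℂ) := by
      funext n; exact (h n).2 L hL hG hA
    rw [e]
    exact tendsto_const_nhds

end Crest.Agent.R134.Limit
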