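import Crest.Agent.R134.Conv3
import Crest.Agent.R134.Limit

/-!
# R134 Conv4: a Haar unitary is the `uu` of a semicircular element
-/

set_option autoImplicit false
set_option linter.unusedSectionVars false

universe u

namespace Crest.Agent.R134

open Crest.Agent.R95 Filter Topology MeasureTheory
open scoped Interval

namespace Conv

/-! ### the transport map -/

/-- `2 t - sin (2 t) - π` -/
noncomputable def ss (t : ℝ) : ℝ := 2 * t - Real.sin (2 * t) - Real.pi

theorem ss_continuous : Continuous ss := by unfold ss; fun_prop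

theorem ss_strictMono : StrictMono ss := by
  intro a b hab
  unfold ss
  have h1 : Real.sin (2 * b) - Real.sin (2 * a) < 2 * b - 2 * a := by
    have h2 : Real.sin (2 * b) - Real.sin (2 * a) = 2 * Real.sin (b - a) * Real.cos (b + a) := by
      rw [Real.sin_sub_sin]
      congr 3
      · ring
      · ring
    have h3 : |Real.sin (b - a)| < b - a := by
      have h4 : 0 < b - a := by linarith
      rw [abs_lt]
      exact ⟨by have := Real.lt_sin (show -(b - a) < 0 by linarith); rw [Real.sin_neg] at this
                have h5 := Real.sin_lt h4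
                have h6 := Real.neg_one_le_sin (b - a)
                by_contra hcon
                push Not at hcon
                rcases le_or_gt (b - a) Real.pi with h7 | h7
                · have := Real.sin_nonneg_of_nonneg_of_le_pi h4.le h7
                  linarith
                · linarith [Real.pi_gt_three], Real.sin_lt h4⟩
    calc Real.sin (2 * b) - Real.sin (2 * a) = 2 * (Real.sin (b - a) * Real.cos (b + a)) := by
          rw [h2]; ring
      _ ≤ 2 * |Real.sin (b - a) * Real.cos (b + a)| := by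
          have := le_abs_self (Real.sin (b - a) * Real.cos (b + a))
          linarith
      _ ≤ 2 * |Real.sin (b - a)| := by
          rw [abs_mul]
          have h8 := Real.abs_cos_le_one (b + a)
          have h9 := abs_nonneg (Real.sin (b - a))
          nlinarith
      _ < 2 * b - 2 * a := by linarith
  linarith

theorem ss_surjective : Function.Surjective ss := by
  refine ss_continuous.surjective ?_ ?_
  · have h : ∀ t, 2 * t - (1 + Real.pi) ≤ ss t := by
      intro t
      unfold ss
      linarith [Real.sin_le_one (2 * t)]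
    refine tendsto_atTop_mono h ?_
    refine tendsto_atTop_add_const_right _ _ ?_
    exact tendsto_id.const_mul_atTop (by norm_num)
  · have h : ∀ t, ss t ≤ 2 * t + (1 - Real.pi) := by
      intro t
      unfold ss
      linarith [Real.neg_one_le_sin (2 * t)]
    refine tendsto_atBot_mono h ?_
    refine tendsto_atBot_add_const_right _ _ ?_
    exact tendsto_id.const_mul_atBot (by norm_num)

/-- the inverse of `ss` -/
noncomputable def ssIso : ℝ ≃o ℝ := StrictMono.orderIsoOfSurjective ss ss_strictMono ss_surjective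

noncomputable def st (θ : ℝ) : ℝ := ssIso.symm θ

theorem st_continuous : Continuous st := ssIso.symm.continuous

theorem ss_st (θ : ℝ) : ss (st θ) = θ := ssIso.apply_symm_apply θ

theorem st_ss (t : ℝ) : st (ss t) = t := ssIso.symm_apply_apply t

theorem ss_zero : ss 0 = -Real.pi := by simp [ss]

theorem ss_pi : ss Real.pi = Real.pi := by simp [ss]; ring

theorem st_neg_pi : st (-Real.pi) = 0 := by rw [← ss_zero, st_ss]

theorem st_pi : st Real.pi = Real.pi := by
  conv_lhs => rw [← ss_pi]
  rw [st_ss]

theorem st_mem {θ : ℝ} (h : θ ∈ Set.Icc (-Real.pi) Real.pi) : st θ ∈ Set.Icc 0 Real.pi := by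
  constructor
  · rw [← st_neg_pi]
    exact ssIso.symm.monotone h.1
  · rw [← st_pi]
    exact ssIso.symm.monotone h.2

theorem Θ_cos {t : ℝ} (h : t ∈ Set.Icc 0 Real.pi) : Θ (2 * Real.cos t) = ss t := by
  unfold Θ ss
  rw [mul_div_cancel_left₀ _ (two_ne_zero), Real.arccos_cos h.1 h.2]

theorem Θ_continuous : Continuous Θ := by unfold Θ; fun_prop

/-- the semicircular variable on the circle -/
noncomputable def xi (θ : ℝ) : ℝ := 2 * Real.cos (st θ)

theorem xi_continuous : Continuous xi := by
  unfold xi
  exact continuous_const.mul (Real.continuous_cos.comp st_continuous)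

theorem xi_mem (θ : ℝ) : xi θ ∈ Set.Icc (-2 : ℝ) 2 := by
  unfold xi
  constructor
  · linarith [Real.neg_one_le_cos (st θ)]
  · linarith [Real.cos_le_one (st θ)]

theorem Θ_xi {θ : ℝ} (h : θ ∈ Set.Icc (-Real.pi) Real.pi) : Θ (xi θ) = θ := by
  unfold xi
  rw [Θ_cos (st_mem h), ss_st]

/-- change of variables -/
theorem integral_xi {G : ℝ → ℂ} (hG : Continuous G) :
    (1 / (2 * Real.pi) : ℂ) * ∫ θ in (-Real.pi)..Real.pi, G (xi θ) = Sc G := by
  have h1 : ∫ t in (0 : ℝ)..Real.pi, (4 * Real.sin t ^ 2) • ((fun θ => G (xi θ)) ∘ ss) t =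
      ∫ θ in ss 0..ss Real.pi, G (xi θ) := by
    refine intervalIntegral.integral_deriv_smul_comp ?_ (by fun_prop) (hG.comp xi_continuous)
    intro t _
    have h2 : HasDerivAt ss (2 - Real.cos (2 * t) * 2) t := by
      have h3 : HasDerivAt (fun t : ℝ => 2 * t) 2 t := by
        simpa using (hasDerivAt_id t).const_mul (2 : ℝ)
      exact (h3.sub h3.sin).sub_const _
    convert h2 using 1
    rw [Real.cos_two_mul, Real.cos_sq']
    ring
  rw [ss_zero, ss_pi] at h1
  rw [← h1]
  unfold Sc
  have h4 : ∀ t ∈ Set.uIcc (0 : ℝ) Real.pi, (4 * Real.sin t ^ 2) • ((fun θ => G (xi θ)) ∘ ss) t =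
      4 * (G (2 * Real.cos t) * ((Real.sin t ^ 2 : ℝ) : ℂ)) := by
    intro t _
    simp only [Function.comp_apply, xi, st_ss, Complex.real_smul]
    push_cast
    ring
  rw [intervalIntegral.integral_congr h4, intervalIntegral.integral_const_mul]
  have hpi : (Real.pi : ℂ) ≠ 0 := by exact_mod_cast Real.pi_ne_zero
  field_simp
  ring

/-! ### cut-off -/

/-- cut-off near `-1` -/
noncomputable def mm (k : ℕ) (z : ℂ) : ℝ := min 1 (k * ‖1 + z‖)

theorem mm_nonneg (k : ℕ) (z : ℂ) : 0 ≤ mm k z := le_min zero_le_one (by positivity)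
theorem mm_le (k : ℕ) (z : ℂ) : mm k z ≤ 1 := min_le_left _ _
theorem mm_continuous (k : ℕ) : Continuous (mm k) := by unfold mm; fun_prop

/-- continuous approximations of the semicircular function on the circle -/
noncomputable def fk (k : ℕ) (z : ℂ) : ℝ := mm k z * xi (Complex.arg z)

theorem fk_mem (k : ℕ) (z : ℂ) : fk k z ∈ Set.Icc (-2 : ℝ) 2 := by
  have h1 := mm_nonneg k z
  have h2 := mm_le k z
  have h3 := xi_mem (Complex.arg z)
  unfold fk
  constructor <;> nlinarith [h3.1, h3.2]

theorem fk_continuousOn (k : ℕ) : ContinuousOn (fk k) Sp := by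
  intro z hz
  by_cases hz1 : z = -1
  · subst hz1
    have h0 : fk k (-1) = 0 := by simp [fk, mm]
    unfold ContinuousWithinAt
    rw [h0]
    have h1 : Tendsto (fun z : ℂ => 2 * (k * ‖1 + z‖)) (𝓝[Sp] (-1)) (𝓝 0) := by
      have : Continuous fun z : ℂ => 2 * ((k : ℝ) * ‖1 + z‖) := by fun_prop
      have h2 := this.tendsto (-1 : ℂ)
      simp only [add_neg_cancel, norm_zero, mul_zero] at h2
      exact h2.mono_left nhdsWithin_le_nhds
    refine squeeze_zero_norm (fun w => ?_) h1
    rw [Real.norm_eq_abs, fk, abs_mul, abs_of_nonneg (mm_nonneg k w)]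
    have h3 : |xi (Complex.arg w)| ≤ 2 := abs_le.2 (xi_mem _)
    have h4 : mm k w ≤ k * ‖1 + w‖ := min_le_right _ _
    have h5 := mm_nonneg k w
    have h6 := abs_nonneg (xi (Complex.arg w))
    nlinarith
  · have hslit : z ∈ Complex.slitPlane := by
      rw [Complex.mem_slitPlane_iff]
      by_contra hcon
      push Not at hcon
      apply hz1
      have h1 : ‖z‖ = 1 := by simpa using hz
      have h2 : z.re ^ 2 + z.im ^ 2 = 1 := by
        have := Complex.sq_norm z
        rw [h1, Complex.normSq_apply] at this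
        nlinarith
      have h3 : z.im = 0 := hcon.2
      have h4 : z.re ≤ 0 := hcon.1
      have h5 : z.re = -1 := by
        rw [h3] at h2
        nlinarith
      exact Complex.ext (by simpa using h5) (by simpa using h3)
    have h1 : ContinuousAt (fk k) z := by
      unfold fk
      exact (mm_continuous k).continuousAt.mul
        (xi_continuous.continuousAt.comp (Complex.continuousAt_arg hslit))
    exact h1.continuousWithinAt

/-- `fk` in the coordinate `θ` -/
theorem fk_exp (k : ℕ) {θ : ℝ} (h : θ ∈ Set.Icc (-Real.pi) Real.pi) :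
    fk k (Complex.exp (θ * Complex.I)) = mm k (Complex.exp (θ * Complex.I)) * xi θ := by
  unfold fk
  rcases eq_or_lt_of_le h.1 with h1 | h1
  · have h2 : Complex.exp (θ * Complex.I) = -1 := by
      rw [← h1]
      push_cast
      rw [neg_mul, Complex.exp_neg, Complex.exp_pi_mul_I]
      norm_num
    have h3 : mm k (Complex.exp (θ * Complex.I)) = 0 := by
      rw [h2]
      simp [mm]
    rw [h3, zero_mul, zero_mul]
  · have h2 : Complex.arg (Complex.exp (θ * Complex.I)) = θ := by
      rw [Complex.exp_mul_I]
      exact Complex.arg_cos_add_sin_mul_I ⟨h1, h.2⟩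
    rw [h2]

theorem mm_eventually {z : ℂ} (hz : z ≠ -1) : ∀ᶠ k in atTop, mm k z = 1 := by
  have h0 : 0 < ‖1 + z‖ := norm_pos_iff.2 fun h => hz (by linear_combination h)
  obtain ⟨K, hK⟩ := exists_nat_gt (1 / ‖1 + z‖)
  filter_upwards [eventually_ge_atTop K] with k hk
  refine min_eq_left ?_
  have h1 : (K : ℝ) ≤ k := by exact_mod_cast hk
  rw [div_lt_iff₀ h0] at hK
  nlinarith

/-- dominated convergence for the cut-off -/
theorem tendsto_cut {G : ℝ → ℝ → ℂ} (hG : Continuous fun p : ℝ × ℝ => G p.1 p.2) :
    Tendsto (fun k : ℕ => ∫ θ in (-Real.pi)..Real.pi,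
      G (mm k (Complex.exp (θ * Complex.I)) * xi θ) θ) atTop
      (𝓝 (∫ θ in (-Real.pi)..Real.pi, G (xi θ) θ)) := by
  -- a bound
  obtain ⟨C, hC⟩ : ∃ C, ∀ p ∈ (Set.Icc (-2 : ℝ) 2 ×ˢ Set.Icc (-Real.pi) Real.pi), ‖G p.1 p.2‖ ≤ C :=
    (isCompact_Icc.prod isCompact_Icc).exists_bound_of_continuousOn hG.continuousOn
  have hIoc : Ι (-Real.pi) Real.pi = Set.Ioc (-Real.pi) Real.pi :=
    Set.uIoc_of_le (by linarith [Real.pi_pos])
  refine intervalIntegral.tendsto_integral_filter_of_dominated_convergence (fun _ => C) ?_ ?_ ?_ ?_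
  · refine Eventually.of_forall fun k => ?_
    refine Continuous.aestronglyMeasurable ?_
    refine hG.comp (Continuous.prodMk ?_ continuous_id)
    exact ((mm_continuous k).comp (by fun_prop)).mul xi_continuous
  · refine Eventually.of_forall fun k => Eventually.of_forall fun θ hθ => ?_
    rw [hIoc] at hθ
    refine hC (mm k (Complex.exp (θ * Complex.I)) * xi θ, θ) ⟨?_, ⟨hθ.1.le, hθ.2⟩⟩
    have h1 := mm_nonneg k (Complex.exp (θ * Complex.I))
    have h2 := mm_le k (Complex.exp (θ * Complex.I))
    have h3 := xi_mem θ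
    constructor <;> nlinarith [h3.1, h3.2]
  · exact intervalIntegrable_const
  · filter_upwards [Measure.ae_ne volume Real.pi] with θ hθ hθ'
    rw [hIoc] at hθ'
    have hne : Complex.exp (θ * Complex.I) ≠ -1 := by
      intro h
      have h1 : Complex.arg (Complex.exp (θ * Complex.I)) = θ := by
        rw [Complex.exp_mul_I]
        exact Complex.arg_cos_add_sin_mul_I hθ'
      rw [h, Complex.arg_neg_one] at h1
      exact hθ h1.symm
    refine tendsto_const_nhds.congr' ?_
    filter_upwards [mm_eventually hne] with k hk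
    rw [hk, one_mul]

/-- the circle mean of a function of `fk` -/
theorem Mc_fk (k : ℕ) (H : ℝ → ℂ → ℂ) :
    Mc (fun z => H (fk k z) z) = (1 / (2 * Real.pi) : ℂ) * ∫ θ in (-Real.pi)..Real.pi,
      H (mm k (Complex.exp (θ * Complex.I)) * xi θ) (Complex.exp (θ * Complex.I)) := by
  unfold Mc
  congr 1
  refine intervalIntegral.integral_congr fun θ hθ => ?_
  rw [Set.uIcc_of_le (by linarith [Real.pi_pos])] at hθ
  simp only
  rw [fk_exp k hθ]

end Conv

end Crest.Agent.R134
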