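import Crest.Agent.R134.Conv4

/-!
# R134 Conv5: a Haar unitary is the `uu` of a semicircular element
-/

set_option autoImplicit false
set_option linter.unusedSectionVars false

universe u

namespace Crest.Agent.R134

open Crest.Agent.R95 Filter Topology MeasureTheory Polynomial
open Crest.Agent.R134.Limit Crest.Agent.R134.Sm
open scoped Interval

namespace Conv

variable {A : Type u} [CStarAlgebra A] {T : TracialState A}

/-! ### continuity of the functional calculus in the 2-norm -/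

theorem cv_pow {a : ℕ → A} {b : A} (h : Cv T a b) (n : ℕ) : Cv T (fun k => a k ^ n) (b ^ n) := by
  induction n with
  | zero => simpa using Cv.const (T := T) (1 : A)
  | succ n ih =>
    simp only [pow_succ]
    exact Cv.mul ih h

theorem cv_aeval {a : ℕ → A} {b : A} (h : Cv T a b) (p : ℂ[X]) :
    Cv T (fun k => aeval (a k) p) (aeval b p) := by
  induction p using Polynomial.induction_on' with
  | add p q hp hq =>
    simp only [map_add]
    exact Cv.add hp hq
  | monomial n c =>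
    simp only [aeval_monomial, Algebra.algebraMap_eq_smul_one, smul_mul_assoc, one_mul]
    exact Cv.smul c (cv_pow h n)

theorem cv_fc {a : ℕ → A} {b : A} {R : ℝ} (h : Cv T a b) (ha : ∀ k, IsSelfAdjoint (a k))
    (hb : IsSelfAdjoint b) (hR : ∀ k, ‖a k‖ ≤ R) (hR' : ‖b‖ ≤ R) {F : ℝ → ℂ} (hF : Continuous F) :
    Cv T (fun k => fc (a k) F) (fc b F) := by
  have hR0 : 0 ≤ R := (norm_nonneg _).trans hR'
  obtain ⟨C, hC⟩ : ∃ C, ∀ s ∈ Set.Icc (-R) R, ‖F s‖ ≤ C :=
    isCompact_Icc.exists_bound_of_continuousOn hF.continuousOn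
  have hC0 : 0 ≤ C := (norm_nonneg _).trans (hC 0 ⟨by linarith, hR0⟩)
  refine ⟨⟨C, fun k => norm_fc_le (ha k) hC0 (hR k) hC⟩, ?_⟩
  rw [Metric.tendsto_atTop]
  intro ε hε
  obtain ⟨p, hp⟩ := exists_poly_near hF R (ε := ε / 3) (by positivity)
  obtain ⟨K, hK⟩ := (Metric.tendsto_atTop.1 (cv_aeval h p).2) (ε / 3) (by positivity)
  refine ⟨K, fun k hk => ?_⟩
  have h1 := hK k hk
  rw [Real.dist_0_eq_abs, abs_of_nonneg (T.nrm2_nonneg _)] at h1 ⊢
  have e1 : ∀ c : A, IsSelfAdjoint c → ‖c‖ ≤ R → T.nrm2 (fc c F - aeval c p) ≤ ε / 3 := by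
    intro c hc hcR
    rw [← fc_poly hc p, ← fc_sub hF (continuous_eval p)]
    refine (T.nrm2_le_norm _).trans (norm_fc_le hc (by positivity) hcR fun s hs => ?_)
    rw [norm_sub_rev]
    exact hp s hs
  have h2 := e1 (a k) (ha k) (hR k)
  have h3 := e1 b hb hR'
  have h4 := T.nrm2_triangle (fc (a k) F) (aeval (a k) p) (fc b F)
  have h5 := T.nrm2_triangle (aeval (a k) p) (aeval b p) (fc b F)
  rw [T.nrm2_sub_comm (aeval b p) (fc b F)] at h5
  linarith

/-! ### the approximations -/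

/-- `f_k (u)` -/
noncomputable def Xk (u : A) (k : ℕ) : A := cfc (fun z : ℂ => (fk k z : ℂ)) u

theorem fkc_continuousOn (k : ℕ) : ContinuousOn (fun z : ℂ => (fk k z : ℂ)) Sp :=
  Complex.continuous_ofReal.comp_continuousOn (fk_continuousOn k)

theorem Xk_sa (u : A) (k : ℕ) : IsSelfAdjoint (Xk u k) := by
  unfold Xk
  show star (cfc (fun z : ℂ => (fk k z : ℂ)) u) = _
  rw [← cfc_star]
  congr 1
  funext z
  simp

theorem Xk_norm (u : A) (k : ℕ) : ‖Xk u k‖ ≤ 2 := by
  refine norm_cfc_le (by norm_num) fun z _ => ?_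
  rw [Complex.norm_real, Real.norm_eq_abs]
  exact abs_le.2 (fk_mem k z)

theorem fc_Xk {u : A} (hu : u ∈ unitary A) (k : ℕ) {F : ℝ → ℂ} (hF : Continuous F) :
    fc (Xk u k) F = cfc (fun z => F (fk k z)) u := by
  have hs := spectrum_subset_Sp hu
  unfold fc Xk
  rw [← cfc_comp' (fun z : ℂ => F z.re) (fun z : ℂ => (fk k z : ℂ)) u
    (by fun_prop) ((fkc_continuousOn k).mono hs) (isStarNormal_of_unitary hu)]
  simp

/-- the trace of a function of `Xk` -/
theorem tau_fc_Xk {u : A} (hu : u ∈ unitary A) (h0 : ∀ n : ℕ, T.τ (u ^ (n + 1)) = 0) {F : ℝ → ℂ}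
    (hF : Continuous F) : Tendsto (fun k => T.τ (fc (Xk u k) F)) atTop (𝓝 (Sc F)) := by
  have h1 : ∀ k, T.τ (fc (Xk u k) F) = (1 / (2 * Real.pi) : ℂ) *
      ∫ θ in (-Real.pi)..Real.pi, F (mm k (Complex.exp (θ * Complex.I)) * xi θ) := by
    intro k
    rw [fc_Xk hu k hF]
    have h2 := tau_cfc (T := T) hu h0 (F := fun z => F (fk k z))
      (hF.comp_continuousOn (fk_continuousOn k))
    rw [h2]
    exact Mc_fk k (fun x _ => F x)
  simp only [h1]
  rw [← integral_xi hF]
  refine Tendsto.const_mul _ ?_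
  exact tendsto_cut (G := fun x _ => F x) (by fun_prop)

theorem tendsto_I : Tendsto (fun k : ℕ => ∫ θ in (-Real.pi)..Real.pi,
    (mm k (Complex.exp (θ * Complex.I)) * xi θ - xi θ) ^ 2) atTop (𝓝 0) := by
  have h1 := tendsto_cut (G := fun x θ => (((x - xi θ) ^ 2 : ℝ) : ℂ))
    (by
      have := xi_continuous
      fun_prop)
  have h2 := (Complex.continuous_re.tendsto _).comp h1
  simp only [sub_self, ne_eq, OfNat.ofNat_ne_zero, not_false_eq_true, zero_pow, Complex.ofReal_zero,
    intervalIntegral.integral_zero, Complex.zero_re] at h2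
  refine h2.congr fun k => ?_
  simp only [Function.comp_apply]
  rw [intervalIntegral.integral_ofReal, Complex.ofReal_re]

theorem mc_continuous (k : ℕ) : Continuous fun θ : ℝ => mm k (Complex.exp (θ * Complex.I)) * xi θ :=
  ((mm_continuous k).comp (by fun_prop)).mul xi_continuous

/-- distance between two approximations -/
theorem nrm2_Xk_sub {u : A} (hu : u ∈ unitary A) (h0 : ∀ n : ℕ, T.τ (u ^ (n + 1)) = 0) (k l : ℕ) :
    T.nrm2 (Xk u k - Xk u l) ^ 2 ≤ (1 / (2 * Real.pi)) *
      (2 * (∫ θ in (-Real.pi)..Real.pi, (mm k (Complex.exp (θ * Complex.I)) * xi θ - xi θ) ^ 2) +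
        2 * ∫ θ in (-Real.pi)..Real.pi, (mm l (Complex.exp (θ * Complex.I)) * xi θ - xi θ) ^ 2) := by
  have hs := spectrum_subset_Sp hu
  have h1 : Xk u k - Xk u l = cfc (fun z : ℂ => (fk k z : ℂ) - (fk l z : ℂ)) u := by
    unfold Xk
    rw [cfc_sub (a := u) _ _ ((fkc_continuousOn k).mono hs) ((fkc_continuousOn l).mono hs)]
  rw [h1, nrm2_cfc_sq (F := fun z : ℂ => (fk k z : ℂ) - (fk l z : ℂ)) hu h0
    ((fkc_continuousOn k).sub (fkc_continuousOn l))]
  have h2 : Mc (fun z : ℂ => star ((fk k z : ℂ) - (fk l z : ℂ)) * ((fk k z : ℂ) - (fk l z : ℂ))) =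
      (((1 / (2 * Real.pi)) * ∫ θ in (-Real.pi)..Real.pi,
        (mm k (Complex.exp (θ * Complex.I)) * xi θ - mm l (Complex.exp (θ * Complex.I)) * xi θ) ^ 2 :
          ℝ) : ℂ) := by
    unfold Mc
    rw [Complex.ofReal_mul, ← intervalIntegral.integral_ofReal]
    push_cast
    congr 1
    refine intervalIntegral.integral_congr fun θ hθ => ?_
    rw [Set.uIcc_of_le (by linarith [Real.pi_pos])] at hθ
    rw [fk_exp k hθ, fk_exp l hθ, ← Complex.ofReal_sub, Complex.star_def, Complex.conj_ofReal]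
    push_cast
    ring
  rw [h2, Complex.ofReal_re]
  refine mul_le_mul_of_nonneg_left ?_ (by positivity)
  have hk := mc_continuous k
  have hl := mc_continuous l
  have hx := xi_continuous
  rw [← intervalIntegral.integral_const_mul, ← intervalIntegral.integral_const_mul,
    ← intervalIntegral.integral_add]
  · refine intervalIntegral.integral_mono_on (by linarith [Real.pi_pos]) ?_ ?_ fun θ _ => ?_
    · exact ((hk.sub hl).pow 2).intervalIntegrable _ _
    · exact ((continuous_const.mul ((hk.sub hx).pow 2)).add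
        (continuous_const.mul ((hl.sub hx).pow 2))).intervalIntegrable _ _
    · nlinarith [sq_nonneg ((mm k (Complex.exp (θ * Complex.I)) * xi θ - xi θ) +
        (mm l (Complex.exp (θ * Complex.I)) * xi θ - xi θ))]
  · exact (continuous_const.mul ((hk.sub hx).pow 2)).intervalIntegrable _ _
  · exact (continuous_const.mul ((hl.sub hx).pow 2)).intervalIntegrable _ _

/-- `uu (Xk u k) → u` -/
theorem Cv_uu_Xk {u : A} (hu : u ∈ unitary A) (h0 : ∀ n : ℕ, T.τ (u ^ (n + 1)) = 0) :
    Cv T (fun k => uu (Xk u k)) u := by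
  have hs := spectrum_subset_Sp hu
  set g : ℝ → ℂ := fun s => Complex.exp (Complex.I * (Θ s : ℂ)) with hg
  have hgc : Continuous g := by
    have := Θ_continuous
    rw [hg]
    fun_prop
  refine ⟨⟨1, fun k => ?_⟩, ?_⟩
  · simp only [uu_eq_fc]
    refine norm_fc_le (Xk_sa u k) zero_le_one le_rfl fun s _ => ?_
    rw [mul_comm, Complex.norm_exp_ofReal_mul_I]
  · have h1 : ∀ k, uu (Xk u k) - u = cfc (fun z : ℂ => g (fk k z) - z) u := by
      intro k
      rw [uu_eq_fc, fc_Xk hu k hgc]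
      nth_rewrite 2 [← cfc_id' ℂ u (isStarNormal_of_unitary hu)]
      rw [← cfc_sub (a := u) (fun z => g (fk k z)) (fun z => z)
        ((hgc.comp_continuousOn (fk_continuousOn k)).mono hs) continuousOn_id]
    have h2 : Tendsto (fun k => T.nrm2 (uu (Xk u k) - u) ^ 2) atTop (𝓝 0) := by
      have h3 : ∀ k, T.nrm2 (uu (Xk u k) - u) ^ 2 = ((1 / (2 * Real.pi) : ℂ) *
          ∫ θ in (-Real.pi)..Real.pi,
            star (g (mm k (Complex.exp (θ * Complex.I)) * xi θ) - Complex.exp (θ * Complex.I)) *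
              (g (mm k (Complex.exp (θ * Complex.I)) * xi θ) - Complex.exp (θ * Complex.I))).re := by
        intro k
        rw [h1, nrm2_cfc_sq (F := fun z : ℂ => g (fk k z) - z) hu h0
          ((hgc.comp_continuousOn (fk_continuousOn k)).sub continuousOn_id)]
        exact congrArg Complex.re (Mc_fk k (fun x z => star (g x - z) * (g x - z)))
      simp only [h3]
      have h4 := tendsto_cut (G := fun x θ => star (g x - Complex.exp (θ * Complex.I)) *
        (g x - Complex.exp (θ * Complex.I))) (by fun_prop)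
      have h5 : ∫ θ in (-Real.pi)..Real.pi, star (g (xi θ) - Complex.exp (θ * Complex.I)) *
          (g (xi θ) - Complex.exp (θ * Complex.I)) = 0 := by
        rw [← intervalIntegral.integral_zero (a := -Real.pi) (b := Real.pi) (μ := volume)]
        refine intervalIntegral.integral_congr fun θ hθ => ?_
        rw [Set.uIcc_of_le (by linarith [Real.pi_pos])] at hθ
        simp only [hg]
        rw [Θ_xi hθ, mul_comm Complex.I, sub_self, mul_zero]
      rw [h5] at h4
      have h6 := (Complex.continuous_re.tendsto _).comp (h4.const_mul (1 / (2 * Real.pi) : ℂ))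
      rw [mul_zero, Complex.zero_re] at h6
      exact h6
    have h7 := (Real.continuous_sqrt.tendsto _).comp h2
    rw [Real.sqrt_zero] at h7
    refine h7.congr fun k => ?_
    simp only [Function.comp_apply]
    exact Real.sqrt_sq (T.nrm2_nonneg _)

theorem tau_pow_of_freeHaar {G : Set A} (h1 : (1 : A) ∈ G) {u : A} (hu : FreeHaar T G u) (n : ℕ) :
    T.τ (u ^ (n + 1)) = 0 := by
  have := tau_pw h1 hu true n
  simpa [pw, sg] using this

theorem cfc_mem_W {u : A} {F : ℂ → ℂ} : cfc F u ∈ W T {u} := by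
  have h1 : cfc F u ∈ StarAlgebra.elemental ℂ u := cfc_mem_elemental F u
  have h2 : StarAlgebra.elemental ℂ u ≤ W T {u} := by
    refine StarSubalgebra.topologicalClosure_minimal ?_ (isClosed_W T _)
    exact adjoin_le_W T _
  exact h2 h1

/-- existence of the semicircular variable -/
theorem exists_X (hT : Amb T) {u : A} (hu : u ∈ unitary A) (h0 : ∀ n : ℕ, T.τ (u ^ (n + 1)) = 0) :
    ∃ X : A, IsSelfAdjoint X ∧ ‖X‖ ≤ 2 ∧ uu X = u ∧ X ∈ W T {u} ∧
      ∀ F : ℝ → ℂ, Continuous F → T.τ (fc X F) = Sc F := by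
  obtain ⟨X, hX2, hX⟩ := hT.complete (Xk u) 2 (Xk_norm u) (by
    intro ε hε
    have h1 := tendsto_I
    rw [Metric.tendsto_atTop] at h1
    obtain ⟨K, hK⟩ := h1 (ε ^ 2) (by positivity)
    refine ⟨K, fun k hk l hl => ?_⟩
    have h2 := hK k hk
    have h3 := hK l hl
    rw [Real.dist_0_eq_abs] at h2 h3
    have h4 := nrm2_Xk_sub (T := T) hu h0 k l
    have h5 := le_abs_self (∫ θ in (-Real.pi)..Real.pi,
      (mm k (Complex.exp (θ * Complex.I)) * xi θ - xi θ) ^ 2)
    have h6 := le_abs_self (∫ θ in (-Real.pi)..Real.pi,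
      (mm l (Complex.exp (θ * Complex.I)) * xi θ - xi θ) ^ 2)
    have h7 : T.nrm2 (Xk u k - Xk u l) ^ 2 < ε ^ 2 := by
      refine h4.trans_lt ?_
      have h8 : 1 / (2 * Real.pi) ≤ 1 / 6 :=
        one_div_le_one_div_of_le (by norm_num) (by linarith [Real.pi_gt_three])
      have h9 : 0 < 1 / (2 * Real.pi) := by positivity
      nlinarith
    exact lt_of_pow_lt_pow_left₀ 2 hε.le h7)
  have hcv : Cv T (Xk u) X := ⟨⟨2, Xk_norm u⟩, hX⟩
  have hsa : IsSelfAdjoint X := by
    have h1 := Cv.star hcv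
    have h2 : (fun k => star (Xk u k)) = Xk u := by
      funext k
      exact Xk_sa u k
    rw [h2] at h1
    exact Cv.unique hT.faithful h1 hcv
  have hfc : ∀ F : ℝ → ℂ, Continuous F → Cv T (fun k => fc (Xk u k) F) (fc X F) :=
    fun F hF => cv_fc hcv (Xk_sa u) hsa (Xk_norm u) hX2 hF
  refine ⟨X, hsa, hX2, ?_, ?_, fun F hF => ?_⟩
  · have h1 := hfc (fun s => Complex.exp (Complex.I * (Θ s : ℂ)))
      (by
        have := Θ_continuous
        fun_prop)
    exact Cv.unique hT.faithful h1 (Cv_uu_Xk hu h0)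
  · refine mem_W_of_approx T fun ε hε => ?_
    obtain ⟨K, hK⟩ := (Metric.tendsto_atTop.1 hX) ε hε
    refine ⟨Xk u K, cfc_mem_W, ?_⟩
    have := hK K le_rfl
    rwa [Real.dist_0_eq_abs, abs_of_nonneg (T.nrm2_nonneg _), T.nrm2_sub_comm] at this
  · exact tendsto_nhds_unique (Cv.tau (hfc F hF)) (tau_fc_Xk hu h0 hF)

end Conv

end Crest.Agent.R134
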