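import Crest.Agent.R95.Trace

/-!
# R134 : shared definitions for S0183 / S0184 (free group factor isomorphism)

Abstract frame: a C*-algebra `A` with a tracial state `T` (`Crest.Agent.R95.TracialState`), 2-norm
`T.nrm2`.  DO NOT EDIT without asking helper983 (captain).
-/

set_option autoImplicit false

universe u

namespace Crest.Agent.R134

open Crest.Agent.R95 Filter Topology

variable {A : Type u} [CStarAlgebra A] (T : TracialState A)

/-! ## 2-norm closures -/

/-- The 2-norm closure (inside `A`) of the unital star algebra generated by `S`. -/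
def WSet (S : Set A) : Set A :=
  {x | ∀ ε : ℝ, 0 < ε → ∃ a ∈ StarAlgebra.adjoin ℂ S, T.nrm2 (x - a) < ε}

theorem adjoin_subset_WSet (S : Set A) : (StarAlgebra.adjoin ℂ S : Set A) ⊆ WSet T S := by
  intro x hx ε hε
  exact ⟨x, hx, by rw [sub_self, T.nrm2_zero]; exact hε⟩

/-- `WSet T S` as a star subalgebra. -/
def W (S : Set A) : StarSubalgebra ℂ A where
  carrier := WSet T S
  mul_mem' := by
    intro x y hx hy ε hε
    obtain ⟨b, hb, hyb⟩ := hy (ε / (2 * (‖x‖ + 1))) (by positivity)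
    obtain ⟨a, ha, hxa⟩ := hx (ε / (2 * (‖b‖ + 1))) (by positivity)
    refine ⟨a * b, mul_mem ha hb, ?_⟩
    have e : x * y - a * b = x * (y - b) + (x - a) * b := by noncomm_ring
    rw [e]
    have h1 : T.nrm2 (x * (y - b)) ≤ ‖x‖ * T.nrm2 (y - b) := T.nrm2_mul_le_left _ _
    have h2 : T.nrm2 ((x - a) * b) ≤ T.nrm2 (x - a) * ‖b‖ := T.nrm2_mul_le_right _ _
    have h3 : ‖x‖ * T.nrm2 (y - b) ≤ ‖x‖ * (ε / (2 * (‖x‖ + 1))) := by gcongr
    have h4 : T.nrm2 (x - a) * ‖b‖ ≤ (ε / (2 * (‖b‖ + 1))) * ‖b‖ := by gcongr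
    have h5 : ‖x‖ * (ε / (2 * (‖x‖ + 1))) < ε / 2 := by
      rw [mul_div_assoc', div_lt_div_iff₀ (by positivity) (by norm_num)]
      nlinarith [norm_nonneg x]
    have h6 : (ε / (2 * (‖b‖ + 1))) * ‖b‖ < ε / 2 := by
      rw [div_mul_eq_mul_div, div_lt_div_iff₀ (by positivity) (by norm_num)]
      nlinarith [norm_nonneg b]
    have := T.nrm2_add_le (x * (y - b)) ((x - a) * b)
    linarith
  add_mem' := by
    intro x y hx hy ε hε
    obtain ⟨a, ha, hxa⟩ := hx (ε / 2) (by positivity)
    obtain ⟨b, hb, hyb⟩ := hy (ε / 2) (by positivity)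
    refine ⟨a + b, add_mem ha hb, ?_⟩
    have e : x + y - (a + b) = (x - a) + (y - b) := by abel
    rw [e]
    have := T.nrm2_add_le (x - a) (y - b)
    linarith
  algebraMap_mem' := by
    intro r
    exact adjoin_subset_WSet T S (StarSubalgebra.algebraMap_mem _ r)
  star_mem' := by
    intro x hx ε hε
    obtain ⟨a, ha, hxa⟩ := hx ε hε
    refine ⟨star a, star_mem ha, ?_⟩
    rw [← star_sub, T.nrm2_star]
    exact hxa

theorem mem_W {S : Set A} {x : A} :
    x ∈ W T S ↔ ∀ ε : ℝ, 0 < ε → ∃ a ∈ StarAlgebra.adjoin ℂ S, T.nrm2 (x - a) < ε := Iff.rfl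

/-! ## Schwinger-Dyson: `X` is a standard semicircular element free from `G` -/

/-- `Der T G X w D`: `w` is a noncommutative polynomial in `X` with coefficients in `G` and `D` is
the bilinear form `D p q = (τ ⊗ τ) ((p ⊗ 1) (∂ w) (1 ⊗ q))` of its free difference quotient. -/
inductive Der (G : Set A) (X : A) : A → (A → A → ℂ) → Prop
  | one : Der G X 1 (fun _ _ => 0)
  | coef {a : A} : a ∈ G → Der G X a (fun _ _ => 0)
  | var : Der G X X (fun p q => T.τ p * T.τ q)
  | add {w w' : A} {D D' : A → A → ℂ} : Der G X w D → Der G X w' D' →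
      Der G X (w + w') (fun p q => D p q + D' p q)
  | smul {w : A} {D : A → A → ℂ} (c : ℂ) : Der G X w D → Der G X (c • w) (fun p q => c * D p q)
  | mul {w w' : A} {D D' : A → A → ℂ} : Der G X w D → Der G X w' D' →
      Der G X (w * w') (fun p q => D' (p * w) q + D p (w' * q))

/-- The Schwinger-Dyson equation: `X` is a (standard) semicircular element, free from `G`. -/
def SD (G : Set A) (X : A) : Prop :=
  IsSelfAdjoint X ∧ ∀ (w : A) (D : A → A → ℂ), Der T G X w D → T.τ (X * w) = D 1 1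

/-! ## Haar unitaries free from `G` -/

/-- `u` or `u*`. -/
def sg (u : A) (b : Bool) : A := if b then u else star u

/-- The word `u^{ε₁} a₁ u^{ε₂} a₂ ⋯ u^{ε_k} a_k`. -/
def word (u : A) : List (Bool × A) → A
  | [] => 1
  | (b, a) :: L => sg u b * a * word u L

/-- The inner coefficients between letters of opposite sign are centred. -/
def Alt : List (Bool × A) → Prop
  | [] => True
  | [_] => True
  | (b, a) :: (b', a') :: L => (b ≠ b' → T.τ a = 0) ∧ Alt ((b', a') :: L)

/-! The equation lemmas of `sg`, `word`, `Alt`, realised here (once for all importing modules). -/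

namespace Eqn

theorem sg_eq (u : A) (b : Bool) : sg u b = if b then u else star u := by rw [sg.eq_1]

theorem word_eq1 (u : A) : word u [] = 1 := by rw [word.eq_1]

theorem word_eq2 (u : A) (b : Bool) (a : A) (L : List (Bool × A)) :
    word u ((b, a) :: L) = sg u b * a * word u L := by rw [word.eq_2]

theorem word_eq_def (u : A) (L : List (Bool × A)) : word u L = match L with
    | [] => 1
    | (b, a) :: L => sg u b * a * word u L := by rw [word.eq_def]

theorem alt_eq1 : Alt T [] = True := by rw [Alt.eq_1]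

theorem alt_eq2 (p : Bool × A) : Alt T [p] = True := by rw [Alt.eq_2]

theorem alt_eq3 (b : Bool) (a : A) (b' : Bool) (a' : A) (L : List (Bool × A)) :
    Alt T ((b, a) :: (b', a') :: L) = ((b ≠ b' → T.τ a = 0) ∧ Alt T ((b', a') :: L)) := by
  rw [Alt.eq_3]

theorem alt_eq_def (L : List (Bool × A)) : Alt T L = match L with
    | [] => True
    | [_] => True
    | (b, a) :: (b', a') :: L => (b ≠ b' → T.τ a = 0) ∧ Alt T ((b', a') :: L) := by
  rw [Alt.eq_def]

end Eqn

/-- `u` is a Haar unitary, *-free from `G`. (No condition on the last coefficient, nor on coefficients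
between letters of equal sign.) -/
def FreeHaar (G : Set A) (u : A) : Prop :=
  u ∈ unitary A ∧ ∀ L : List (Bool × A), L ≠ [] → (∀ p ∈ L, p.2 ∈ G) → Alt T L → T.τ (word u L) = 0

/-! ## Trace preserving automorphisms -/

/-- `α` preserves the trace. -/
def Pres (α : A ≃⋆ₐ[ℂ] A) : Prop := ∀ a, T.τ (α a) = T.τ a

/-- `α` fixes `S` pointwise. -/
def Fixes (α : A ≃⋆ₐ[ℂ] A) (S : Set A) : Prop := ∀ a ∈ S, α a = a

/-- The properties of a finite von Neumann algebra in standard form that are used. -/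
structure Amb : Prop where
  faithful : ∀ a : A, T.nrm2 a = 0 → a = 0
  complete : ∀ (x : ℕ → A) (C : ℝ), (∀ k, ‖x k‖ ≤ C) →
    (∀ ε : ℝ, 0 < ε → ∃ K, ∀ k ≥ K, ∀ l ≥ K, T.nrm2 (x k - x l) < ε) →
    ∃ y : A, ‖y‖ ≤ C ∧ Tendsto (fun k => T.nrm2 (x k - y)) atTop (𝓝 0)
  ext : ∀ (ι : Type u) (s : ι → ι) (a a' : ι → A), (∀ i, a (s i) = star (a i)) →
    (∀ i, a' (s i) = star (a' i)) →
    (∀ L : List ι, T.τ (L.map a).prod = T.τ (L.map a').prod) →
    (∀ x, x ∈ W T (Set.range a)) → (∀ x, x ∈ W T (Set.range a')) →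
    ∃ α : A ≃⋆ₐ[ℂ] A, Pres T α ∧ ∀ i, α (a i) = a' i

/-- `R` is in tensor position: `τ (r q) = τ r τ q` for `r ∈ R`, `q` commuting with `R`. -/
def TensorPos (R : Set A) : Prop :=
  ∀ r ∈ R, ∀ q : A, (∀ r' ∈ R, r' * q = q * r') → T.τ (r * q) = T.τ r * T.τ q

/-- Commuting pairs of anticommuting self-adjoint unitaries. -/
def Pairs (u v : ℕ → A) : Prop :=
  (∀ j, IsSelfAdjoint (u j) ∧ IsSelfAdjoint (v j) ∧
    u j * u j = 1 ∧ v j * v j = 1 ∧ u j * v j = -(v j * u j)) ∧
  (∀ j k, j ≠ k → u j * u k = u k * u j ∧ u j * v k = v k * u j ∧ v j * v k = v k * v j)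

/-! ## Functions of a semicircular element -/

/-- `Θ : [-2,2] → [-π,π]`, the (odd, increasing after a sign) map that transports the semicircle law to
the uniform law: `Θ (2 cos t) = 2 t - sin (2 t) - π`. -/
noncomputable def Θ (t : ℝ) : ℝ :=
  2 * Real.arccos (t / 2) - Real.sin (2 * Real.arccos (t / 2)) - Real.pi

/-- The Haar unitary of a semicircular element. -/
noncomputable def uu (x : A) : A := cfc (fun z : ℂ => Complex.exp (Complex.I * (Θ z.re : ℂ))) x

/-- The canonical `d`-th root of `uu x`. -/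
noncomputable def ru (d : ℕ) (x : A) : A :=
  cfc (fun z : ℂ => Complex.exp (Complex.I * (Θ z.re / d : ℂ))) x

/-- The semicircle mean `(2/π) ∫₀^π f(2 cos t) sin² t dt`. -/
noncomputable def Sc (f : ℝ → ℂ) : ℂ :=
  (2 / Real.pi : ℂ) * ∫ t in (0 : ℝ)..Real.pi, f (2 * Real.cos t) * ((Real.sin t) ^ 2 : ℝ)

end Crest.Agent.R134
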