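import Mathlib

/-!
# R134: the overlapping line design (purely combinatorial)

`4^J` variables, `4^J` ordered lines (lists without repetition), two different lines have at most
one common variable, the sum of `1/length^2` over the lines through a variable is `≤ ε` and the
sum of `1/length^2` over the *later* lines that cross a given line is `≤ ε`.
-/

set_option autoImplicit false

namespace Crest.Agent.R134

open Finset

/-- An ordered family of `N` lines `L 0, …, L (N-1)` (lists of variables in `ι`). -/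
structure Design (ι : Type*) [DecidableEq ι] (N : ℕ) (ε : ℝ) where
  L : ℕ → List ι
  pos : ∀ b < N, 0 < (L b).length
  nodup : ∀ b < N, (L b).Nodup
  inter : ∀ b < N, ∀ b' < N, b ≠ b' → ∀ i j, i ∈ L b → i ∈ L b' → j ∈ L b → j ∈ L b' → i = j
  deg : ∀ i, ∑ b ∈ (range N).filter (fun b => i ∈ L b), (1 / ((L b).length : ℝ) ^ 2) ≤ ε
  cross : ∀ b < N, ∑ b' ∈ (range N).filter (fun b' => b < b' ∧ ∃ i ∈ L b, i ∈ L b'),
    (1 / ((L b').length : ℝ) ^ 2) ≤ ε

namespace DesignAux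

/-- lines: round `k`, slope `2^k + r`, block `β`, offset `u` -/
abbrev Ln (e P J : ℕ) : Type := Σ k : Fin P, Fin (2 ^ (k : ℕ)) × Fin (2 ^ (J - e - k)) × ZMod (2 ^ J)

variable {e P J : ℕ}

/-- slope -/
def slope (t : Ln e P J) : ℕ := 2 ^ (t.1 : ℕ) + (t.2.1 : ℕ)

/-- length -/
def len (t : Ln e P J) : ℕ := 2 ^ (e + (t.1 : ℕ))

/-- the line -/
def line (t : Ln e P J) : List (ZMod (2 ^ J) × ZMod (2 ^ J)) :=
  (List.range (len t)).map fun l =>
    (((t.2.2.1 * len t + l : ℕ) : ZMod (2 ^ J)),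
      t.2.2.2 + (slope t : ZMod (2 ^ J)) * ((t.2.2.1 * len t + l : ℕ) : ZMod (2 ^ J)))

theorem len_pos (t : Ln e P J) : 0 < len t := by unfold len; positivity

theorem length_line (t : Ln e P J) : (line t).length = len t := by simp [line]

theorem lt_q (hJ : e + 2 * P ≤ J) (t : Ln e P J) {l : ℕ} (hl : l < len t) :
    t.2.2.1 * len t + l < 2 ^ J := by
  have h1 : (t.2.2.1 : ℕ) < 2 ^ (J - e - t.1) := t.2.2.1.2
  have hk : (t.1 : ℕ) < P := t.1.2
  have h2 : 2 ^ J = 2 ^ (J - e - t.1) * len t := by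
    unfold len
    rw [← pow_add]
    congr 1
    omega
  calc (t.2.2.1 : ℕ) * len t + l < t.2.2.1 * len t + len t := by omega
    _ = (t.2.2.1 + 1) * len t := by ring
    _ ≤ 2 ^ (J - e - t.1) * len t := Nat.mul_le_mul_right _ h1
    _ = 2 ^ J := h2.symm

theorem mem_line (hJ : e + 2 * P ≤ J) (t : Ln e P J) (i : ZMod (2 ^ J) × ZMod (2 ^ J)) :
    i ∈ line t ↔ (i.1.val / len t = t.2.2.1 ∧ t.2.2.2 = i.2 - (slope t : ZMod (2 ^ J)) * i.1) := by
  constructor
  · intro h
    simp only [line, List.mem_map, List.mem_range] at h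
    obtain ⟨l, hl, rfl⟩ := h
    refine ⟨?_, ?_⟩
    · simp only
      rw [ZMod.val_natCast_of_lt (lt_q hJ t hl)]
      rw [Nat.add_comm, Nat.add_mul_div_right _ _ (len_pos t), Nat.div_eq_of_lt hl, zero_add]
    · simp
  · rintro ⟨h1, h2⟩
    simp only [line, List.mem_map, List.mem_range]
    refine ⟨i.1.val % len t, Nat.mod_lt _ (len_pos t), ?_⟩
    have h3 : t.2.2.1 * len t + i.1.val % len t = i.1.val := by
      rw [← h1]
      exact Nat.div_add_mod' _ _
    rw [h3, h2]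
    ext <;> simp

theorem nodup_line (hJ : e + 2 * P ≤ J) (t : Ln e P J) : (line t).Nodup := by
  unfold line
  refine List.Nodup.map_on ?_ List.nodup_range
  intro x hx y hy h
  rw [List.mem_range] at hx hy
  have h1 := congrArg (fun z => z.1.val) h
  simp only at h1
  rw [ZMod.val_natCast_of_lt (lt_q hJ t hx), ZMod.val_natCast_of_lt (lt_q hJ t hy)] at h1
  omega

theorem slope_lt (t : Ln e P J) : slope t < 2 ^ P := by
  have h1 : (t.2.1 : ℕ) < 2 ^ (t.1 : ℕ) := t.2.1.2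
  have h2 : (t.1 : ℕ) + 1 ≤ P := t.1.2
  calc slope t < 2 ^ (t.1 : ℕ) + 2 ^ (t.1 : ℕ) := by unfold slope; omega
    _ = 2 ^ ((t.1 : ℕ) + 1) := by ring
    _ ≤ 2 ^ P := Nat.pow_le_pow_right (by norm_num) h2

theorem slope_inj {t t' : Ln e P J} (h : slope t = slope t') (hb : (t.2.2.1 : ℕ) = t'.2.2.1)
    (hu : t.2.2.2 = t'.2.2.2) : t = t' := by
  obtain ⟨k, r, β, u⟩ := t
  obtain ⟨k', r', β', u'⟩ := t'
  simp only [slope] at h hb hu
  have hr : (r : ℕ) < 2 ^ (k : ℕ) := r.2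
  have hr' : (r' : ℕ) < 2 ^ (k' : ℕ) := r'.2
  have hk : (k : ℕ) = k' := by
    rcases lt_trichotomy (k : ℕ) k' with h1 | h1 | h1
    · exfalso
      have : 2 ^ ((k : ℕ) + 1) ≤ 2 ^ (k' : ℕ) := Nat.pow_le_pow_right (by norm_num) h1
      have h3 : 2 ^ ((k : ℕ) + 1) = 2 ^ (k : ℕ) + 2 ^ (k : ℕ) := by ring
      omega
    · exact h1
    · exfalso
      have : 2 ^ ((k' : ℕ) + 1) ≤ 2 ^ (k : ℕ) := Nat.pow_le_pow_right (by norm_num) h1
      have h3 : 2 ^ ((k' : ℕ) + 1) = 2 ^ (k' : ℕ) + 2 ^ (k' : ℕ) := by ring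
      omega
  have hk' : k = k' := Fin.ext hk
  subst hk'
  have hr2 : r = r' := Fin.ext (by omega)
  have hb2 : β = β' := Fin.ext hb
  subst hr2 hb2 hu
  rfl

theorem inter_line (hJ : e + 2 * P ≤ J) {t t' : Ln e P J} (hne : t ≠ t')
    {i j : ZMod (2 ^ J) × ZMod (2 ^ J)} (hi : i ∈ line t) (hi' : i ∈ line t') (hj : j ∈ line t)
    (hj' : j ∈ line t') : i = j := by
  rw [mem_line hJ] at hi hi' hj hj'
  by_cases hs : slope t = slope t'
  · exfalso
    refine hne (slope_inj hs ?_ ?_)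
    · -- the rounds agree
      have hk : t.1 = t'.1 := by
        have hr : (t.2.1 : ℕ) < 2 ^ (t.1 : ℕ) := t.2.1.2
        have hr' : (t'.2.1 : ℕ) < 2 ^ (t'.1 : ℕ) := t'.2.1.2
        unfold slope at hs
        refine Fin.ext ?_
        rcases lt_trichotomy (t.1 : ℕ) t'.1 with h1 | h1 | h1
        · exfalso
          have : 2 ^ ((t.1 : ℕ) + 1) ≤ 2 ^ (t'.1 : ℕ) := Nat.pow_le_pow_right (by norm_num) h1
          have h3 : 2 ^ ((t.1 : ℕ) + 1) = 2 ^ (t.1 : ℕ) + 2 ^ (t.1 : ℕ) := by ring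
          omega
        · exact h1
        · exfalso
          have : 2 ^ ((t'.1 : ℕ) + 1) ≤ 2 ^ (t.1 : ℕ) := Nat.pow_le_pow_right (by norm_num) h1
          have h3 : 2 ^ ((t'.1 : ℕ) + 1) = 2 ^ (t'.1 : ℕ) + 2 ^ (t'.1 : ℕ) := by ring
          omega
      have hl : len t = len t' := by unfold len; rw [hk]
      rw [← hi.1, ← hi'.1, hl]
    · rw [hi.2, hi'.2, hs]
  · have hk : (t.1 : ℕ) < P := t.1.2
    have key : ((((slope t : ℤ) - slope t') * ((i.1.val : ℤ) - j.1.val) : ℤ) : ZMod (2 ^ J)) = 0 := by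
      push_cast
      rw [ZMod.natCast_zmod_val, ZMod.natCast_zmod_val]
      have e1 : i.2 - (slope t : ZMod (2 ^ J)) * i.1 = j.2 - (slope t : ZMod (2 ^ J)) * j.1 := by
        rw [← hi.2, ← hj.2]
      have e2 : i.2 - (slope t' : ZMod (2 ^ J)) * i.1 = j.2 - (slope t' : ZMod (2 ^ J)) * j.1 := by
        rw [← hi'.2, ← hj'.2]
      linear_combination e2 - e1
    rw [ZMod.intCast_zmod_eq_zero_iff_dvd] at key
    have hsl : |(slope t : ℤ) - slope t'| < 2 ^ P := by
      have h1 := slope_lt t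
      have h2 := slope_lt t'
      have h1' : (slope t : ℤ) < 2 ^ P := by exact_mod_cast h1
      have h2' : (slope t' : ℤ) < 2 ^ P := by exact_mod_cast h2
      rw [abs_lt]
      constructor <;> linarith [Int.natCast_nonneg (slope t), Int.natCast_nonneg (slope t')]
    have hx : |(i.1.val : ℤ) - j.1.val| < 2 ^ (e + P) := by
      have h1 := Nat.div_add_mod' i.1.val (len t)
      have h2 := Nat.div_add_mod' j.1.val (len t)
      rw [hi.1] at h1
      rw [hj.1] at h2
      have h3 := Nat.mod_lt i.1.val (len_pos t)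
      have h4 := Nat.mod_lt j.1.val (len_pos t)
      have h5 : len t ≤ 2 ^ (e + P) := by
        unfold len
        exact Nat.pow_le_pow_right (by norm_num) (by omega)
      have h5' : (len t : ℤ) ≤ 2 ^ (e + P) := by exact_mod_cast h5
      have h6 : |(i.1.val : ℤ) - j.1.val| < len t := by
        rw [abs_lt]
        constructor <;> omega
      linarith
    have hprod : |((slope t : ℤ) - slope t') * ((i.1.val : ℤ) - j.1.val)| < ((2 ^ J : ℕ) : ℤ) := by
      rw [abs_mul]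
      calc |(slope t : ℤ) - slope t'| * |(i.1.val : ℤ) - j.1.val| < 2 ^ P * 2 ^ (e + P) :=
            mul_lt_mul'' hsl hx (abs_nonneg _) (abs_nonneg _)
        _ = 2 ^ (e + 2 * P) := by ring
        _ ≤ 2 ^ J := pow_le_pow_right₀ (by norm_num) hJ
        _ = ((2 ^ J : ℕ) : ℤ) := by push_cast; rfl
    have h0 := Int.eq_zero_of_abs_lt_dvd key hprod
    rcases mul_eq_zero.1 h0 with h | h
    · exact absurd (by omega) hs
    · have hval : i.1.val = j.1.val := by omega
      have h1 : i.1 = j.1 := ZMod.val_injective _ hval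
      have h2 : i.2 = j.2 := by
        have e1 : i.2 - (slope t : ZMod (2 ^ J)) * i.1 = j.2 - (slope t : ZMod (2 ^ J)) * j.1 := by
          rw [← hi.2, ← hj.2]
        rw [h1] at e1
        exact sub_left_injective e1
      exact Prod.ext h1 h2

theorem card_Ln (hJ : e + 2 * P ≤ J) (hP : P = 2 ^ e) : Fintype.card (Ln e P J) = 4 ^ J := by
  have h : ∀ k : Fin P, Fintype.card (Fin (2 ^ (k : ℕ)) × Fin (2 ^ (J - e - k)) × ZMod (2 ^ J)) =
      2 ^ (2 * J - e) := by
    intro k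
    have hk : (k : ℕ) < P := k.2
    rw [Fintype.card_prod, Fintype.card_prod, Fintype.card_fin, Fintype.card_fin, ZMod.card,
      ← pow_add, ← pow_add]
    congr 1
    omega
  rw [Fintype.card_sigma, Finset.sum_congr rfl (fun k _ => h k), Finset.sum_const, Finset.card_univ,
    Fintype.card_fin, smul_eq_mul]
  calc P * 2 ^ (2 * J - e) = 2 ^ e * 2 ^ (2 * J - e) := by rw [← hP]
    _ = 2 ^ (2 * J) := by
      rw [← pow_add]
      congr 1
      omega
    _ = 4 ^ J := by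
      rw [pow_mul]
      norm_num

theorem sum_exists_le {α β : Type*} (s : Finset α) (u : Finset β) (p : α → β → Prop)
    [∀ i, DecidablePred (p i)] [DecidablePred fun t => ∃ i ∈ s, p i t] (f : β → ℝ)
    (hf : ∀ t, 0 ≤ f t) :
    ∑ t ∈ u.filter (fun t => ∃ i ∈ s, p i t), f t ≤ ∑ i ∈ s, ∑ t ∈ u.filter (p i), f t := by
  simp only [Finset.sum_filter]
  rw [Finset.sum_comm]
  refine Finset.sum_le_sum fun t _ => ?_
  have h0 : ∀ i ∈ s, 0 ≤ (if p i t then f t else 0) := fun i _ => by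
    split_ifs
    · exact hf t
    · exact le_rfl
  split_ifs with h
  · obtain ⟨i, hi, hp⟩ := h
    calc f t = if p i t then f t else 0 := by rw [if_pos hp]
      _ ≤ _ := Finset.single_le_sum h0 hi
  · exact Finset.sum_nonneg h0

/-- sum of `1/len^2` over the lines of the rounds `≥ k0` through a given variable -/
theorem sum_through (hJ : e + 2 * P ≤ J) (i : ZMod (2 ^ J) × ZMod (2 ^ J)) (k0 : ℕ) :
    ∑ t ∈ (univ : Finset (Ln e P J)).filter (fun t => i ∈ line t ∧ k0 ≤ (t.1 : ℕ)),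
      (1 / (len t : ℝ) ^ 2) ≤ ∑ k ∈ (univ : Finset (Fin P)).filter (fun k : Fin P => k0 ≤ (k : ℕ)),
        (2 : ℝ) ^ (k : ℕ) / ((2 : ℝ) ^ (e + (k : ℕ))) ^ 2 := by
  classical
  -- map to (k, r)
  let g : Ln e P J → Σ k : Fin P, Fin (2 ^ (k : ℕ)) := fun t => ⟨t.1, t.2.1⟩
  have hinj : Set.InjOn g ((univ : Finset (Ln e P J)).filter
      (fun t => i ∈ line t ∧ k0 ≤ (t.1 : ℕ)) : Set (Ln e P J)) := by
    intro t ht t' ht' h
    simp only [coe_filter, mem_univ, true_and, Set.mem_ofPred_eq] at ht ht'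
    have h1 : (g t).1 = (g t').1 := by rw [h]
    obtain ⟨k, r, β, u⟩ := t
    obtain ⟨k', r', β', u'⟩ := t'
    change k = k' at h1
    subst h1
    have h2 : r = r' := by
      simpa [g] using h
    subst h2
    have m1 := (mem_line hJ _ i).1 ht.1
    have m2 := (mem_line hJ _ i).1 ht'.1
    simp only [len, slope] at m1 m2
    have h3 : β = β' := Fin.ext (by rw [← m1.1, ← m2.1])
    have h4 : u = u' := by rw [m1.2, m2.2]
    subst h3 h4
    rfl
  calc ∑ t ∈ (univ : Finset (Ln e P J)).filter (fun t => i ∈ line t ∧ k0 ≤ (t.1 : ℕ)),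
        (1 / (len t : ℝ) ^ 2)
      = ∑ s ∈ ((univ : Finset (Ln e P J)).filter (fun t => i ∈ line t ∧ k0 ≤ (t.1 : ℕ))).image g,
        (1 / ((2 : ℝ) ^ (e + (s.1 : ℕ))) ^ 2) := by
        rw [Finset.sum_image hinj]
        refine Finset.sum_congr rfl fun t _ => ?_
        simp [g, len]
    _ ≤ ∑ s ∈ (univ : Finset (Σ k : Fin P, Fin (2 ^ (k : ℕ)))).filter (fun s => k0 ≤ (s.1 : ℕ)),
        (1 / ((2 : ℝ) ^ (e + (s.1 : ℕ))) ^ 2) := by
        refine Finset.sum_le_sum_of_subset_of_nonneg ?_ fun _ _ _ => by positivity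
        intro s hs
        rw [Finset.mem_image] at hs
        obtain ⟨t, ht, rfl⟩ := hs
        simp only [mem_filter, mem_univ, true_and] at ht ⊢
        exact ht.2
    _ = ∑ k ∈ (univ : Finset (Fin P)).filter (fun k : Fin P => k0 ≤ (k : ℕ)),
        (2 : ℝ) ^ (k : ℕ) / ((2 : ℝ) ^ (e + (k : ℕ))) ^ 2 := by
        rw [Finset.sum_filter, Finset.sum_filter, Fintype.sum_sigma]
        refine Finset.sum_congr rfl fun k _ => ?_
        by_cases hk : k0 ≤ (k : ℕ)
        · simp [hk]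
          ring
        · simp [hk]

theorem geom_tail (k0 P e : ℕ) :
    ∑ k ∈ (univ : Finset (Fin P)).filter (fun k : Fin P => k0 ≤ (k : ℕ)),
        (2 : ℝ) ^ (k : ℕ) / ((2 : ℝ) ^ (e + (k : ℕ))) ^ 2 ≤ 2 / (2 : ℝ) ^ (2 * e + k0) := by
  have h1 : ∀ k : ℕ, (2 : ℝ) ^ k / ((2 : ℝ) ^ (e + k)) ^ 2 = (1 / (2 : ℝ) ^ (2 * e)) * (1 / 2) ^ k := by
    intro k
    rw [one_div_pow]
    field_simp
    ring
  have h2 : ∑ k ∈ (univ : Finset (Fin P)).filter (fun k : Fin P => k0 ≤ (k : ℕ)),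
        (2 : ℝ) ^ (k : ℕ) / ((2 : ℝ) ^ (e + (k : ℕ))) ^ 2 =
      ∑ k ∈ Finset.Ico k0 P, (1 / (2 : ℝ) ^ (2 * e)) * (1 / 2) ^ k := by
    rw [Finset.sum_filter, Fin.sum_univ_eq_sum_range (fun k => if k0 ≤ k then
      (2 : ℝ) ^ k / ((2 : ℝ) ^ (e + k)) ^ 2 else 0) P, ← Finset.sum_filter]
    rw [show (Finset.range P).filter (fun k => k0 ≤ k) = Finset.Ico k0 P by
      ext k; simp [and_comm]]
    exact Finset.sum_congr rfl fun k _ => h1 k
  rw [h2, ← Finset.mul_sum]
  have h3 : ∑ k ∈ Finset.Ico k0 P, (1 / 2 : ℝ) ^ k ≤ 2 * (1 / 2) ^ k0 := by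
    rcases le_total k0 P with h | h
    · rw [geom_sum_Ico (by norm_num) h]
      have : (0 : ℝ) ≤ (1 / 2) ^ P := by positivity
      have h4 : ((1 / 2 : ℝ) ^ P - (1 / 2) ^ k0) / (1 / 2 - 1) = 2 * (1 / 2) ^ k0 - 2 * (1 / 2) ^ P := by
        ring
      rw [h4]
      linarith
    · rw [Finset.Ico_eq_empty (by omega)]
      simp
  calc (1 / (2 : ℝ) ^ (2 * e)) * ∑ k ∈ Finset.Ico k0 P, (1 / 2 : ℝ) ^ k
      ≤ (1 / (2 : ℝ) ^ (2 * e)) * (2 * (1 / 2) ^ k0) := by
        exact mul_le_mul_of_nonneg_left h3 (by positivity)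
    _ = 2 / (2 : ℝ) ^ (2 * e + k0) := by
      rw [one_div_pow, pow_add]
      field_simp

end DesignAux

open DesignAux in
/-- Existence of designs with `4^J` variables and `4^J` lines for all large `J`. -/
theorem exists_design (ε : ℝ) (hε : 0 < ε) :
    ∃ J0 : ℕ, ∀ J ≥ J0, ∀ (ι : Type) [Fintype ι] [DecidableEq ι], Fintype.card ι = 4 ^ J →
      Nonempty (Design ι (4 ^ J) ε) := by
  classical
  obtain ⟨e, he⟩ : ∃ e : ℕ, 2 / (2 : ℝ) ^ e ≤ ε := by
    obtain ⟨e, he⟩ := exists_pow_lt_of_lt_one (show 0 < ε / 2 by positivity)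
      (show (1 / 2 : ℝ) < 1 by norm_num)
    refine ⟨e, ?_⟩
    rw [one_div_pow, lt_div_iff₀ (by norm_num)] at he
    calc 2 / (2 : ℝ) ^ e = 1 / 2 ^ e * 2 := by ring
      _ ≤ ε := he.le
  refine ⟨e + 2 * 2 ^ e, fun J hJ ι _ _ hι => ?_⟩
  set P := 2 ^ e with hP
  -- enumeration of the lines with nondecreasing round
  have hcard : Fintype.card (Ln e P J) = 4 ^ J := card_Ln hJ hP
  let en0 : Fin (4 ^ J) ≃ Ln e P J := (Fintype.equivFinOfCardEq hcard).symm
  let σ : Equiv.Perm (Fin (4 ^ J)) := Tuple.sort (fun b => ((en0 b).1 : ℕ))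
  have hmono : Monotone (fun b => ((en0 (σ b)).1 : ℕ)) :=
    Tuple.monotone_sort (fun b => ((en0 b).1 : ℕ))
  let en : Fin (4 ^ J) ≃ Ln e P J := σ.trans en0
  -- variables
  have hv : Fintype.card ι = Fintype.card (ZMod (2 ^ J) × ZMod (2 ^ J)) := by
    rw [hι, Fintype.card_prod, ZMod.card]
    rw [show (4 : ℕ) = 2 * 2 by norm_num, mul_pow]
  let φ : ZMod (2 ^ J) × ZMod (2 ^ J) ≃ ι := (Fintype.equivOfCardEq hv).symm
  let L : ℕ → List ι := fun b => if h : b < 4 ^ J then (line (en ⟨b, h⟩)).map φ else []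
  have hL : ∀ b (h : b < 4 ^ J), L b = (line (en ⟨b, h⟩)).map φ := fun b h => by simp [L, h]
  have hmem : ∀ b (h : b < 4 ^ J) (i : ι), i ∈ L b ↔ φ.symm i ∈ line (en ⟨b, h⟩) := by
    intro b h i
    rw [hL b h, List.mem_map]
    constructor
    · rintro ⟨x, hx, rfl⟩
      simpa using hx
    · intro hx
      exact ⟨_, hx, by simp⟩
  have hlen : ∀ b (h : b < 4 ^ J), (L b).length = len (en ⟨b, h⟩) := by
    intro b h
    rw [hL b h, List.length_map, length_line]
  -- transfer of sums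
  have hsum : ∀ (p : ℕ → Prop) [DecidablePred p] (p' : Ln e P J → Prop) [DecidablePred p'],
      (∀ b (h : b < 4 ^ J), p b → p' (en ⟨b, h⟩)) →
      ∑ b ∈ (range (4 ^ J)).filter p, (1 / ((L b).length : ℝ) ^ 2) ≤
        ∑ t ∈ (univ : Finset (Ln e P J)).filter p', (1 / (len t : ℝ) ^ 2) := by
    intro p _ p' _ hpp
    calc ∑ b ∈ (range (4 ^ J)).filter p, (1 / ((L b).length : ℝ) ^ 2)
        = ∑ b ∈ range (4 ^ J), (if p b then (1 / ((L b).length : ℝ) ^ 2) else 0) := by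
          rw [Finset.sum_filter]
      _ = ∑ b : Fin (4 ^ J), (if p b then (1 / ((L b).length : ℝ) ^ 2) else 0) := by
          rw [Fin.sum_univ_eq_sum_range (fun b => if p b then (1 / ((L b).length : ℝ) ^ 2) else 0)]
      _ ≤ ∑ b : Fin (4 ^ J), (if p' (en b) then (1 / (len (en b) : ℝ) ^ 2) else 0) := by
          refine Finset.sum_le_sum fun b _ => ?_
          by_cases hp : p b
          · rw [if_pos hp, if_pos (hpp b b.2 hp), hlen b b.2]
          · rw [if_neg hp]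
            split_ifs <;> positivity
      _ = ∑ t : Ln e P J, (if p' t then (1 / (len t : ℝ) ^ 2) else 0) :=
          Equiv.sum_comp en (fun t => if p' t then (1 / (len t : ℝ) ^ 2) else 0)
      _ = _ := by rw [Finset.sum_filter]
  refine ⟨⟨L, ?_, ?_, ?_, ?_, ?_⟩⟩
  · intro b hb
    rw [hlen b hb]
    exact len_pos _
  · intro b hb
    rw [hL b hb]
    exact (nodup_line hJ _).map φ.injective
  · intro b hb b' hb' hne i j h1 h2 h3 h4
    rw [hmem b hb] at h1 h3
    rw [hmem b' hb'] at h2 h4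
    have hne' : en ⟨b, hb⟩ ≠ en ⟨b', hb'⟩ := by
      intro h
      exact hne (by simpa using congrArg Fin.val (en.injective h))
    exact φ.symm.injective (inter_line hJ hne' h1 h2 h3 h4)
  · intro i
    refine (hsum (fun b => i ∈ L b) (fun t => φ.symm i ∈ line t ∧ 0 ≤ (t.1 : ℕ)) ?_).trans ?_
    · intro b hb h
      exact ⟨(hmem b hb i).1 h, Nat.zero_le _⟩
    · refine (sum_through hJ (φ.symm i) 0).trans ((geom_tail 0 P e).trans (le_trans ?_ he))
      refine div_le_div_of_nonneg_left (by norm_num) (by positivity) ?_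
      exact pow_le_pow_right₀ (by norm_num) (by omega)
  · intro b hb
    refine (hsum (fun b' => b < b' ∧ ∃ i ∈ L b, i ∈ L b')
      (fun t => ∃ i ∈ line (en ⟨b, hb⟩), i ∈ line t ∧ ((en ⟨b, hb⟩).1 : ℕ) ≤ (t.1 : ℕ)) ?_).trans ?_
    · rintro b' hb' ⟨h1, i, hi, hi'⟩
      refine ⟨φ.symm i, (hmem b hb i).1 hi, (hmem b' hb' i).1 hi', ?_⟩
      exact hmono (show (⟨b, hb⟩ : Fin (4 ^ J)) ≤ ⟨b', hb'⟩ from h1.le)
    · set t0 := en ⟨b, hb⟩ with ht0
      calc ∑ t ∈ (univ : Finset (Ln e P J)).filter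
            (fun t => ∃ i ∈ line t0, i ∈ line t ∧ (t0.1 : ℕ) ≤ (t.1 : ℕ)), (1 / (len t : ℝ) ^ 2)
          = ∑ t ∈ (univ : Finset (Ln e P J)).filter
            (fun t => ∃ i ∈ (line t0).toFinset, i ∈ line t ∧ (t0.1 : ℕ) ≤ (t.1 : ℕ)),
              (1 / (len t : ℝ) ^ 2) := by
            simp only [List.mem_toFinset]
        _ ≤ ∑ i ∈ (line t0).toFinset, ∑ t ∈ (univ : Finset (Ln e P J)).filter
            (fun t => i ∈ line t ∧ (t0.1 : ℕ) ≤ (t.1 : ℕ)), (1 / (len t : ℝ) ^ 2) :=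
            sum_exists_le _ _ (fun i t => i ∈ line t ∧ (t0.1 : ℕ) ≤ (t.1 : ℕ)) _
              fun _ => by positivity
        _ ≤ ∑ i ∈ (line t0).toFinset, 2 / (2 : ℝ) ^ (2 * e + t0.1) := by
            refine Finset.sum_le_sum fun i _ => ?_
            exact (sum_through hJ i t0.1).trans (geom_tail _ P e)
        _ ≤ len t0 * (2 / (2 : ℝ) ^ (2 * e + t0.1)) := by
            rw [Finset.sum_const, nsmul_eq_mul]
            refine mul_le_mul_of_nonneg_right ?_ (by positivity)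
            have := List.toFinset_card_le (line t0)
            rw [length_line] at this
            exact_mod_cast this
        _ = 2 / (2 : ℝ) ^ e := by
            unfold len
            push_cast
            rw [show 2 * e + (t0.1 : ℕ) = e + (e + t0.1) by ring, pow_add 2 e (e + _)]
            field_simp
        _ ≤ ε := he

end Crest.Agent.R134
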