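import Crest.Agent.R134.FGWords
import Crest.Agent.R134.Data

/-!
R134 (helper127): traces of words in a free group representation, from `FreeHaar`.
-/

set_option autoImplicit false
set_option linter.unusedSectionVars false

namespace Crest.Agent.R134

open Crest.Agent.R95 FreeGroup

variable {A : Type*} [CStarAlgebra A] {T : TracialState A} {α : Type*} [DecidableEq α]

theorem coe_lift_mk_singleton (U : α → unitary A) (p : α × Bool) :
    ((FreeGroup.lift U (mk [p]) : unitary A) : A) = sg (U p.1 : A) p.2 := by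
  rw [mk_singleton]
  unfold sg
  split_ifs with h
  · rw [lift_apply_of]
  · rw [_root_.map_inv, lift_apply_of]; rfl

theorem coe_lift_mk_cons (U : α → unitary A) (p : α × Bool) (L : List (α × Bool)) :
    ((FreeGroup.lift U (mk (p :: L)) : unitary A) : A) =
      sg (U p.1 : A) p.2 * ((FreeGroup.lift U (mk L) : unitary A) : A) := by
  have e : (mk (p :: L) : FreeGroup α) = mk [p] * mk L := by rw [mul_mk]; rfl
  rw [e, _root_.map_mul, Submonoid.coe_mul, coe_lift_mk_singleton]

theorem sg_mem_wt {G : StarSubalgebra ℂ A} {u : A} (hu : u ∈ G) (b : Bool) : sg u b ∈ G := by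
  unfold sg
  split_ifs
  · exact hu
  · exact star_mem hu

theorem lift_mem {G : StarSubalgebra ℂ A} (U : α → unitary A) (L : List (α × Bool))
    (h : ∀ p ∈ L, (U p.1 : A) ∈ G) : ((FreeGroup.lift U (mk L) : unitary A) : A) ∈ G := by
  induction L with
  | nil =>
    have : (mk ([] : List (α × Bool)) : FreeGroup α) = 1 := rfl
    rw [this, _root_.map_one]
    exact one_mem G
  | cons p L ih =>
    rw [coe_lift_mk_cons]
    exact mul_mem (sg_mem_wt (h p List.mem_cons_self) _)
      (ih (fun q hq => h q (List.mem_cons_of_mem _ hq)))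

theorem dec_wt {G : StarSubalgebra ℂ A} {z : α} (U : α → unitary A)
    (hG : ∀ i, i ≠ z → (U i : A) ∈ G)
    (htr : ∀ k ∈ letterSub {i : α | i ≠ z}, k ≠ 1 →
      T.τ ((FreeGroup.lift U k : unitary A) : A) = 0) :
    ∀ L : List (α × Bool), IsReduced L → ∃ (P : List (α × Bool)) (l : List (Bool × A)),
      (∀ p ∈ P, p.1 ≠ z) ∧ ((l = [] ∧ P = L) ∨ (∃ b g t L', l = (b, g) :: t ∧
        L = P ++ (z, b) :: L')) ∧ (∀ p ∈ l, p.2 ∈ G) ∧ Alt T l ∧
      ((FreeGroup.lift U (mk L) : unitary A) : A) =
        ((FreeGroup.lift U (mk P) : unitary A) : A) * word (U z : A) l := by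
  intro L
  induction L with
  | nil =>
    intro _
    refine ⟨[], [], by simp, Or.inl ⟨rfl, rfl⟩, by simp, trivial, ?_⟩
    simp [word]
  | cons q L ih =>
    intro hL
    have hL' : IsReduced L := List.IsChain.tail hL
    obtain ⟨P, l, hP, hstruct, hlG, halt, heq⟩ := ih hL'
    obtain ⟨i, b⟩ := q
    by_cases hi : i = z
    · subst hi
      refine ⟨[], (b, ((FreeGroup.lift U (mk P) : unitary A) : A)) :: l, by simp,
        Or.inr ⟨b, _, l, L, rfl, rfl⟩, ?_, ?_, ?_⟩
      · intro p hp
        rcases List.mem_cons.1 hp with rfl | hp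
        · exact lift_mem U P (fun p hp => hG _ (hP p hp))
        · exact hlG p hp
      · rcases hstruct with ⟨rfl, rfl⟩ | ⟨b', g, t, L', rfl, rfl⟩
        · trivial
        · refine ⟨fun hb => ?_, halt⟩
          have hPne : P ≠ [] := by
            rintro rfl
            rw [List.nil_append] at hL
            have := (List.isChain_cons_cons.1 hL).1 rfl
            exact hb this
          have hPred : IsReduced P := List.IsChain.left_of_append hL'
          apply htr
          · intro p hp
            rw [toWord_mk, hPred.reduce_eq] at hp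
            exact hP p hp
          · intro h1
            rw [← toWord_eq_nil_iff, toWord_mk, hPred.reduce_eq] at h1
            exact hPne h1
      · rw [coe_lift_mk_cons, heq]
        have e1 : (mk ([] : List (α × Bool)) : FreeGroup α) = 1 := rfl
        rw [e1, _root_.map_one, OneMemClass.coe_one, one_mul]
        simp only [word]
        rw [mul_assoc]
    · refine ⟨(i, b) :: P, l, ?_, ?_, hlG, halt, ?_⟩
      · intro p hp
        rcases List.mem_cons.1 hp with rfl | hp
        · exact hi
        · exact hP p hp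
      · rcases hstruct with ⟨rfl, rfl⟩ | ⟨b', g, t, L', rfl, rfl⟩
        · exact Or.inl ⟨rfl, rfl⟩
        · exact Or.inr ⟨b', g, t, L', rfl, rfl⟩
      · rw [coe_lift_mk_cons, coe_lift_mk_cons, heq, mul_assoc]

theorem word_mul_mem {G : StarSubalgebra ℂ A} {u : A} : ∀ l : List (Bool × A), l ≠ [] →
    (∀ p ∈ l, p.2 ∈ G) → Alt T l → ∀ g ∈ G, ∃ l' : List (Bool × A), l' ≠ [] ∧
      (∀ p ∈ l', p.2 ∈ G) ∧ Alt T l' ∧ word u l * g = word u l' ∧
      (l'.map Prod.fst = l.map Prod.fst) := by
  intro l
  induction l with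
  | nil => intro h; exact absurd rfl h
  | cons p l ih =>
    intro _ hlG halt g hg
    obtain ⟨b, a⟩ := p
    rcases l with _ | ⟨⟨b', a'⟩, l⟩
    · refine ⟨[(b, a * g)], by simp, ?_, trivial, ?_, by simp⟩
      · intro p hp
        rw [List.mem_singleton] at hp
        subst hp
        exact mul_mem (hlG (b, a) List.mem_cons_self) hg
      · simp only [word, mul_one, mul_assoc]
    · obtain ⟨l', hne, hl'G, halt', heq, hmap⟩ := ih (by simp)
        (fun p hp => hlG p (List.mem_cons_of_mem _ hp)) halt.2 g hg
      rcases l' with _ | ⟨⟨b'', a''⟩, l'⟩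
      · exact absurd rfl hne
      · have hb : b'' = b' := by
          simp only [List.map_cons, List.cons.injEq] at hmap
          exact hmap.1
        refine ⟨(b, a) :: (b'', a'') :: l', by simp, ?_, ⟨?_, halt'⟩, ?_, ?_⟩
        · intro p hp
          rcases List.mem_cons.1 hp with rfl | hp
          · exact hlG _ List.mem_cons_self
          · exact hl'G p hp
        · rw [hb]; exact halt.1
        · rw [word, mul_assoc, heq]; rfl
        · simp only [List.map_cons] at hmap ⊢
          rw [hmap]

theorem tau_lift {G : StarSubalgebra ℂ A} {z : α} (U : α → unitary A)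
    (hG : ∀ i, i ≠ z → (U i : A) ∈ G) (hz : FreeHaar T (G : Set A) (U z : A))
    (htr : ∀ k ∈ letterSub {i : α | i ≠ z}, k ≠ 1 →
      T.τ ((FreeGroup.lift U k : unitary A) : A) = 0) (k : FreeGroup α) (hk : k ≠ 1) :
    T.τ ((FreeGroup.lift U k : unitary A) : A) = 0 := by
  obtain ⟨P, l, hP, hstruct, hlG, halt, heq⟩ := dec_wt U hG htr k.toWord isReduced_toWord
  rw [mk_toWord] at heq
  rcases hstruct with ⟨hl, hPk⟩ | ⟨b, g, t, L', hl, -⟩
  · refine htr k ?_ hk
    intro p hp
    rw [← hPk] at hp
    exact hP p hp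
  · rw [heq, T.tr]
    obtain ⟨l', hne, hl'G, halt', heq', -⟩ := word_mul_mem (u := (U z : A)) l (by rw [hl]; simp)
      hlG halt _ (lift_mem U P (fun p hp => hG _ (hP p hp)))
    rw [heq']
    exact hz.2 l' hne hl'G halt'

end Crest.Agent.R134
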