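import Crest.Agent.R134.Icc
import Crest.Agent.R134.WordTrace

/-!
R134 (helper127): two *-free Haar unitaries generate a II₁ factor, hence contain Pauli pairs.
-/

set_option autoImplicit false
set_option linter.unusedSectionVars false

open scoped InnerProductSpace ENNReal
open Filter Topology

namespace Crest.Agent.R134

open Crest.OpAlg Crest.Agent.R95

/-- two *-free Haar unitaries generate an algebra containing commuting Pauli pairs -/
def HasFreePauli {A : Type*} [CStarAlgebra A] (T : TracialState A) : Prop :=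
  ∀ a b : A, a ∈ unitary A → (∀ k : ℕ, 0 < k → T.τ (a ^ k) = 0) → FreeHaar T (W T {a} : Set A) b →
    ∃ u v : ℕ → A, Pairs u v ∧ (∀ j, u j ∈ W T {a, b}) ∧ (∀ j, v j ∈ W T {a, b})

section conc

variable {H : Type*} [NormedAddCommGroup H] [InnerProductSpace ℂ H] [CompleteSpace H]
variable {M : VonNeumannAlgebra H} {ξ : ℕ → H}

/-- from the concrete generated von Neumann algebra to the abstract 2-norm closure -/
theorem mem_W_of_mem_vnGen (hξ : IsFaithfulTracialVectorState M ξ) {s : Set (H →L[ℂ] H)}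
    {S : Set M.toStarSubalgebra}
    (hs : ∀ x ∈ s, ∃ y ∈ StarAlgebra.adjoin ℂ S, (y : H →L[ℂ] H) = x)
    (x : M.toStarSubalgebra) (hx : (x : H →L[ℂ] H) ∈ vnGen s) : x ∈ W (vnTrace hξ) S := by
  intro ε hε
  obtain ⟨y, hy, hyx⟩ := exists_near_of_mem_vnGen (sqSum hξ) hx hε
  have hle : StarAlgebra.adjoin ℂ s ≤ (StarAlgebra.adjoin ℂ S).map M.toStarSubalgebra.subtype := by
    refine StarAlgebra.adjoin_le ?_
    intro z hz
    obtain ⟨w, hw, hwz⟩ := hs z hz
    exact ⟨w, hw, hwz⟩
  obtain ⟨w, hw, hwy⟩ := hle hy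
  refine ⟨w, hw, ?_⟩
  rw [vnTrace_nrm2]
  have e : ((x - w : M.toStarSubalgebra) : H →L[ℂ] H) = (x : H →L[ℂ] H) - y := by
    rw [← hwy]; rfl
  rw [e, N2_sub_comm]
  exact hyx

/-- the concrete representation of a free group attached to unitaries of `M` -/
noncomputable def crep {α : Type*} (U : α → unitary M.toStarSubalgebra) :
    FreeGroup α →* (H →L[ℂ] H) :=
  ((M.toStarSubalgebra.subtype : M.toStarSubalgebra →⋆ₐ[ℂ] (H →L[ℂ] H)) :
    M.toStarSubalgebra →* (H →L[ℂ] H)).comp
    (((unitary M.toStarSubalgebra).subtype).comp (FreeGroup.lift U))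

theorem crep_apply {α : Type*} (U : α → unitary M.toStarSubalgebra) (k : FreeGroup α) :
    crep U k = (((FreeGroup.lift U k : unitary M.toStarSubalgebra) : M.toStarSubalgebra) :
      H →L[ℂ] H) := rfl

theorem crep_mem {α : Type*} (U : α → unitary M.toStarSubalgebra) (k : FreeGroup α) :
    crep U k ∈ M := by
  rw [crep_apply]
  exact ((FreeGroup.lift U k : unitary M.toStarSubalgebra) : M.toStarSubalgebra).2

theorem star_crep {α : Type*} (U : α → unitary M.toStarSubalgebra) (k : FreeGroup α) :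
    star (crep U k) = crep U k⁻¹ := by
  rw [crep_apply, crep_apply, map_inv]
  rfl

theorem lift_mem_adjoin {α : Type*} [DecidableEq α] {A : Type*} [CStarAlgebra A]
    (U : α → unitary A) (k : FreeGroup α) :
    ((FreeGroup.lift U k : unitary A) : A) ∈ StarAlgebra.adjoin ℂ (Set.range fun i => (U i : A)) := by
  rw [← FreeGroup.mk_toWord (x := k)]
  exact lift_mem U _ (fun p _ => StarAlgebra.subset_adjoin ℂ _ ⟨p.1, rfl⟩)

theorem tau_zpow {A : Type*} [CStarAlgebra A] (T : TracialState A) (a : unitary A)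
    (ha : ∀ k : ℕ, 0 < k → T.τ ((a : A) ^ k) = 0) (n : ℤ) (hn : n ≠ 0) :
    T.τ ((a ^ n : unitary A) : A) = 0 := by
  obtain ⟨k, rfl | rfl⟩ := n.eq_nat_or_neg
  · rw [zpow_natCast]
    have := ha k (Nat.pos_of_ne_zero (by simpa using hn))
    simpa using this
  · rw [zpow_neg, zpow_natCast]
    have h1 := ha k (Nat.pos_of_ne_zero (by simpa using hn))
    have h2 : (((a ^ k)⁻¹ : unitary A) : A) = star ((a : A) ^ k) := by
      rw [← Unitary.star_eq_inv]
      simp
    rw [h2, T.star', h1, map_zero]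

theorem hasFreePauli (hξ : IsFaithfulTracialVectorState M ξ) : HasFreePauli (vnTrace hξ) := by
  intro a b ha hta hb
  let U : Fin 2 → unitary M.toStarSubalgebra := ![⟨a, ha⟩, ⟨b, hb.1⟩]
  have hU0 : (U 0 : M.toStarSubalgebra) = a := rfl
  have hU1 : (U 1 : M.toStarSubalgebra) = b := rfl
  have htau : ∀ k : FreeGroup (Fin 2), k ≠ 1 →
      (vnTrace hξ).τ ((FreeGroup.lift U k : unitary M.toStarSubalgebra) : M.toStarSubalgebra) = 0 := by
    refine tau_lift (G := W (vnTrace hξ) {a}) (z := 1) U ?_ ?_ ?_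
    · intro i hi
      have : i = 0 := by omega
      subst this
      rw [hU0]
      exact subset_W _ _ rfl
    · rw [hU1]; exact hb
    · intro k hk hk1
      have e : {i : Fin 2 | i ≠ 1} = {0} := by
        ext i
        simp only [Set.mem_ofPred_eq, Set.mem_singleton_iff]
        omega
      rw [e, letterSub_eq_closure, Set.image_singleton, Subgroup.mem_closure_singleton] at hk
      obtain ⟨n, rfl⟩ := hk
      rw [map_zpow, FreeGroup.lift_apply_of]
      refine tau_zpow _ (U 0) ?_ n ?_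
      · rw [hU0]; exact hta
      · rintro rfl
        exact hk1 (zpow_zero _)
  have hII : IsII1 (vnGen (Set.range (crep U))) ξ := by
    refine isII1_of_icc hξ (crep U) (crep_mem U) (star_crep U) ?_
      (icc_freeGroup (a := (0 : Fin 2)) (b := 1) (by decide))
    intro k hk
    exact htau k hk
  obtain ⟨u, v, huv⟩ := hII.exists_hasPauli
  have hle : vnGen (Set.range (crep U)) ≤ M := vnGen_le (by rintro _ ⟨k, rfl⟩; exact crep_mem U k)
  have hrange : Set.range (fun i => (U i : M.toStarSubalgebra)) ⊆ ({a, b} : Set M.toStarSubalgebra) := by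
    rintro _ ⟨i, rfl⟩
    fin_cases i
    · exact Or.inl rfl
    · exact Or.inr rfl
  have hW : ∀ (x : H →L[ℂ] H) (hx : x ∈ vnGen (Set.range (crep U))),
      (⟨x, hle hx⟩ : M.toStarSubalgebra) ∈ W (vnTrace hξ) {a, b} := by
    intro x hx
    refine mem_W_of_mem_vnGen hξ (s := Set.range (crep U)) ?_ _ hx
    rintro _ ⟨k, rfl⟩
    exact ⟨_, StarAlgebra.adjoin_mono hrange (lift_mem_adjoin U k), rfl⟩
  refine ⟨fun j => ⟨u j, hle (huv.1 j).1⟩, fun j => ⟨v j, hle (huv.1 j).2.1⟩, ⟨?_, ?_⟩,
    fun j => hW _ (huv.1 j).1, fun j => hW _ (huv.1 j).2.1⟩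
  · intro j
    obtain ⟨-, -, h1, h2, h3, h4, h5⟩ := huv.1 j
    exact ⟨Subtype.ext h1, Subtype.ext h2, Subtype.ext h3, Subtype.ext h4, Subtype.ext h5⟩
  · intro j k hjk
    obtain ⟨h1, h2, h3⟩ := huv.2 j k hjk
    exact ⟨Subtype.ext h1, Subtype.ext h2, Subtype.ext h3⟩

end conc

end Crest.Agent.R134
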