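import Crest.Agent.R134.Std

/-!
R134 (helper954): GNS uniqueness and `Std M Ω → Amb h.T`.
-/

set_option autoImplicit false
set_option linter.unusedSectionVars false

open scoped InnerProductSpace
open Filter Topology

namespace Crest.Agent.R134

open Crest.Agent.R95 Crest.OpAlg

universe u

section gns

variable {H K : Type*} [NormedAddCommGroup H] [InnerProductSpace ℂ H] [CompleteSpace H]
  [NormedAddCommGroup K] [InnerProductSpace ℂ K] [CompleteSpace K]

theorem star_prod_map {J : Type*} {σ : J → J} {S : J → H →L[ℂ] H}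
    (hσ : ∀ j, star (S j) = S (σ j)) (l : List J) :
    star (l.map S).prod = ((l.reverse.map σ).map S).prod := by
  induction l with
  | nil => simp
  | cons a l ih => simp [ih, hσ]

theorem inner_word {J : Type*} {σ : J → J} {S : J → H →L[ℂ] H}
    (hσ : ∀ j, star (S j) = S (σ j)) (Ω : H) (l m : List J) :
    ⟪(l.map S).prod Ω, (m.map S).prod Ω⟫_ℂ =
      ⟪Ω, (((l.reverse.map σ) ++ m).map S).prod Ω⟫_ℂ := by
  rw [List.map_append, List.prod_append, ← star_prod_map hσ,
    ContinuousLinearMap.star_eq_adjoint]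
  change _ = ⟪Ω, (ContinuousLinearMap.adjoint (l.map S).prod) ((m.map S).prod Ω)⟫_ℂ
  rw [ContinuousLinearMap.adjoint_inner_right]

/-- GNS uniqueness: two families with the same joint moments are spatially equivalent. -/
theorem exists_lie {J : Type*} {σ : J → J} {S : J → H →L[ℂ] H} {S' : J → K →L[ℂ] K}
    (hσ : ∀ j, star (S j) = S (σ j)) (hσ' : ∀ j, star (S' j) = S' (σ j)) {Ω : H} {Ω' : K}
    (hmom : ∀ l : List J, ⟪Ω, (l.map S).prod Ω⟫_ℂ = ⟪Ω', (l.map S').prod Ω'⟫_ℂ)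
    (hd : Dense (Submodule.span ℂ (Set.range fun l : List J => (l.map S).prod Ω) : Set H))
    (hd' : Dense (Submodule.span ℂ (Set.range fun l : List J => (l.map S').prod Ω') : Set K)) :
    ∃ Φ : H ≃ₗᵢ[ℂ] K, Φ Ω = Ω' ∧ ∀ j x, Φ (S j x) = S' j (Φ x) := by
  let e₁ : (List J →₀ ℂ) →ₗ[ℂ] H :=
    Finsupp.linearCombination ℂ (fun l : List J => (l.map S).prod Ω)
  let e₂ : (List J →₀ ℂ) →ₗ[ℂ] K :=
    Finsupp.linearCombination ℂ (fun l : List J => (l.map S').prod Ω')
  have hr₁ : DenseRange e₁ := by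
    have : Set.range e₁ =
        (Submodule.span ℂ (Set.range fun l : List J => (l.map S).prod Ω) : Set H) := by
      rw [← Finsupp.range_linearCombination]; rfl
    rw [DenseRange, this]; exact hd
  have hr₂ : DenseRange e₂ := by
    have : Set.range e₂ =
        (Submodule.span ℂ (Set.range fun l : List J => (l.map S').prod Ω') : Set K) := by
      rw [← Finsupp.range_linearCombination]; rfl
    rw [DenseRange, this]; exact hd'
  have hin : ∀ v : List J →₀ ℂ, ⟪e₂ v, e₂ v⟫_ℂ = ⟪e₁ v, e₁ v⟫_ℂ := by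
    intro v
    simp only [e₁, e₂, Finsupp.linearCombination_apply, Finsupp.sum, sum_inner, inner_sum,
      inner_smul_left, inner_smul_right]
    refine Finset.sum_congr rfl fun l _ => ?_
    congr 1
    refine Finset.sum_congr rfl fun m _ => ?_
    rw [inner_word hσ, inner_word hσ', hmom]
  have hnorm : ∀ v : List J →₀ ℂ, ‖e₂ ((LinearEquiv.refl ℂ (List J →₀ ℂ)) v)‖ = ‖e₁ v‖ := by
    intro v
    have h1 := hin v
    rw [inner_self_eq_norm_sq_to_K, inner_self_eq_norm_sq_to_K] at h1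
    have h2 : ‖e₂ v‖ ^ 2 = ‖e₁ v‖ ^ 2 := by exact_mod_cast h1
    simpa using (sq_eq_sq₀ (norm_nonneg _) (norm_nonneg _)).1 h2
  let Φ := (LinearEquiv.refl ℂ (List J →₀ ℂ)).extendOfIsometry e₁ e₂ hr₁ hr₂ hnorm
  have hΦ : ∀ v, Φ (e₁ v) = e₂ v := fun v =>
    LinearEquiv.extendOfIsometry_eq (LinearEquiv.refl ℂ (List J →₀ ℂ)) e₁ e₂ hr₁ hr₂ hnorm v
  have hw : ∀ l : List J, Φ ((l.map S).prod Ω) = (l.map S').prod Ω' := by
    intro l
    have := hΦ (Finsupp.single l 1)
    simpa [e₁, e₂] using this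
  refine ⟨Φ, by simpa using hw [], fun j => ?_⟩
  have hcl : IsClosed {x : H | Φ (S j x) = S' j (Φ x)} :=
    isClosed_eq (Φ.continuous.comp (S j).continuous) ((S' j).continuous.comp Φ.continuous)
  have hall : {x : H | Φ (S j x) = S' j (Φ x)} = Set.univ := by
    refine Set.eq_univ_of_forall fun x => ?_
    refine hr₁.induction_on x hcl fun v => ?_
    change Φ (S j (e₁ v)) = S' j (Φ (e₁ v))
    induction v using Finsupp.induction_linear with
    | zero => simp
    | add f g hf hg => simp only [map_add, hf, hg]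
    | single l c =>
      have e1 : e₁ (Finsupp.single l c) = c • ((l.map S).prod Ω) := by simp [e₁]
      rw [e1, map_smul, map_smul, map_smul, map_smul, hw]
      have h2 := hw (j :: l)
      simp only [List.map_cons, List.prod_cons] at h2
      have h3 : S j ((l.map S).prod Ω) = (S j * (l.map S).prod) Ω := rfl
      rw [h3, h2]; rfl
  intro x
  have : x ∈ {x : H | Φ (S j x) = S' j (Φ x)} := by rw [hall]; trivial
  exact this

end gns

section std

variable {H : Type u} [NormedAddCommGroup H] [InnerProductSpace ℂ H] [CompleteSpace H]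
  {M : VonNeumannAlgebra H} {Ω : H}

theorem tr_vec (Ω : H) (x : H →L[ℂ] H) : tr (vec Ω) x = ⟪Ω, x Ω⟫_ℂ := by
  rw [tr, vectorState, tsum_eq_single 0]
  · simp [vec]
  · intro n hn; simp [vec, hn]

theorem N2_vec (Ω : H) (x : H →L[ℂ] H) : N2 (vec Ω) x = ‖x Ω‖ := by
  rw [N2, traceNormSq, tsum_eq_single 0]
  · simp [vec, Real.sqrt_sq]
  · intro n hn; simp [vec, hn]

theorem Std.tau (h : Std M Ω) (x : M.toStarSubalgebra) :
    h.T.τ x = ⟪Ω, (x : H →L[ℂ] H) Ω⟫_ℂ := tr_vec Ω _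

theorem Std.nrm2 (h : Std M Ω) (x : M.toStarSubalgebra) :
    h.T.nrm2 x = ‖(x : H →L[ℂ] H) Ω‖ := by
  rw [vnTrace_nrm2, N2_vec]

theorem coe_prod_map {J : Type*} (S : J → M.toStarSubalgebra) (l : List J) :
    (((l.map S).prod : M.toStarSubalgebra) : H →L[ℂ] H) =
      (l.map fun j => (S j : H →L[ℂ] H)).prod := by
  induction l with
  | nil => rfl
  | cons a l ih => simp [ih]

/-- the span of the words is the generated star algebra -/
theorem adjoin_eq_span_words {A : Type*} [Ring A] [StarRing A] [Algebra ℂ A] [StarModule ℂ A]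
    {J : Type*} {σ : J → J} {S : J → A} (hσ : ∀ j, star (S j) = S (σ j)) :
    ∀ x ∈ StarAlgebra.adjoin ℂ (Set.range S),
      x ∈ Submodule.span ℂ (Set.range fun l : List J => (l.map S).prod) := by
  intro x hx
  have h1 : (StarAlgebra.adjoin ℂ (Set.range S)).toSubalgebra =
      Algebra.adjoin ℂ (Set.range S ∪ star (Set.range S)) :=
    StarAlgebra.adjoin_toSubalgebra ℂ _
  have h2 : Set.range S ∪ star (Set.range S) = Set.range S := by
    rw [Set.union_eq_left]
    rintro y ⟨j, hj⟩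
    refine ⟨σ j, ?_⟩
    rw [← hσ, hj, star_star]
  have hx' : x ∈ Algebra.adjoin ℂ (Set.range S) := by
    rw [← h2, ← h1]; exact hx
  rw [← Subalgebra.mem_toSubmodule, Algebra.adjoin_eq_span] at hx'
  refine Submodule.span_mono ?_ hx'
  intro y hy
  induction hy using Submonoid.closure_induction with
  | mem y hy => obtain ⟨j, rfl⟩ := hy; exact ⟨[j], by simp⟩
  | one => exact ⟨[], rfl⟩
  | mul a b _ _ ha hb =>
    obtain ⟨l, rfl⟩ := ha
    obtain ⟨m, rfl⟩ := hb
    exact ⟨l ++ m, by simp⟩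

theorem Std.dense_words (h : Std M Ω) {J : Type*} {σ : J → J} {S : J → M.toStarSubalgebra}
    (hσ : ∀ j, star (S j) = S (σ j)) (hgen : ∀ x, x ∈ W h.T (Set.range S)) :
    Dense (Submodule.span ℂ (Set.range fun l : List J =>
      (l.map fun j => (S j : H →L[ℂ] H)).prod Ω) : Set H) := by
  set V := Submodule.span ℂ (Set.range fun l : List J =>
      (l.map fun j => (S j : H →L[ℂ] H)).prod Ω) with hV
  have hmem : ∀ x ∈ StarAlgebra.adjoin ℂ (Set.range S), (x : H →L[ℂ] H) Ω ∈ V := by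
    intro x hx
    have h1 := adjoin_eq_span_words hσ x hx
    refine Submodule.span_induction
      (p := fun (x : M.toStarSubalgebra) _ => (x : H →L[ℂ] H) Ω ∈ V) ?_ ?_ ?_ ?_ h1
    · rintro _ ⟨l, rfl⟩
      refine Submodule.subset_span ⟨l, ?_⟩
      change _ = (((l.map S).prod : M.toStarSubalgebra) : H →L[ℂ] H) Ω
      rw [coe_prod_map]
    · change (0 : H →L[ℂ] H) Ω ∈ V
      simp
    · intro a b _ _ ha hb
      change ((a : H →L[ℂ] H) + (b : H →L[ℂ] H)) Ω ∈ V
      exact V.add_mem ha hb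
    · intro c a _ ha
      change (c • (a : H →L[ℂ] H)) Ω ∈ V
      exact V.smul_mem c ha
  intro y
  rw [Metric.mem_closure_iff]
  intro ε hε
  obtain ⟨_, ⟨x, hx, rfl⟩, hxy⟩ := Metric.mem_closure_iff.1 (h.cyc y) (ε / 2) (by positivity)
  obtain ⟨z, hz, hzx⟩ := hgen ⟨x, hx⟩ (ε / 2) (by positivity)
  refine ⟨(z : H →L[ℂ] H) Ω, hmem z hz, ?_⟩
  rw [h.nrm2] at hzx
  have h2 : dist (x Ω) ((z : H →L[ℂ] H) Ω) < ε / 2 := by
    rw [dist_eq_norm]; exact hzx
  calc dist y ((z : H →L[ℂ] H) Ω) ≤ dist y (x Ω) + dist (x Ω) ((z : H →L[ℂ] H) Ω) :=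
        dist_triangle _ _ _
    _ < ε := by linarith

/-- a von Neumann subalgebra with dense orbit of the trace vector is everything -/
theorem Std.mem_of_dense (h : Std M Ω) {N : VonNeumannAlgebra H} (hN : ∀ x ∈ N, x ∈ M)
    (hd : ∀ x ∈ M, ∀ ε > 0, ∃ y ∈ N, ‖(x - y) Ω‖ < ε) : ∀ x ∈ M, x ∈ N := by
  intro x hx
  refine mem_of_forall_N2_lt h.ft hN hx fun ε hε => ?_
  obtain ⟨y, hy, hxy⟩ := hd x hx ε hε
  refine ⟨y, hy, ?_⟩
  rw [N2_sub_comm, N2_vec]; exact hxy

/-- conjugation by `Φ` maps `vnGen S` to `vnGen S'` when `Φ S_j Φ* = S'_j`. -/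
theorem conj_mem_vnGen {K : Type*} [NormedAddCommGroup K] [InnerProductSpace ℂ K]
    [CompleteSpace K] {J : Type*} {S : J → H →L[ℂ] H} {S' : J → K →L[ℂ] K} (Φ : H ≃ₗᵢ[ℂ] K)
    (hΦ : ∀ j, Φ.conjStarAlgEquiv (S j) = S' j) {x : H →L[ℂ] H}
    (hx : x ∈ vnGen (Set.range S)) : Φ.conjStarAlgEquiv x ∈ vnGen (Set.range S') := by
  rw [← SetLike.mem_coe, coe_vnGen] at hx ⊢
  intro y hy
  have hy' : Φ.conjStarAlgEquiv.symm y ∈ (Set.range S ∪ star (Set.range S)).centralizer := by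
    intro s hs
    have hs' : Φ.conjStarAlgEquiv s ∈ Set.range S' ∪ star (Set.range S') := by
      rcases hs with ⟨j, rfl⟩ | ⟨j, hj⟩
      · exact Or.inl ⟨j, (hΦ j).symm⟩
      · refine Or.inr ⟨j, ?_⟩
        rw [← hΦ, hj, map_star]
    have h1 := hy _ hs'
    apply EquivLike.injective Φ.conjStarAlgEquiv
    rw [map_mul, map_mul, StarAlgEquiv.apply_symm_apply]
    exact h1
  have h2 := hx _ hy'
  have h3 := congrArg Φ.conjStarAlgEquiv h2
  rw [map_mul, map_mul, StarAlgEquiv.apply_symm_apply] at h3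
  exact h3

theorem Std.mem_vnGen (h : Std M Ω) {J : Type*} {S : J → M.toStarSubalgebra}
    (hgen : ∀ x, x ∈ W h.T (Set.range S)) (x : M.toStarSubalgebra) :
    (x : H →L[ℂ] H) ∈ vnGen (Set.range fun j => (S j : H →L[ℂ] H)) := by
  have hle : vnGen (Set.range fun j => (S j : H →L[ℂ] H)) ≤ M := by
    refine vnGen_le ?_
    rintro _ ⟨j, rfl⟩
    exact (S j).2
  refine h.mem_of_dense (N := vnGen (Set.range fun j => (S j : H →L[ℂ] H)))
    (fun y hy => hle hy) ?_ x x.2
  intro y hy ε hε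
  obtain ⟨z, hz, hzy⟩ := hgen ⟨y, hy⟩ ε hε
  refine ⟨z, ?_, ?_⟩
  · have h1 : StarAlgebra.adjoin ℂ (Set.range S) ≤
        (vnGen (Set.range fun j => (S j : H →L[ℂ] H))).toStarSubalgebra.comap
          M.toStarSubalgebra.subtype := by
      rw [StarAlgebra.adjoin_le_iff]
      rintro _ ⟨j, rfl⟩
      exact subset_vnGen _ _ ⟨j, rfl⟩
    exact h1 hz
  · rw [h.nrm2] at hzy
    exact hzy

theorem Std.amb (h : Std M Ω) : Amb h.T where
  faithful a ha := by
    rw [vnTrace_nrm2] at ha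
    exact Subtype.ext (eq_zero_of_N2 h.ft a.2 ha)
  complete x C hC hcauchy := by
    obtain ⟨y, hy, hyC, hlim, -⟩ := exists_lim_of_cauchy h.ft (x := fun k => (x k : H →L[ℂ] H))
      (fun k => (x k).2) hC (fun ε hε => by
        obtain ⟨N, hN⟩ := hcauchy ε hε
        refine ⟨N, fun m hm n hn => ?_⟩
        have := hN m hm n hn
        rw [vnTrace_nrm2] at this
        exact this)
    refine ⟨⟨y, hy⟩, hyC, ?_⟩
    refine hlim.congr fun k => ?_
    rw [vnTrace_nrm2]
    rfl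
  ext J σ S S' hσ hσ' hmom hgen hgen' := by
    have hσ₀ : ∀ j, star (S j) = S (σ j) := fun j => (hσ j).symm
    have hσ₀' : ∀ j, star (S' j) = S' (σ j) := fun j => (hσ' j).symm
    have hσ₁ : ∀ j, star ((S j : H →L[ℂ] H)) = S (σ j) := fun j => congrArg Subtype.val (hσ₀ j)
    have hσ₂ : ∀ j, star ((S' j : H →L[ℂ] H)) = S' (σ j) := fun j => congrArg Subtype.val (hσ₀' j)
    obtain ⟨Φ, hΦΩ, hΦ⟩ := exists_lie (Ω := Ω) (Ω' := Ω) hσ₁ hσ₂ (fun l => by
      have := hmom l
      rw [h.tau, h.tau, coe_prod_map, coe_prod_map] at this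
      exact this) (h.dense_words hσ₀ hgen) (h.dense_words hσ₀' hgen')
    have hconj : ∀ j, Φ.conjStarAlgEquiv (S j : H →L[ℂ] H) = S' j := by
      intro j
      ext y
      rw [LinearIsometryEquiv.conjStarAlgEquiv_apply_apply, hΦ, Φ.apply_symm_apply]
    have hconj' : ∀ j, Φ.symm.conjStarAlgEquiv (S' j : H →L[ℂ] H) = S j := by
      intro j
      rw [← hconj]
      ext y; simp
    have hmap : ∀ x : M.toStarSubalgebra, Φ.conjStarAlgEquiv (x : H →L[ℂ] H) ∈ M := by
      intro x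
      have h1 := conj_mem_vnGen Φ hconj (h.mem_vnGen hgen x)
      refine vnGen_le ?_ h1
      rintro _ ⟨j, rfl⟩
      exact (S' j).2
    have hmap' : ∀ x : M.toStarSubalgebra, Φ.symm.conjStarAlgEquiv (x : H →L[ℂ] H) ∈ M := by
      intro x
      have h1 := conj_mem_vnGen Φ.symm hconj' (h.mem_vnGen hgen' x)
      refine vnGen_le ?_ h1
      rintro _ ⟨j, rfl⟩
      exact (S j).2
    let α : M.toStarSubalgebra ≃⋆ₐ[ℂ] M.toStarSubalgebra :=
      { toFun := fun x => ⟨Φ.conjStarAlgEquiv (x : H →L[ℂ] H), hmap x⟩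
        invFun := fun x => ⟨Φ.symm.conjStarAlgEquiv (x : H →L[ℂ] H), hmap' x⟩
        left_inv := fun x => by
          apply Subtype.ext
          ext y; simp
        right_inv := fun x => by
          apply Subtype.ext
          ext y; simp
        map_mul' := fun x y => Subtype.ext (map_mul Φ.conjStarAlgEquiv _ _)
        map_add' := fun x y => Subtype.ext (map_add Φ.conjStarAlgEquiv _ _)
        map_star' := fun x => Subtype.ext (map_star Φ.conjStarAlgEquiv _)
        map_smul' := fun c x => Subtype.ext (map_smul Φ.conjStarAlgEquiv c _) }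
    refine ⟨α, fun x => ?_, fun j => Subtype.ext (hconj j)⟩
    rw [h.tau, h.tau]
    change ⟪Ω, Φ ((x : H →L[ℂ] H) (Φ.symm Ω))⟫_ℂ = _
    have h1 : Φ.symm Ω = Ω := by rw [LinearIsometryEquiv.symm_apply_eq, hΦΩ]
    rw [h1]
    calc ⟪Ω, Φ ((x : H →L[ℂ] H) Ω)⟫_ℂ = ⟪Φ Ω, Φ ((x : H →L[ℂ] H) Ω)⟫_ℂ := by rw [hΦΩ]
      _ = _ := Φ.inner_map_map _ _

end std

end Crest.Agent.R134
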