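import Crest.Agent.R134.GroupSide
import Crest.Agent.R134.FreePauli
import Crest.Agent.R134.GNS

/-!
R134 (helper127): the concrete algebra `L(F_N)`: freeness of the generators, and the final
isomorphism from a generating free family.
-/

set_option autoImplicit false
set_option linter.unusedSectionVars false

open scoped InnerProductSpace ENNReal
open Filter Topology

namespace Crest.Agent.R134

open Crest.OpAlg Crest.Agent.R95

section std

variable (G : Type*) [Group G] [DecidableEq G]

theorem dense_span_dl : Dense (Submodule.span ℂ (Set.range fun g : G => (dl g : ltwo G)) :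
    Set (ltwo G)) := by
  rw [Metric.dense_iff]
  intro v ε hε
  obtain ⟨s, hs⟩ := exists_finset_approx v hε
  refine ⟨_, ?_, sum_mem (t := s) (f := fun g => (v : ltwo G) g • (dl g : ltwo G))
    (fun g _ => Submodule.smul_mem _ _ (Submodule.subset_span ⟨g, rfl⟩))⟩
  rw [Metric.mem_ball, dist_eq_norm]
  exact hs

/-- `L(G)` is in standard form -/
theorem stdG : Std (groupVNA G) (dl (1 : G) : ltwo G) where
  ft := xi_tracial
  cyc := by
    refine (dense_span_dl G).mono ?_
    intro v hv
    induction hv using Submodule.span_induction with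
    | mem v hv =>
      obtain ⟨g, rfl⟩ := hv
      exact ⟨leftRegular g, leftRegular_mem g, by rw [leftRegular_dl, mul_one]⟩
    | zero => exact ⟨0, zero_mem _, rfl⟩
    | add v w _ _ hv hw =>
      obtain ⟨x, hx, rfl⟩ := hv
      obtain ⟨y, hy, rfl⟩ := hw
      exact ⟨x + y, add_mem hx hy, rfl⟩
    | smul c v _ hv =>
      obtain ⟨x, hx, rfl⟩ := hv
      exact ⟨c • x, smul_mem' c hx, rfl⟩

/-- the tracial state of `L(G)` -/
noncomputable abbrev TG : TracialState (groupVNA G).toStarSubalgebra := (stdG G).T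

variable {G}

theorem TG_tau (x : (groupVNA G).toStarSubalgebra) :
    (TG G).τ x = groupTrace G (x : ltwo G →L[ℂ] ltwo G) := by
  rw [← vectorState_xi]
  rfl

theorem TG_nrm2 (x : (groupVNA G).toStarSubalgebra) :
    (TG G).nrm2 x = ‖(x : ltwo G →L[ℂ] ltwo G) (dl 1)‖ := by
  rw [← N2_xi]
  exact vnTrace_nrm2 _ _

/-- the canonical unitaries of `L(G)` -/
noncomputable def lam (g : G) : (groupVNA G).toStarSubalgebra := ⟨leftRegular g, leftRegular_mem g⟩

theorem coe_lam (g : G) : ((lam g : (groupVNA G).toStarSubalgebra) : ltwo G →L[ℂ] ltwo G) =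
    leftRegular g := rfl

theorem lam_mul (g h : G) : (lam (g * h) : (groupVNA G).toStarSubalgebra) = lam g * lam h :=
  Subtype.ext (leftRegular_mul g h)

theorem lam_one : (lam (1 : G) : (groupVNA G).toStarSubalgebra) = 1 :=
  Subtype.ext leftRegular_one

theorem star_lam (g : G) : star (lam g : (groupVNA G).toStarSubalgebra) = lam g⁻¹ :=
  Subtype.ext (star_leftRegular g)

theorem lam_unitary (g : G) : (lam g : (groupVNA G).toStarSubalgebra) ∈ unitary _ := by
  rw [Unitary.mem_iff, star_lam, ← lam_mul, ← lam_mul]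
  simp [lam_one]

/-- `λ` as a homomorphism to the unitary group -/
noncomputable def lamU : G →* unitary (groupVNA G).toStarSubalgebra where
  toFun g := ⟨lam g, lam_unitary g⟩
  map_one' := Subtype.ext lam_one
  map_mul' g h := Subtype.ext (lam_mul g h)

theorem coe_lamU (g : G) : ((lamU g : unitary (groupVNA G).toStarSubalgebra) :
    (groupVNA G).toStarSubalgebra) = lam g := rfl

theorem tau_lam (g : G) (hg : g ≠ 1) : (TG G).τ (lam g) = 0 := by
  rw [TG_tau, coe_lam, groupTrace_eq, leftRegular_dl, mul_one, inner_dl_dl, if_neg (Ne.symm hg)]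

theorem coe_mem_of_mem_W {N : VonNeumannAlgebra (ltwo G)} (hN : N ≤ groupVNA G)
    {S : Set (groupVNA G).toStarSubalgebra} (hS : ∀ s ∈ S, (s : ltwo G →L[ℂ] ltwo G) ∈ N)
    {x : (groupVNA G).toStarSubalgebra} (hx : x ∈ W (TG G) S) :
    (x : ltwo G →L[ℂ] ltwo G) ∈ N := by
  refine mem_of_forall_N2_lt xi_tracial hN x.2 (fun ε hε => ?_)
  obtain ⟨a, ha, hxa⟩ := hx ε hε
  refine ⟨(a : ltwo G →L[ℂ] ltwo G), ?_, ?_⟩
  · have hle : StarAlgebra.adjoin ℂ S ≤
        N.toStarSubalgebra.comap (groupVNA G).toStarSubalgebra.subtype :=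
      StarAlgebra.adjoin_le (fun s hs => hS s hs)
    exact hle ha
  · rw [TG_nrm2] at hxa
    rw [N2_sub_comm, N2_xi]
    exact hxa

theorem iso_of_gens {n : ℕ} (U : Fin n → unitary (groupVNA G).toStarSubalgebra)
    (htau : ∀ k : FreeGroup (Fin n), k ≠ 1 → (TG G).τ ((FreeGroup.lift U k :
      unitary (groupVNA G).toStarSubalgebra) : (groupVNA G).toStarSubalgebra) = 0)
    (hgen : ∀ z, z ∈ W (TG G) (Set.range fun i => (U i : (groupVNA G).toStarSubalgebra))) :
    ∃ Φ : (groupVNA (FreeGroup (Fin n))).toStarSubalgebra ≃⋆ₐ[ℂ] (groupVNA G).toStarSubalgebra,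
      ∀ x : (groupVNA (FreeGroup (Fin n))).toStarSubalgebra,
        groupTrace G ((Φ x : (groupVNA G).toStarSubalgebra) : ltwo G →L[ℂ] ltwo G) =
          groupTrace (FreeGroup (Fin n)) (x : ltwo (FreeGroup (Fin n)) →L[ℂ] ltwo (FreeGroup (Fin n))) := by
  refine transport (crep U) (crep_mem U) (star_crep U) ?_ ?_
  · intro k hk
    rw [crep_apply, ← TG_tau]
    exact htau k hk
  · rw [top_le_iff, ← Submodule.dense_iff_topologicalClosure_eq_top]
    have h1 : (Set.range fun g : G => (dl g : ltwo G)) ⊆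
        (Submodule.span ℂ (Set.range fun k => crep U k (dl 1))).topologicalClosure := by
      rintro _ ⟨g, rfl⟩
      change dl g ∈ closure _
      rw [Metric.mem_closure_iff]
      intro ε hε
      obtain ⟨a, ha, hga⟩ := hgen (lam g) ε hε
      have hle : (StarAlgebra.adjoin ℂ (Set.range fun i => (U i : (groupVNA G).toStarSubalgebra))) ≤
          (spanSub (crep U) (star_crep U)).comap (groupVNA G).toStarSubalgebra.subtype := by
        refine StarAlgebra.adjoin_le ?_
        rintro _ ⟨i, rfl⟩
        refine Submodule.subset_span ⟨FreeGroup.of i, ?_⟩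
        rw [crep_apply, FreeGroup.lift_apply_of]
        rfl
      have h2 : (a : ltwo G →L[ℂ] ltwo G) ∈ Submodule.span ℂ (Set.range (crep U)) := hle ha
      refine ⟨(a : ltwo G →L[ℂ] ltwo G) (dl 1), ?_, ?_⟩
      · have hmap : (Submodule.span ℂ (Set.range fun k => crep U k (dl 1))) =
            (Submodule.span ℂ (Set.range (crep U))).map
              ((ContinuousLinearMap.apply ℂ (ltwo G) (dl 1)).toLinearMap) := by
          rw [Submodule.map_span, ← Set.range_comp]
          rfl
        rw [hmap]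
        exact ⟨_, h2, rfl⟩
      · rw [TG_nrm2] at hga
        rw [dist_eq_norm]
        have e : ((lam g - a : (groupVNA G).toStarSubalgebra) : ltwo G →L[ℂ] ltwo G) (dl 1) =
            dl g - (a : ltwo G →L[ℂ] ltwo G) (dl 1) := by
          change (leftRegular g) (dl 1) - _ = _
          rw [leftRegular_dl, mul_one]
          rfl
        rw [← e]
        exact hga
    have h3 : (Submodule.span ℂ (Set.range fun g : G => (dl g : ltwo G)) : Set (ltwo G)) ⊆
        (Submodule.span ℂ (Set.range fun k => crep U k (dl 1))).topologicalClosure :=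
      Submodule.span_le.2 h1
    have h4 := (dense_span_dl G).mono h3
    rw [Submodule.dense_iff_topologicalClosure_eq_top] at h4 ⊢
    rw [← h4]
    exact (Submodule.isClosed_topologicalClosure _).submodule_topologicalClosure_eq.symm

end std

section free

variable {α : Type*} [DecidableEq α]

/-- the set of generators `λ(a)`, `a ∈ E` -/
noncomputable def gens (E : Set α) : Set (groupVNA (FreeGroup α)).toStarSubalgebra :=
  (fun a => lam (FreeGroup.of a)) '' E

theorem suppIn_of_mem_W {E : Set α} {x : (groupVNA (FreeGroup α)).toStarSubalgebra}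
    (hx : x ∈ W (TG (FreeGroup α)) (gens E)) :
    SuppIn (letterSub E : Set (FreeGroup α))
      ((x : ltwo (FreeGroup α) →L[ℂ] ltwo (FreeGroup α)) (dl 1)) := by
  apply suppIn_of_mem_vH
  refine coe_mem_of_mem_W (vH_le _) ?_ hx
  rintro _ ⟨a, ha, rfl⟩
  exact leftRegular_mem_vH (of_mem_letterSub ha)

theorem SuppIn.left {G : Type*} [Group G] [DecidableEq G] {B C : Set G} {v : ltwo G}
    (hv : SuppIn B v) (g : G) (h : ∀ b ∈ B, g * b ∈ C) : SuppIn C (leftRegular g v) := by
  intro k hk
  rw [leftRegular_apply]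
  refine hv _ (fun hb => hk ?_)
  have := h _ hb
  rwa [mul_inv_cancel_left] at this

theorem sg_lam (z : α) (b : Bool) :
    ((sg (lam (FreeGroup.of z)) b : (groupVNA (FreeGroup α)).toStarSubalgebra) :
      ltwo (FreeGroup α) →L[ℂ] ltwo (FreeGroup α)) = leftRegular (FreeGroup.mk [(z, b)]) := by
  rw [mk_singleton]
  unfold sg
  split_ifs
  · rfl
  · rw [star_lam]; rfl

/-- the vector `x δ` -/
noncomputable def vc {G : Type*} [Group G] [DecidableEq G] (x : (groupVNA G).toStarSubalgebra) :
    ltwo G := (x : ltwo G →L[ℂ] ltwo G) (dl 1)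

theorem vc_mul {G : Type*} [Group G] [DecidableEq G] (x y : (groupVNA G).toStarSubalgebra) :
    vc (x * y) = (x : ltwo G →L[ℂ] ltwo G) (vc y) := rfl

theorem suppIn_word {E : Set α} {z : α} (hz : z ∉ E) :
    ∀ (L : List (Bool × (groupVNA (FreeGroup α)).toStarSubalgebra)) (b : Bool)
      (a : (groupVNA (FreeGroup α)).toStarSubalgebra),
      (∀ p ∈ (b, a) :: L, p.2 ∈ (W (TG (FreeGroup α)) (gens E) : Set _)) →
      Alt (TG (FreeGroup α)) ((b, a) :: L) →
      SuppIn (FreeGroup.startsWith (z, b)) (vc (word (lam (FreeGroup.of z)) ((b, a) :: L))) := by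
  intro L
  induction L with
  | nil =>
    intro b a hmem _
    have ha := suppIn_of_mem_W (hmem (b, a) List.mem_cons_self)
    have e : vc (word (lam (FreeGroup.of z)) [(b, a)]) = leftRegular (FreeGroup.mk [(z, b)])
          ((a : ltwo (FreeGroup α) →L[ℂ] ltwo (FreeGroup α)) (dl 1)) := by
      rw [← sg_lam]
      simp only [word, mul_one]
      rfl
    rw [e]
    exact ha.left _ (fun h hh => start_mul' hz hh)
  | cons q L ih =>
    intro b a hmem halt
    obtain ⟨b', a'⟩ := q
    have hv := ih b' a' (fun p hp => hmem p (List.mem_cons_of_mem _ hp)) halt.2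
    have ha := suppIn_of_mem_W (hmem (b, a) List.mem_cons_self)
    set v := vc (word (lam (FreeGroup.of z)) ((b', a') :: L)) with hvdef
    have e : vc (word (lam (FreeGroup.of z)) ((b, a) :: (b', a') :: L)) =
        leftRegular (FreeGroup.mk [(z, b)])
          ((a : ltwo (FreeGroup α) →L[ℂ] ltwo (FreeGroup α)) v) := by
      rw [← sg_lam, hvdef]
      rw [word, mul_assoc, vc_mul, vc_mul]
    rw [e]
    by_cases hb : b = b'
    · have h1 : SuppIn {k | ∃ h ∈ letterSub E, ∃ w ∈ FreeGroup.startsWith (z, b'), k = h * w}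
          ((a : ltwo (FreeGroup α) →L[ℂ] ltwo (FreeGroup α)) v) :=
        SuppIn.apply a.2 ha hv (fun h hh w hw => ⟨h, hh, w, hw, rfl⟩)
      refine h1.left _ ?_
      rintro _ ⟨h, hh, w, hw, rfl⟩
      exact start_mul hz hh hw (fun hne => absurd hb hne)
    · have hτ : (TG (FreeGroup α)).τ a = 0 := halt.1 hb
      have ha' : SuppIn {h | h ∈ letterSub E ∧ h ≠ 1}
          ((a : ltwo (FreeGroup α) →L[ℂ] ltwo (FreeGroup α)) (dl 1)) := by
        intro h hh
        by_cases h1 : h = 1
        · rw [TG_tau, groupTrace_eq, inner_dl_left] at hτ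
          rw [h1]; exact hτ
        · exact ha h (fun h2 => hh ⟨h2, h1⟩)
      have h1 : SuppIn {k | ∃ h ∈ letterSub E, h ≠ 1 ∧ ∃ w ∈ FreeGroup.startsWith (z, b'), k = h * w}
          ((a : ltwo (FreeGroup α) →L[ℂ] ltwo (FreeGroup α)) v) :=
        SuppIn.apply a.2 ha' hv (fun h hh w hw => ⟨h, hh.1, hh.2, w, hw, rfl⟩)
      refine h1.left _ ?_
      rintro _ ⟨h, hh, hne, w, hw, rfl⟩
      exact start_mul hz hh hw (fun _ => hne)

/-- the generator `λ(z)` is a Haar unitary free from the algebra of the generators in `E ∌ z`. -/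
theorem freeHaar_lam {E : Set α} {z : α} (hz : z ∉ E) :
    FreeHaar (TG (FreeGroup α)) (W (TG (FreeGroup α)) (gens E) : Set _)
      (lam (FreeGroup.of z)) := by
  refine ⟨lam_unitary _, ?_⟩
  intro L hL hmem halt
  obtain ⟨⟨b, a⟩, t, rfl⟩ := List.exists_cons_of_ne_nil hL
  have h := suppIn_word hz t b a hmem halt
  rw [TG_tau, groupTrace_eq, inner_dl_left]
  refine h 1 ?_
  intro h1
  exact FreeGroup.startsWith.ne_one _ h1 rfl

theorem gen_lam : ∀ x, x ∈ W (TG (FreeGroup α)) (gens (Set.univ : Set α)) := by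
  intro x
  have hx : (x : ltwo (FreeGroup α) →L[ℂ] ltwo (FreeGroup α)) ∈ vH (⊤ : Subgroup (FreeGroup α)) := by
    rw [vH_top]; exact x.2
  refine mem_W_of_mem_vnGen (stdG (FreeGroup α)).ft (s := leftRegular '' _) ?_ x hx
  rintro _ ⟨g, -, rfl⟩
  refine ⟨lam g, ?_, rfl⟩
  have h1 : FreeGroup.lift (fun a : α => (lamU (FreeGroup.of a) :
      unitary (groupVNA (FreeGroup α)).toStarSubalgebra)) g = lamU g := by
    have : FreeGroup.lift (fun a : α => (lamU (FreeGroup.of a) :
      unitary (groupVNA (FreeGroup α)).toStarSubalgebra)) = lamU := by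
      ext a
      simp
    rw [this]
  have h2 := lift_mem_adjoin (fun a : α => (lamU (FreeGroup.of a) :
      unitary (groupVNA (FreeGroup α)).toStarSubalgebra)) g
  rw [h1] at h2
  refine StarAlgebra.adjoin_mono ?_ h2
  rintro _ ⟨a, rfl⟩
  exact ⟨a, Set.mem_univ _, rfl⟩

end free

section final

/-- the isomorphism from a free Haar unitary over the algebra of the other generators -/
theorem iso_final {m N : ℕ} (e' : Fin (m + 1) → Fin N) (he : Function.Injective e')
    {b' : (groupVNA (FreeGroup (Fin N))).toStarSubalgebra}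
    (hb : FreeHaar (TG (FreeGroup (Fin N)))
      (W (TG (FreeGroup (Fin N))) (gens (e' '' {i | i ≠ Fin.last m})) : Set _) b')
    (hgen : ∀ z, z ∈ W (TG (FreeGroup (Fin N))) (gens (e' '' {i | i ≠ Fin.last m}) ∪ {b'})) :
    ∃ Φ : (groupVNA (FreeGroup (Fin (m + 1)))).toStarSubalgebra ≃⋆ₐ[ℂ]
        (groupVNA (FreeGroup (Fin N))).toStarSubalgebra,
      ∀ x : (groupVNA (FreeGroup (Fin (m + 1)))).toStarSubalgebra,
        groupTrace (FreeGroup (Fin N)) ((Φ x : (groupVNA (FreeGroup (Fin N))).toStarSubalgebra) :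
          ltwo (FreeGroup (Fin N)) →L[ℂ] ltwo (FreeGroup (Fin N))) =
        groupTrace (FreeGroup (Fin (m + 1)))
          (x : ltwo (FreeGroup (Fin (m + 1))) →L[ℂ] ltwo (FreeGroup (Fin (m + 1)))) := by
  classical
  let U : Fin (m + 1) → unitary (groupVNA (FreeGroup (Fin N))).toStarSubalgebra :=
    fun i => if i = Fin.last m then ⟨b', hb.1⟩ else lamU (FreeGroup.of (e' i))
  have hUl : (U (Fin.last m) : (groupVNA (FreeGroup (Fin N))).toStarSubalgebra) = b' := by
    simp [U]
  have hUi : ∀ i, i ≠ Fin.last m → U i = lamU (FreeGroup.of (e' i)) := by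
    intro i hi
    simp [U, hi]
  refine iso_of_gens U ?_ ?_
  · refine tau_lift (G := W (TG (FreeGroup (Fin N))) (gens (e' '' {i | i ≠ Fin.last m})))
      (z := Fin.last m) U ?_ ?_ ?_
    · intro i hi
      rw [hUi i hi]
      exact subset_W _ _ ⟨e' i, ⟨i, hi, rfl⟩, rfl⟩
    · rw [hUl]; exact hb
    · intro k hk hk1
      have h1 : letterSub {i : Fin (m + 1) | i ≠ Fin.last m} ≤
          MonoidHom.eqLocus (FreeGroup.lift U) (lamU.comp (FreeGroup.map e')) := by
        refine letterSub_le ?_
        intro i hi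
        change FreeGroup.lift U (FreeGroup.of i) = lamU (FreeGroup.map e' (FreeGroup.of i))
        rw [FreeGroup.lift_apply_of, FreeGroup.map.of, hUi i hi]
      have h2 : FreeGroup.lift U k = lamU (FreeGroup.map e' k) := h1 hk
      rw [h2, coe_lamU]
      apply tau_lam
      intro h3
      apply hk1
      have h4 : FreeGroup.map e' k = FreeGroup.map e' 1 := by rw [h3, map_one]
      exact FreeGroup.map_injective he h4
  · intro z
    refine W_mono _ ?_ (hgen z)
    rintro x (⟨_, ⟨i, hi, rfl⟩, rfl⟩ | hx)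
    · exact ⟨i, by simp only; rw [hUi i hi]; rfl⟩
    · exact ⟨Fin.last m, by simp only; rw [hUl]; exact hx.symm⟩

end final

end Crest.Agent.R134
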