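import Mathlib

/-!
R134 (helper127): free group combinatorics.
-/

set_option autoImplicit false
set_option linter.unusedSectionVars false

namespace Crest.Agent.R134

open FreeGroup

variable {α : Type*} [DecidableEq α]

/-- the subgroup of elements whose reduced word only uses letters from `E` -/
def letterSub (E : Set α) : Subgroup (FreeGroup α) where
  carrier := {g | ∀ p ∈ g.toWord, p.1 ∈ E}
  one_mem' := by simp
  mul_mem' := by
    intro a b ha hb p hp
    have := (toWord_mul_sublist a b).subset hp
    rcases List.mem_append.1 this with h | h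
    · exact ha p h
    · exact hb p h
  inv_mem' := by
    intro a ha p hp
    rw [toWord_inv, invRev, List.mem_reverse, List.mem_map] at hp
    obtain ⟨q, hq, rfl⟩ := hp
    exact ha q hq

theorem mem_letterSub {E : Set α} {g : FreeGroup α} :
    g ∈ letterSub E ↔ ∀ p ∈ g.toWord, p.1 ∈ E := Iff.rfl

theorem of_mem_letterSub {E : Set α} {a : α} (ha : a ∈ E) : of a ∈ letterSub E := by
  intro p hp
  rw [toWord_of, List.mem_singleton] at hp
  rw [hp]
  exact ha

theorem mk_singleton (p : α × Bool) : (mk [p] : FreeGroup α) = if p.2 then of p.1 else (of p.1)⁻¹ := by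
  obtain ⟨a, b⟩ := p
  cases b
  · simp [of, invRev]
  · simp [of]

/-- induction principle: an element of `letterSub E` is a product of letters -/
theorem letterSub_le {E : Set α} {K : Subgroup (FreeGroup α)} (h : ∀ a ∈ E, of a ∈ K) :
    letterSub E ≤ K := by
  have key : ∀ L : List (α × Bool), (∀ p ∈ L, p.1 ∈ E) → (mk L : FreeGroup α) ∈ K := by
    intro L
    induction L with
    | nil => intro _; exact K.one_mem
    | cons p L ih =>
      intro hL
      have e : (mk (p :: L) : FreeGroup α) = mk [p] * mk L := by rw [mul_mk]; rfl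
      rw [e]
      refine K.mul_mem ?_ (ih (fun q hq => hL q (List.mem_cons_of_mem _ hq)))
      have hp := h _ (hL p List.mem_cons_self)
      rw [mk_singleton]
      split_ifs
      · exact hp
      · exact K.inv_mem hp
  intro g hg
  rw [← mk_toWord (x := g)]
  exact key _ hg

theorem letterSub_eq_closure (E : Set α) : letterSub E = Subgroup.closure (of '' E) := by
  apply le_antisymm
  · exact letterSub_le (fun a ha => Subgroup.subset_closure ⟨a, ha, rfl⟩)
  · rw [Subgroup.closure_le]
    rintro _ ⟨a, ha, rfl⟩
    exact of_mem_letterSub ha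

theorem toWord_mul_eq {g h : FreeGroup α}
    (hgh : ∀ x ∈ g.toWord.getLast?, ∀ y ∈ h.toWord.head?, x.1 = y.1 → x.2 = y.2) :
    (g * h).toWord = g.toWord ++ h.toWord := by
  rw [toWord_mul]
  refine IsReduced.reduce_eq ?_
  exact List.isChain_append.2 ⟨isReduced_toWord, isReduced_toWord, hgh⟩

/-- `x^b h w` starts with `x^b` -/
theorem start_mul {x : α} {E : Set α} (hx : x ∉ E) {h w : FreeGroup α} (hh : h ∈ letterSub E)
    {b b' : Bool} (hw : w ∈ startsWith (x, b')) (hne : b ≠ b' → h ≠ 1) :
    mk [(x, b)] * (h * w) ∈ startsWith (x, b) := by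
  refine startsWith_mk_mul (w := (x, b)) _ ?_
  by_cases h1 : h = 1
  · have hb : b = b' := by
      by_contra hb
      exact hne hb h1
    rw [h1, one_mul]
    intro hw'
    unfold startsWith at hw hw'
    simp only [Set.mem_ofPred_eq] at hw hw'
    rw [hw] at hw'
    simp [hb] at hw'
  · have e : (h * w).toWord = h.toWord ++ w.toWord := by
      refine toWord_mul_eq (fun p hp q hq hpq => ?_)
      exfalso
      have h2 : q = (x, b') := by
        unfold startsWith at hw
        simp only [Set.mem_ofPred_eq] at hw
        rw [List.head?_eq_getElem?, hw] at hq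
        simpa using hq.symm
      have h3 := hh p (List.mem_of_mem_getLast? hp)
      rw [hpq, h2] at h3
      exact hx h3
    intro hcon
    unfold startsWith at hcon
    simp only [Set.mem_ofPred_eq] at hcon
    have hne' : h.toWord ≠ [] := fun h' => h1 (toWord_eq_nil_iff.1 h')
    obtain ⟨p, t, hpt⟩ := List.exists_cons_of_ne_nil hne'
    rw [e, hpt] at hcon
    simp only [List.cons_append, List.getElem?_cons_zero, Option.some.injEq] at hcon
    have h3 := hh p (by rw [hpt]; exact List.mem_cons_self)
    rw [hcon] at h3
    exact hx h3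

theorem start_mul' {x : α} {E : Set α} (hx : x ∉ E) {h : FreeGroup α} (hh : h ∈ letterSub E)
    {b : Bool} : mk [(x, b)] * h ∈ startsWith (x, b) := by
  refine startsWith_mk_mul (w := (x, b)) _ ?_
  intro hcon
  unfold startsWith at hcon
  simp only [Set.mem_ofPred_eq] at hcon
  have h3 := hh (x, !b) (List.mem_of_getElem? hcon)
  exact hx h3

/-- stripping powers of a letter -/
theorem exists_strip (a : α) (g : FreeGroup α) : ∃ (p : ℤ) (w : FreeGroup α), g = of a ^ p * w ∧
    ∀ q ∈ w.toWord.head?, q.1 ≠ a := by
  have key : ∀ L : List (α × Bool), IsReduced L → ∃ (p : ℤ) (w : FreeGroup α),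
      (mk L : FreeGroup α) = of a ^ p * w ∧ ∀ q ∈ w.toWord.head?, q.1 ≠ a := by
    intro L
    induction L with
    | nil =>
      intro _
      refine ⟨0, 1, by simp [one_eq_mk], ?_⟩
      simp
    | cons s L ih =>
      intro hL
      by_cases hs : s.1 = a
      · have hL' : IsReduced L := List.IsChain.tail hL
        obtain ⟨p, w, hpw, hw⟩ := ih hL'
        have e : (mk (s :: L) : FreeGroup α) = mk [s] * mk L := by rw [mul_mk]; rfl
        rw [e, hpw, mk_singleton, hs]
        split_ifs
        · exact ⟨1 + p, w, by rw [zpow_add, zpow_one, mul_assoc], hw⟩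
        · exact ⟨-1 + p, w, by rw [zpow_add, zpow_neg_one, mul_assoc], hw⟩
      · refine ⟨0, mk (s :: L), by simp, ?_⟩
        rw [toWord_mk, hL.reduce_eq]
        intro q hq
        simp only [List.head?_cons, Option.mem_def, Option.some.injEq] at hq
        rw [← hq]
        exact hs
  have := key g.toWord isReduced_toWord
  rwa [mk_toWord] at this

theorem toWord_of_pow' (a : α) (n : ℕ) : (of a ^ n).toWord = List.replicate n (a, true) :=
  toWord_of_pow a n

/-- an element commuting with a positive power of a letter is a power of the letter -/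
theorem mem_of_commute_pow {a : α} {m : ℕ} (hm : 0 < m) {k : FreeGroup α}
    (h : of a ^ m * k = k * of a ^ m) : k ∈ letterSub ({a} : Set α) := by
  obtain ⟨p, w, rfl, hw⟩ := exists_strip a k
  have hap : of a ^ p ∈ letterSub ({a} : Set α) :=
    Subgroup.zpow_mem _ (of_mem_letterSub (Set.mem_singleton a)) p
  have h1 : of a ^ m * w = w * of a ^ m := by
    have e1 : of a ^ m * (of a ^ p * w) = of a ^ p * (of a ^ m * w) := by
      rw [← mul_assoc, ← mul_assoc]
      congr 1
      exact ((Commute.refl (of a)).pow_left m).zpow_right p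
    rw [e1, mul_assoc] at h
    exact mul_left_cancel h
  by_cases hw1 : w = 1
  · rw [hw1, mul_one]; exact hap
  exfalso
  have hne : w.toWord ≠ [] := fun h' => hw1 (toWord_eq_nil_iff.1 h')
  obtain ⟨q, t, hqt⟩ := List.exists_cons_of_ne_nil hne
  have hq : q.1 ≠ a := hw q (by rw [hqt]; rfl)
  have e1 : (of a ^ m * w).toWord = List.replicate m (a, true) ++ w.toWord := by
    rw [toWord_mul_eq, toWord_of_pow]
    intro x hx y hy hxy
    exfalso
    rw [toWord_of_pow] at hx
    have hx' := List.mem_of_mem_getLast? hx
    rw [List.mem_replicate] at hx'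
    rw [hqt] at hy
    simp only [List.head?_cons, Option.mem_def, Option.some.injEq] at hy
    rw [hx'.2, ← hy] at hxy
    exact hq hxy.symm
  have e2 : (w * of a ^ m).toWord = w.toWord ++ List.replicate m (a, true) := by
    have hsub := toWord_mul_sublist w (of a ^ m)
    rw [toWord_of_pow] at hsub
    refine hsub.eq_of_length ?_
    rw [← h1, e1, List.length_append, List.length_append, add_comm]
  rw [← h1, e1, hqt] at e2
  obtain ⟨m', rfl⟩ := Nat.exists_eq_succ_of_ne_zero hm.ne'
  rw [List.replicate_succ] at e2
  simp only [List.cons_append, List.cons.injEq] at e2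
  exact hq (by rw [← e2.1])

/-- infinitely many conjugates -/
theorem conj_injective {a : α} {k : FreeGroup α} (hk : k ∉ letterSub ({a} : Set α)) :
    Function.Injective (fun m : ℕ => of a ^ m * k * (of a ^ m)⁻¹) := by
  have key : ∀ m l : ℕ, m < l → of a ^ m * k * (of a ^ m)⁻¹ ≠ of a ^ l * k * (of a ^ l)⁻¹ := by
    intro m l hml h
    apply hk
    refine mem_of_commute_pow (a := a) (m := l - m) (by omega) ?_
    have hl : of a ^ l = of a ^ m * of a ^ (l - m) := by rw [← pow_add]; congr 1; omega
    rw [hl] at h
    have h2 : k = of a ^ (l - m) * k * (of a ^ (l - m))⁻¹ := by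
      have h3 : of a ^ m * k * (of a ^ m)⁻¹ =
          of a ^ m * (of a ^ (l - m) * k * (of a ^ (l - m))⁻¹) * (of a ^ m)⁻¹ := by
        rw [h]; group
      exact mul_left_cancel (mul_right_cancel h3)
    nth_rewrite 2 [h2]
    group
  intro m l h
  rcases lt_trichotomy m l with hlt | heq | hgt
  · exact absurd h (key m l hlt)
  · exact heq
  · exact absurd h.symm (key l m hgt)

end Crest.Agent.R134
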