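import Crest.Agent.R134.Ends

/-!
R134 (helper127): S0183 and S0184 from the abstract conclusions `two_three` and `many`.
-/

set_option autoImplicit false
set_option linter.unusedSectionVars false

namespace Crest.Agent.R134

open Crest.OpAlg Crest.Agent.R95

/-- the exact statement of `Iface2.many` for one algebra -/
def ManyStatement {A : Type*} [CStarAlgebra A] (T : TracialState A) : Prop :=
  ∀ {S : Set A} {b c : A} (u v : ℕ → A), Pairs u v → (∀ j, u j ∈ W T S) → (∀ j, v j ∈ W T S) →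
    FreeHaar T (W T (S ∪ {c}) : Set A) b → FreeHaar T (W T (S ∪ {b}) : Set A) c →
    (∀ z, z ∈ W T (S ∪ {b, c})) →
    ∃ b' : A, FreeHaar T (W T S : Set A) b' ∧ ∀ z, z ∈ W T (S ∪ {b'})

/-- the exact statement of `Iface2.two_three` for one algebra -/
def TwoThreeStatement {A : Type*} [CStarAlgebra A] (T : TracialState A) : Prop :=
  ∀ {a b c : A}, a ∈ unitary A → (∀ k : ℕ, 0 < k → T.τ (a ^ k) = 0) →
    FreeHaar T (W T {a, c} : Set A) b → FreeHaar T (W T {a, b} : Set A) c →
    (∀ z, z ∈ W T {a, b, c}) →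
    ∃ b' : A, FreeHaar T (W T {a} : Set A) b' ∧ ∀ z, z ∈ W T {a, b'}

theorem gens_insert {α : Type*} [DecidableEq α] (E : Set α) (z : α) :
    gens (E ∪ {z}) = gens E ∪ {lam (FreeGroup.of z)} := by
  unfold gens
  rw [Set.image_union, Set.image_singleton]

theorem gens_singleton {α : Type*} [DecidableEq α] (z : α) :
    gens ({z} : Set α) = {lam (FreeGroup.of z)} := by
  unfold gens
  rw [Set.image_singleton]

theorem lam_pow {G : Type*} [Group G] [DecidableEq G] (g : G) (k : ℕ) :
    (lam g : (groupVNA G).toStarSubalgebra) ^ k = lam (g ^ k) := by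
  induction k with
  | zero => rw [pow_zero, pow_zero, lam_one]
  | succ k ih => rw [pow_succ, pow_succ, lam_mul, ih]

theorem tau_lam_pow {α : Type*} [DecidableEq α] (a : α) (k : ℕ) (hk : 0 < k) :
    (TG (FreeGroup α)).τ (lam (FreeGroup.of a) ^ k) = 0 := by
  rw [lam_pow]
  apply tau_lam
  intro h
  have h1 := FreeGroup.norm_of_pow a k
  rw [h, FreeGroup.norm_one] at h1
  omega

/-- Pauli pairs from two generators -/
theorem exists_pairs {α : Type*} [DecidableEq α] {a b : α} (hab : a ≠ b) :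
    ∃ u v : ℕ → (groupVNA (FreeGroup α)).toStarSubalgebra, Pairs u v ∧
      (∀ j, u j ∈ W (TG (FreeGroup α)) (gens {a, b})) ∧
      (∀ j, v j ∈ W (TG (FreeGroup α)) (gens {a, b})) := by
  have h := hasFreePauli (stdG (FreeGroup α)).ft (lam (FreeGroup.of a)) (lam (FreeGroup.of b))
    (lam_unitary _) (tau_lam_pow a) ?_
  · have e : gens ({a, b} : Set α) = {lam (FreeGroup.of a), lam (FreeGroup.of b)} := by
      unfold gens
      rw [Set.image_pair]
    rw [e]
    exact h
  · have := freeHaar_lam (E := {a}) (z := b) (fun h => hab (Set.mem_singleton_iff.1 h).symm)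
    rwa [gens_singleton] at this

theorem s0184_of_many (n : ℕ) (hn : 3 ≤ n)
    (hmany : ManyStatement (TG (FreeGroup (Fin (n + 1))))) :
    ∃ Φ : (groupVNA (FreeGroup (Fin n))).toStarSubalgebra ≃⋆ₐ[ℂ]
        (groupVNA (FreeGroup (Fin (n + 1)))).toStarSubalgebra,
      ∀ x : (groupVNA (FreeGroup (Fin n))).toStarSubalgebra,
        groupTrace (FreeGroup (Fin (n + 1))) ((Φ x : (groupVNA (FreeGroup (Fin (n + 1)))).toStarSubalgebra) :
          ltwo (FreeGroup (Fin (n + 1))) →L[ℂ] ltwo (FreeGroup (Fin (n + 1)))) =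
        groupTrace (FreeGroup (Fin n))
          (x : ltwo (FreeGroup (Fin n)) →L[ℂ] ltwo (FreeGroup (Fin n))) := by
  obtain ⟨m, rfl⟩ : ∃ m, n = m + 1 := ⟨n - 1, by omega⟩
  set e' : Fin (m + 1) → Fin (m + 1 + 1) := Fin.castSucc with he'
  have hinj : Function.Injective e' := Fin.castSucc_injective _
  set E : Set (Fin (m + 1 + 1)) := e' '' {i | i ≠ Fin.last m} with hE
  set b0 : Fin (m + 1 + 1) := e' (Fin.last m) with hb0
  set c0 : Fin (m + 1 + 1) := Fin.last (m + 1) with hc0
  have hbE : b0 ∉ E := by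
    rintro ⟨i, hi, h⟩
    exact hi (hinj h)
  have hcE : c0 ∉ E := by
    rintro ⟨i, hi, h⟩
    exact (Fin.castSucc_lt_last i).ne h
  have hbc : b0 ≠ c0 := (Fin.castSucc_lt_last _).ne
  have h0E : (⟨0, by omega⟩ : Fin (m + 1 + 1)) ∈ E :=
    ⟨⟨0, by omega⟩, fun h => by
      have := congrArg Fin.val h
      simp only [Fin.val_last] at this
      omega, rfl⟩
  have h1E : (⟨1, by omega⟩ : Fin (m + 1 + 1)) ∈ E :=
    ⟨⟨1, by omega⟩, fun h => by
      have := congrArg Fin.val h
      simp only [Fin.val_last] at this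
      omega, rfl⟩
  obtain ⟨u, v, huv, hu, hv⟩ := exists_pairs (α := Fin (m + 1 + 1)) (a := ⟨0, by omega⟩)
    (b := ⟨1, by omega⟩) (by intro h; have := congrArg Fin.val h; simp at this)
  have hsub : gens ({⟨0, by omega⟩, ⟨1, by omega⟩} : Set (Fin (m + 1 + 1))) ⊆ gens E := by
    unfold gens
    refine Set.image_mono ?_
    rintro x (rfl | rfl)
    · exact h0E
    · exact h1E
  have hb : FreeHaar (TG (FreeGroup (Fin (m + 1 + 1))))
      (W (TG (FreeGroup (Fin (m + 1 + 1)))) (gens E ∪ {lam (FreeGroup.of c0)}) : Set _)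
      (lam (FreeGroup.of b0)) := by
    rw [← gens_insert]
    refine freeHaar_lam ?_
    rintro (h | h)
    · exact hbE h
    · exact hbc h
  have hc : FreeHaar (TG (FreeGroup (Fin (m + 1 + 1))))
      (W (TG (FreeGroup (Fin (m + 1 + 1)))) (gens E ∪ {lam (FreeGroup.of b0)}) : Set _)
      (lam (FreeGroup.of c0)) := by
    rw [← gens_insert]
    refine freeHaar_lam ?_
    rintro (h | h)
    · exact hcE h
    · exact hbc h.symm
  have hg : ∀ z, z ∈ W (TG (FreeGroup (Fin (m + 1 + 1))))
      (gens E ∪ {lam (FreeGroup.of b0), lam (FreeGroup.of c0)}) := by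
    intro z
    refine W_mono _ ?_ (gen_lam z)
    rintro _ ⟨i, -, rfl⟩
    by_cases h1 : i = c0
    · subst h1; exact Or.inr (Or.inr rfl)
    by_cases h2 : i = b0
    · subst h2; exact Or.inr (Or.inl rfl)
    left
    refine ⟨i, ?_, rfl⟩
    obtain ⟨j, rfl⟩ : ∃ j, i = Fin.castSucc j := ⟨i.castPred h1, by simp⟩
    exact ⟨j, fun hj => h2 (by rw [hb0, he', hj]), rfl⟩
  obtain ⟨b', hb', hgen⟩ := hmany (S := gens E) u v huv (fun j => W_mono _ hsub (hu j))
    (fun j => W_mono _ hsub (hv j)) hb hc hg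
  exact iso_final e' hinj hb' hgen

theorem s0183_of_two_three (h23 : TwoThreeStatement (TG (FreeGroup (Fin 3)))) :
    ∃ Φ : (groupVNA (FreeGroup (Fin 2))).toStarSubalgebra ≃⋆ₐ[ℂ]
        (groupVNA (FreeGroup (Fin 3))).toStarSubalgebra,
      ∀ x : (groupVNA (FreeGroup (Fin 2))).toStarSubalgebra,
        groupTrace (FreeGroup (Fin 3)) ((Φ x : (groupVNA (FreeGroup (Fin 3))).toStarSubalgebra) :
          ltwo (FreeGroup (Fin 3)) →L[ℂ] ltwo (FreeGroup (Fin 3))) =
        groupTrace (FreeGroup (Fin 2))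
          (x : ltwo (FreeGroup (Fin 2)) →L[ℂ] ltwo (FreeGroup (Fin 2))) := by
  have key : ∀ z w : Fin 3, z ≠ w → z ≠ 0 → w ≠ 0 → FreeHaar (TG (FreeGroup (Fin 3)))
      (W (TG (FreeGroup (Fin 3))) {lam (FreeGroup.of 0), lam (FreeGroup.of w)} : Set _)
      (lam (FreeGroup.of z)) := by
    intro z w hzw hz hw
    have h := freeHaar_lam (E := ({0, w} : Set (Fin 3))) (z := z)
      (by rintro (h | h); exacts [hz h, hzw h])
    have e : gens ({0, w} : Set (Fin 3)) = {lam (FreeGroup.of 0), lam (FreeGroup.of w)} := by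
      unfold gens
      rw [Set.image_pair]
    rwa [e] at h
  obtain ⟨b', hb', hgen⟩ := h23 (a := lam (FreeGroup.of 0)) (b := lam (FreeGroup.of 1))
    (c := lam (FreeGroup.of 2)) (lam_unitary _) (tau_lam_pow 0)
    (key 1 2 (by decide) (by decide) (by decide)) (key 2 1 (by decide) (by decide) (by decide))
    (by
      intro z
      refine W_mono _ ?_ (gen_lam z)
      rintro _ ⟨i, -, rfl⟩
      fin_cases i
      · exact Or.inl rfl
      · exact Or.inr (Or.inl rfl)
      · exact Or.inr (Or.inr rfl))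
  have hE : (Fin.castSucc : Fin 2 → Fin 3) '' {i : Fin (1 + 1) | i ≠ Fin.last 1} = {0} := by
    ext i
    simp only [Set.mem_image, Set.mem_ofPred_eq, Set.mem_singleton_iff]
    constructor
    · rintro ⟨j, hj, rfl⟩
      fin_cases j
      · rfl
      · exact absurd rfl hj
    · rintro rfl
      exact ⟨0, by decide, rfl⟩
  refine iso_final (m := 1) (N := 3) Fin.castSucc (Fin.castSucc_injective _) (b' := b') ?_ ?_
  · rw [hE, gens_singleton]; exact hb'
  · rw [hE, gens_singleton]
    intro z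
    exact hgen z

end Crest.Agent.R134
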