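import Crest.Agent.R134.Transport
import Crest.Agent.R95.Bridge
import Crest.Agent.R95.Factor5

/-!
R134 (helper127): group side. `vH H` = von Neumann algebra generated by `λ(H)` in `L(G)`,
supports, ICC factors, freeness of `vH A` and `vH B`.
-/

set_option autoImplicit false
set_option linter.unusedSectionVars false
set_option linter.unusedSimpArgs false

open scoped InnerProductSpace ENNReal
open Filter Topology

namespace Crest.Agent.R134

open Crest.OpAlg Crest.Agent.R95

section basics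

variable {G : Type*} [Group G] [DecidableEq G]

/-- the trace vectors `(δ, 0, 0, …)` -/
noncomputable def xi (G : Type*) [Group G] [DecidableEq G] : ℕ → ltwo G :=
  fun n => if n = 0 then dl 1 else 0

theorem norm_dl (g : G) : ‖(dl g : ltwo G)‖ = 1 := by
  have h : ‖(dl g : ltwo G)‖ ^ 2 = 1 := by
    have h1 : ((‖(dl g : ltwo G)‖ ^ 2 : ℝ) : ℂ) = ⟪(dl g : ltwo G), dl g⟫_ℂ := by
      rw [inner_self_eq_norm_sq_to_K]; norm_cast
    rw [inner_dl_dl, if_pos rfl] at h1
    exact_mod_cast h1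
  nlinarith [norm_nonneg (dl g : ltwo G)]

theorem vectorState_xi (x : ltwo G →L[ℂ] ltwo G) : vectorState (xi G) x = groupTrace G x := by
  unfold vectorState
  rw [tsum_eq_single 0]
  · simp [xi, groupTrace_eq]
  · intro n hn
    simp [xi, hn]

theorem traceNormSq_xi (x : ltwo G →L[ℂ] ltwo G) : traceNormSq (xi G) x = ‖x (dl 1)‖ ^ 2 := by
  unfold traceNormSq
  rw [tsum_eq_single 0]
  · simp [xi]
  · intro n hn
    simp [xi, hn]

theorem N2_xi (x : ltwo G →L[ℂ] ltwo G) : N2 (xi G) x = ‖x (dl 1)‖ := by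
  rw [N2, traceNormSq_xi, Real.sqrt_sq (norm_nonneg _)]

theorem xi_tracial : IsFaithfulTracialVectorState (groupVNA G) (xi G) := by
  refine ⟨?_, ?_, ?_⟩
  · have : (fun n => ‖xi G n‖ ^ 2) = fun n => if n = 0 then (1 : ℝ) else 0 := by
      ext n
      by_cases hn : n = 0
      · simp [xi, hn, norm_dl]
      · simp [xi, hn]
    rw [this]
    exact hasSum_ite_eq 0 1
  · intro x hx y hy
    rw [vectorState_xi, vectorState_xi, groupTrace_mul_comm hx hy]
  · intro x hx h
    exact eq_zero_of_dl hx (by simpa [xi] using h 0)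

theorem xi_tracial_of_le {N : VonNeumannAlgebra (ltwo G)} (hN : N ≤ groupVNA G) :
    IsFaithfulTracialVectorState N (xi G) :=
  ⟨xi_tracial.1, fun x hx y hy => xi_tracial.2.1 x (hN hx) y (hN hy),
    fun x hx h => xi_tracial.2.2 x (hN hx) h⟩

/-- the convolution formula -/
theorem apply_eq_tsum {x : ltwo G →L[ℂ] ltwo G} (hx : x ∈ groupVNA G) (v : ltwo G) (g : G) :
    (x v : ltwo G) g = ∑' h, (x (dl 1) : ltwo G) (g * h⁻¹) * (v : ltwo G) h := by
  have h1 : (x v : ltwo G) g = ⟪(star x) (dl g), v⟫_ℂ := by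
    rw [← inner_dl_left, ContinuousLinearMap.star_eq_adjoint,
      ContinuousLinearMap.adjoint_inner_left]
  rw [h1, lp.inner_eq_tsum]
  refine tsum_congr (fun h => ?_)
  rw [apply_dl_of_mem (star_mem hx), rightRegular_apply, star_apply_dl hx]
  simp [mul_comm]

/-- `v` is supported in `E` -/
def SuppIn (E : Set G) (v : ltwo G) : Prop := ∀ g, g ∉ E → (v : ltwo G) g = 0

theorem SuppIn.mono {E F : Set G} {v : ltwo G} (h : SuppIn E v) (hEF : E ⊆ F) : SuppIn F v :=
  fun g hg => h g (fun hg' => hg (hEF hg'))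

theorem SuppIn.add {E : Set G} {v w : ltwo G} (h : SuppIn E v) (h' : SuppIn E w) :
    SuppIn E (v + w) := fun g hg => by
  have e : ((v + w : ltwo G) : G → ℂ) g = v g + w g := rfl
  rw [e, h g hg, h' g hg, add_zero]

theorem SuppIn.smul {E : Set G} {v : ltwo G} (c : ℂ) (h : SuppIn E v) :
    SuppIn E (c • v) := fun g hg => by
  have e : ((c • v : ltwo G) : G → ℂ) g = c * v g := rfl
  rw [e, h g hg, mul_zero]

theorem SuppIn.zero (E : Set G) : SuppIn E (0 : ltwo G) := fun _ _ => rfl

theorem suppIn_dl {E : Set G} {g : G} (hg : g ∈ E) : SuppIn E (dl g : ltwo G) := by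
  intro h hh
  rw [dl_apply, if_neg]
  rintro rfl
  exact hh hg

/-- closedness of supports, `ε` form -/
theorem suppIn_of_forall {E : Set G} {v : ltwo G}
    (h : ∀ ε : ℝ, 0 < ε → ∃ w : ltwo G, SuppIn E w ∧ ‖w - v‖ < ε) : SuppIn E v := by
  intro g hg
  by_contra hne
  obtain ⟨w, hw, hwv⟩ := h ‖(v : ltwo G) g‖ (norm_pos_iff.2 hne)
  have h1 : ‖(w - v : ltwo G) g‖ ≤ ‖w - v‖ := lp.norm_apply_le_norm (by norm_num) (w - v) g
  have h2 : ((w - v : ltwo G) : G → ℂ) g = w g - v g := rfl
  rw [h2, hw g hg, zero_sub, norm_neg] at h1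
  linarith

theorem SuppIn.apply {x : ltwo G →L[ℂ] ltwo G} (hx : x ∈ groupVNA G) {A B C : Set G}
    (hxA : SuppIn A (x (dl 1))) {v : ltwo G} (hv : SuppIn B v)
    (hC : ∀ a ∈ A, ∀ b ∈ B, a * b ∈ C) : SuppIn C (x v) := by
  intro g hg
  rw [apply_eq_tsum hx]
  have : ∀ h, (x (dl 1) : ltwo G) (g * h⁻¹) * (v : ltwo G) h = 0 := by
    intro h
    by_cases hb : h ∈ B
    · by_cases ha : g * h⁻¹ ∈ A
      · exact absurd (by simpa using hC _ ha _ hb) hg
      · rw [hxA _ ha, zero_mul]
    · rw [hv _ hb, mul_zero]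
  simp [this]

/-- the von Neumann algebra generated by a subgroup -/
noncomputable def vH (H : Subgroup G) : VonNeumannAlgebra (ltwo G) :=
  vnGen (leftRegular '' (H : Set G))

theorem leftRegular_mem_vH {H : Subgroup G} {g : G} (hg : g ∈ H) : leftRegular g ∈ vH H :=
  subset_vnGen _ _ ⟨g, hg, rfl⟩

theorem vH_le (H : Subgroup G) : vH H ≤ groupVNA G := by
  apply vnGen_le
  rintro _ ⟨g, -, rfl⟩
  exact leftRegular_mem g

theorem suppIn_of_mem_vH {H : Subgroup G} {x : ltwo G →L[ℂ] ltwo G} (hx : x ∈ vH H) :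
    SuppIn (H : Set G) (x (dl 1)) := by
  have hmul : ∀ g ∈ H, ∀ v : ltwo G, SuppIn (H : Set G) v →
      SuppIn (H : Set G) (leftRegular g v) := by
    intro g hg v hv k hk
    rw [leftRegular_apply]
    refine hv _ (fun h => hk ?_)
    have := H.mul_mem hg h
    simpa using this
  have key : ∀ y ∈ StarAlgebra.adjoin ℂ (leftRegular '' (H : Set G)),
      (∀ v : ltwo G, SuppIn (H : Set G) v → SuppIn (H : Set G) (y v)) ∧
      (∀ v : ltwo G, SuppIn (H : Set G) v → SuppIn (H : Set G) ((star y) v)) := by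
    intro y hy
    induction hy using StarAlgebra.adjoin_induction with
    | mem y hy =>
      obtain ⟨g, hg, rfl⟩ := hy
      refine ⟨hmul g hg, ?_⟩
      rw [star_leftRegular]
      exact hmul _ (H.inv_mem hg)
    | algebraMap r =>
      refine ⟨fun v hv => ?_, fun v hv => ?_⟩
      · have : (algebraMap ℂ (ltwo G →L[ℂ] ltwo G) r) v = r • v := rfl
        rw [this]
        exact hv.smul r
      · rw [← algebraMap_star_comm]
        have : (algebraMap ℂ (ltwo G →L[ℂ] ltwo G) (star r)) v = (star r) • v := rfl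
        rw [this]
        exact hv.smul _
    | add a b _ _ ha hb =>
      refine ⟨fun v hv => (ha.1 v hv).add (hb.1 v hv), fun v hv => ?_⟩
      rw [star_add]
      exact (ha.2 v hv).add (hb.2 v hv)
    | mul a b _ _ ha hb =>
      refine ⟨fun v hv => ha.1 _ (hb.1 v hv), fun v hv => ?_⟩
      rw [star_mul]
      exact hb.2 _ (ha.2 v hv)
    | star a _ ha => exact ⟨ha.2, by rw [star_star]; exact ha.1⟩
  refine suppIn_of_forall (fun ε hε => ?_)
  obtain ⟨y, hy, hyx⟩ := exists_near_of_mem_vnGen (sqSum xi_tracial) hx hε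
  refine ⟨y (dl 1), (key y hy).1 _ (suppIn_dl H.one_mem), ?_⟩
  rw [N2_xi] at hyx
  exact hyx

/-- finitely supported approximation -/
theorem exists_finset_approx (v : ltwo G) {ε : ℝ} (hε : 0 < ε) :
    ∃ s : Finset G, ‖∑ g ∈ s, (v : ltwo G) g • (dl g : ltwo G) - v‖ < ε := by
  have h := lp.hasSum_single (E := fun _ : G => ℂ) (p := 2) (by norm_num) v
  have h' : HasSum (fun g => (v : ltwo G) g • (dl g : ltwo G)) v := by
    have e : (fun g => (v : ltwo G) g • (dl g : ltwo G)) =
        fun g => lp.single (E := fun _ : G => ℂ) 2 g (v g) := by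
      funext g
      unfold dl
      rw [← lp.single_smul, smul_eq_mul, mul_one]
    rw [e]
    exact h
  obtain ⟨s, hs⟩ := (Metric.tendsto_atTop.1 h') ε hε
  exact ⟨s, by simpa [dist_eq_norm] using hs s le_rfl⟩

theorem mem_vH_of_suppIn {H : Subgroup G} {x : ltwo G →L[ℂ] ltwo G} (hx : x ∈ groupVNA G)
    (hs : SuppIn (H : Set G) (x (dl 1))) : x ∈ vH H := by
  refine mem_of_forall_N2_lt xi_tracial (vH_le H) hx (fun ε hε => ?_)
  obtain ⟨s, hsum⟩ := exists_finset_approx (x (dl 1)) hε
  refine ⟨∑ g ∈ s, (x (dl 1) : ltwo G) g • leftRegular g, ?_, ?_⟩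
  · refine sum_mem (fun g _ => ?_)
    by_cases hg : g ∈ H
    · exact smul_mem' _ (leftRegular_mem_vH hg)
    · rw [hs g hg, zero_smul]
      exact zero_mem _
  · rw [N2_xi, ContinuousLinearMap.sub_apply, ContinuousLinearMap.sum_apply]
    simpa [leftRegular_dl] using hsum

theorem vH_top : vH (⊤ : Subgroup G) = groupVNA G := by
  apply le_antisymm (vH_le _)
  intro x hx
  exact mem_vH_of_suppIn hx (fun g hg => absurd (Subgroup.mem_top g) hg)

/-- an `ℓ²` function which is constant on an infinite set vanishes there -/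
theorem eq_zero_of_const (v : ltwo G) {c : ℂ} {s : ℕ → G} (hs : Function.Injective s)
    (h : ∀ m, (v : ltwo G) (s m) = c) : c = 0 := by
  have h1 : Summable fun g => ‖(v : ltwo G) g‖ ^ (2 : ℝ≥0∞).toReal :=
    (lp.memℓp v).summable (by norm_num)
  have h2 := (h1.comp_injective hs).tendsto_atTop_zero
  have h3 : (fun m => ((fun g => ‖(v : ltwo G) g‖ ^ (2 : ℝ≥0∞).toReal) ∘ s) m) =
      fun _ => ‖c‖ ^ (2 : ℝ≥0∞).toReal := by
    funext m
    simp only [Function.comp_apply]
    rw [h m]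
  have h4 : ‖c‖ ^ (2 : ℝ≥0∞).toReal = 0 := by
    have h5 : Tendsto (fun _ : ℕ => ‖c‖ ^ (2 : ℝ≥0∞).toReal) atTop (𝓝 0) := by
      rw [← h3]; exact h2
    exact tendsto_nhds_unique tendsto_const_nhds h5
  have h6 := (Real.rpow_eq_zero (norm_nonneg c) (by norm_num)).1 h4
  exact norm_eq_zero.1 h6

/-- an element of `L(G)` commuting with `λ(g)` is constant on conjugacy orbits of `g` -/
theorem conj_invariant {x : ltwo G →L[ℂ] ltwo G} (hx : x ∈ groupVNA G) {g : G}
    (h : leftRegular g * x = x * leftRegular g) (k : G) :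
    (x (dl 1) : ltwo G) (g * k * g⁻¹) = (x (dl 1) : ltwo G) k := by
  have h1 : (leftRegular g (x (dl 1)) : ltwo G) (g * k) = (x (leftRegular g (dl 1)) : ltwo G) (g * k) :=
    congrArg (fun v : ltwo G => v (g * k))
      (congrArg (fun T : ltwo G →L[ℂ] ltwo G => T (dl 1)) h)
  rw [leftRegular_apply, leftRegular_dl, mul_one, apply_dl_of_mem hx g, rightRegular_apply] at h1
  rw [← h1, inv_mul_cancel_left]

theorem conj_invariant_pow {x : ltwo G →L[ℂ] ltwo G} (hx : x ∈ groupVNA G) {g : G}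
    (h : leftRegular g * x = x * leftRegular g) (k : G) (m : ℕ) :
    (x (dl 1) : ltwo G) (g ^ m * k * (g ^ m)⁻¹) = (x (dl 1) : ltwo G) k := by
  induction m with
  | zero => simp
  | succ m ih =>
    have e : g ^ (m + 1) * k * (g ^ (m + 1))⁻¹ = g * (g ^ m * k * (g ^ m)⁻¹) * g⁻¹ := by
      rw [pow_succ']
      group
    rw [e, conj_invariant hx h, ih]

/-- the vectors in `vH H δ` span an infinite-dimensional space if `H` is infinite -/
theorem vH_infinite {H : Subgroup G} {s : ℕ → G} (hs : Function.Injective s)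
    (hH : ∀ m, s m ∈ H) : ¬ FiniteDimensional ℂ (vH H).toStarSubalgebra := by
  intro hfd
  let ev : (vH H).toStarSubalgebra →ₗ[ℂ] ltwo G :=
    { toFun := fun x => (x : ltwo G →L[ℂ] ltwo G) (dl 1)
      map_add' := fun x y => rfl
      map_smul' := fun c x => rfl }
  let y : ℕ → (vH H).toStarSubalgebra := fun m => ⟨leftRegular (s m), leftRegular_mem_vH (hH m)⟩
  have hy : ∀ m, ev (y m) = dl (s m) := by
    intro m
    change leftRegular (s m) (dl 1) = _
    rw [leftRegular_dl, mul_one]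
  have hon : Orthonormal ℂ (fun m => (dl (s m) : ltwo G)) := by
    rw [orthonormal_iff_ite]
    intro i j
    rw [inner_dl_dl]
    by_cases hij : i = j
    · simp [hij]
    · rw [if_neg (fun h => hij (hs h)), if_neg hij]
  have hli : LinearIndependent ℂ y := by
    have h1 := hon.linearIndependent
    have h2 : (fun m => (dl (s m) : ltwo G)) = ev ∘ y := by
      funext m; exact (hy m).symm
    rw [h2] at h1
    exact h1.of_comp ev
  have := hli.lt_aleph0_of_finiteDimensional
  simp at this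

end basics

end Crest.Agent.R134
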