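import Crest.Agent.R134.FGWords
import Crest.Agent.R134.Data
import Crest.Agent.R95.Bridge
import Crest.Agent.R95.Factor5

/-!
R134 (helper127): a trace preserving copy of an ICC group generates a II₁ factor.
-/

set_option autoImplicit false
set_option linter.unusedSectionVars false

open scoped InnerProductSpace ENNReal
open Filter Topology

namespace Crest.Agent.R134

open Crest.OpAlg Crest.Agent.R95

section span

variable {B : Type*} [Ring B] [StarRing B] [Algebra ℂ B] [StarModule ℂ B] {K : Type*} [Group K]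

/-- the span of the image of a unitary representation is a star subalgebra -/
def spanSub (π : K →* B) (hstar : ∀ k, star (π k) = π k⁻¹) : StarSubalgebra ℂ B where
  carrier := Submodule.span ℂ (Set.range π)
  mul_mem' := by
    intro a b ha hb
    have ha' : a ∈ Submodule.span ℂ (Set.range π) := ha
    have hb' : b ∈ Submodule.span ℂ (Set.range π) := hb
    have h1 := Submodule.mul_mem_mul ha' hb'
    rw [Submodule.span_mul_span] at h1
    refine Submodule.span_mono ?_ h1
    rintro _ ⟨_, ⟨k, rfl⟩, _, ⟨l, rfl⟩, rfl⟩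
    exact ⟨k * l, map_mul π k l⟩
  add_mem' := fun ha hb => add_mem ha hb
  algebraMap_mem' := by
    intro r
    rw [Algebra.algebraMap_eq_smul_one]
    exact Submodule.smul_mem _ r (Submodule.subset_span ⟨1, map_one π⟩)
  star_mem' := by
    intro a ha
    have ha' : a ∈ Submodule.span ℂ (Set.range π) := ha
    change star a ∈ Submodule.span ℂ (Set.range π)
    induction ha' using Submodule.span_induction with
    | mem x hx =>
      obtain ⟨k, rfl⟩ := hx
      rw [hstar]
      exact Submodule.subset_span ⟨_, rfl⟩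
    | zero => rw [star_zero]; exact zero_mem _
    | add x y hx hy h1 h2 => rw [star_add]; exact add_mem (h1 hx) (h2 hy)
    | smul c x hx h1 => rw [star_smul]; exact Submodule.smul_mem _ _ (h1 hx)

theorem adjoin_le_spanSub (π : K →* B) (hstar : ∀ k, star (π k) = π k⁻¹) :
    StarAlgebra.adjoin ℂ (Set.range π) ≤ spanSub π hstar :=
  StarAlgebra.adjoin_le Submodule.subset_span

end span

section icc

variable {H : Type*} [NormedAddCommGroup H] [InnerProductSpace ℂ H] [CompleteSpace H]
variable {M : VonNeumannAlgebra H} {ξ : ℕ → H} {K : Type*} [Group K]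

theorem orthonormal_io (hξ : IsFaithfulTracialVectorState M ξ) (π : K →* (H →L[ℂ] H))
    (hstar : ∀ k, star (π k) = π k⁻¹) (htr : ∀ k, k ≠ 1 → tr ξ (π k) = 0) :
    Orthonormal ℂ (fun k => io (sqSum hξ) (π k)) := by
  classical
  rw [orthonormal_iff_ite]
  intro i j
  rw [← tr_star_mul (sqSum hξ), hstar, ← map_mul]
  by_cases hij : i = j
  · subst hij
    rw [if_pos rfl, inv_mul_cancel, map_one, tr_one hξ]
  · rw [if_neg hij]
    exact htr _ (fun h => hij (inv_mul_eq_one.1 h))

theorem eq_zero_of_orth (hξ : IsFaithfulTracialVectorState M ξ) (π : K →* (H →L[ℂ] H))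
    (hmem : ∀ k, π k ∈ M) (hstar : ∀ k, star (π k) = π k⁻¹) {y : H →L[ℂ] H}
    (hyN : y ∈ vnGen (Set.range π)) (hyort : ∀ k, tr ξ (star (π k) * y) = 0) : y = 0 := by
  have hle : vnGen (Set.range π) ≤ M := vnGen_le (by rintro _ ⟨k, rfl⟩; exact hmem k)
  have hspan : ∀ a ∈ Submodule.span ℂ (Set.range π), tr ξ (star a * y) = 0 := by
    intro a ha
    induction ha using Submodule.span_induction with
    | mem a ha => obtain ⟨k, rfl⟩ := ha; exact hyort k
    | zero => simp
    | add a b _ _ h1 h2 => rw [star_add, add_mul, tr_add (sqSum hξ), h1, h2, add_zero]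
    | smul c a _ h1 => rw [star_smul, smul_mul_assoc, tr_smul (sqSum hξ), h1, mul_zero]
  refine eq_zero_of_N2 hξ (hle hyN) ?_
  by_contra hne
  have hpos : 0 < N2 ξ y := lt_of_le_of_ne (N2_nonneg _) (Ne.symm hne)
  obtain ⟨a, ha, hay⟩ := exists_near_of_mem_vnGen (sqSum hξ) hyN hpos
  have ha' : a ∈ Submodule.span ℂ (Set.range π) := adjoin_le_spanSub π hstar ha
  have h1 : tr ξ (star y * y) = tr ξ (star (y - a) * y) := by
    rw [star_sub, sub_mul, tr_sub (sqSum hξ), hspan a ha', sub_zero]
  have h2 := norm_tr_star_mul_le (sqSum hξ) (y - a) y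
  rw [← h1, tr_star_mul_self (sqSum hξ), Complex.norm_real, Real.norm_of_nonneg (by positivity),
    N2_sub_comm y a] at h2
  nlinarith

theorem isII1_of_icc [Nontrivial K] (hξ : IsFaithfulTracialVectorState M ξ)
    (π : K →* (H →L[ℂ] H)) (hmem : ∀ k, π k ∈ M)
    (hstar : ∀ k, star (π k) = π k⁻¹) (htr : ∀ k, k ≠ 1 → tr ξ (π k) = 0)
    (icc : ∀ k : K, k ≠ 1 → ∃ s : ℕ → K, Function.Injective fun m => s m * k * (s m)⁻¹) :
    IsII1 (vnGen (Set.range π)) ξ := by
  have hle : vnGen (Set.range π) ≤ M := vnGen_le (by rintro _ ⟨k, rfl⟩; exact hmem k)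
  have hon := orthonormal_io hξ π hstar htr
  refine ⟨?_, ?_, ?_⟩
  · -- factor
    intro x hx hcomm
    have hxM : x ∈ M := hle hx
    refine ⟨tr ξ x, ?_⟩
    set f : K → ℂ := fun k => tr ξ (star (π k) * x) with hf
    have hfio : ∀ k, f k = ⟪io (sqSum hξ) (π k), io (sqSum hξ) x⟫_ℂ := fun k =>
      tr_star_mul (sqSum hξ) _ _
    have hinv : ∀ s k, f (s * k * s⁻¹) = f k := by
      intro s k
      have hs : π s * x = x * π s := (hcomm _ (subset_vnGen _ _ ⟨s, rfl⟩)).symm
      simp only [hf]
      rw [hstar, mul_inv_rev, mul_inv_rev, inv_inv, map_mul, map_mul, hstar]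
      have e1 : π s * (π k⁻¹ * π s⁻¹) * x = π s * (π k⁻¹ * (π s⁻¹ * x)) := by
        simp only [mul_assoc]
      have hs' : π s⁻¹ * x = x * π s⁻¹ := (hcomm _ (subset_vnGen _ _ ⟨s⁻¹, rfl⟩)).symm
      rw [e1, hs', tr_mul_comm hξ (hmem s) (mul_mem (hmem _) (mul_mem hxM (hmem _)))]
      rw [mul_assoc, mul_assoc, ← map_mul, inv_mul_cancel, map_one, mul_one]
    have hsum : Summable fun k => ‖f k‖ ^ 2 := by
      simp_rw [hfio]
      exact hon.inner_products_summable (x := io (sqSum hξ) x)
    have hzero : ∀ k, k ≠ 1 → f k = 0 := by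
      intro k hk
      obtain ⟨s, hs⟩ := icc k hk
      have h2 := (hsum.comp_injective hs).tendsto_atTop_zero
      have h3 : (fun m => ((fun k => ‖f k‖ ^ 2) ∘ fun m => s m * k * (s m)⁻¹) m) =
          fun _ => ‖f k‖ ^ 2 := by
        funext m
        simp only [Function.comp_apply]
        rw [hinv]
      have h5 : Tendsto (fun _ : ℕ => ‖f k‖ ^ 2) atTop (𝓝 0) := by
        rw [← h3]; exact h2
      have h6 := tendsto_nhds_unique tendsto_const_nhds h5
      exact norm_eq_zero.1 (pow_eq_zero_iff (two_ne_zero) |>.1 h6)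
    -- `y = x - τ(x)`
    set y := x - tr ξ x • (1 : H →L[ℂ] H) with hy
    have hyN : y ∈ vnGen (Set.range π) := sub_mem hx (smul_mem' _ (one_mem _))
    have hyort : ∀ k, tr ξ (star (π k) * y) = 0 := by
      intro k
      rw [hy, mul_sub, mul_smul_comm, mul_one, tr_sub (sqSum hξ), tr_smul (sqSum hξ)]
      by_cases hk : k = 1
      · subst hk
        rw [map_one, star_one, one_mul, tr_one hξ, mul_one, sub_self]
      · have h1 := hzero k hk
        simp only [hf] at h1
        rw [h1, hstar, htr _ (fun h => hk (inv_eq_one.1 h)), mul_zero, sub_zero]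
    have hy0 : y = 0 := eq_zero_of_orth hξ π hmem hstar hyN hyort
    rw [hy, sub_eq_zero] at hy0
    exact hy0
  · -- infinite dimensional
    intro hfd
    obtain ⟨k, hk⟩ := exists_ne (1 : K)
    obtain ⟨s, hs⟩ := icc k hk
    let ev : (vnGen (Set.range π)).toStarSubalgebra →ₗ[ℂ] L2 H :=
      { toFun := fun x => io (sqSum hξ) (x : H →L[ℂ] H)
        map_add' := fun x y => map_add _ _ _
        map_smul' := fun c x => map_smul _ _ _ }
    let y : ℕ → (vnGen (Set.range π)).toStarSubalgebra :=
      fun m => ⟨π (s m * k * (s m)⁻¹), subset_vnGen _ _ ⟨_, rfl⟩⟩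
    have hli : LinearIndependent ℂ y := by
      have h1 := (hon.comp _ hs).linearIndependent
      have h2 : ((fun k => io (sqSum hξ) (π k)) ∘ fun m => s m * k * (s m)⁻¹) = ev ∘ y := rfl
      rw [h2] at h1
      exact h1.of_comp ev
    have := hli.lt_aleph0_of_finiteDimensional
    simp at this
  · exact ⟨hξ.1, fun x hx y hy => hξ.2.1 x (hle hx) y (hle hy),
      fun x hx h => hξ.2.2 x (hle hx) h⟩

end icc

section free

variable {α : Type*} [DecidableEq α]

/-- free groups with two letters are ICC -/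
theorem icc_freeGroup {a b : α} (hab : a ≠ b) (k : FreeGroup α) (hk : k ≠ 1) :
    ∃ s : ℕ → FreeGroup α, Function.Injective fun m => s m * k * (s m)⁻¹ := by
  by_cases h1 : k ∈ letterSub ({a} : Set α)
  · have h2 : k ∉ letterSub ({b} : Set α) := by
      intro h2
      apply hk
      rw [← FreeGroup.toWord_eq_nil_iff]
      by_contra hne
      obtain ⟨p, t, hpt⟩ := List.exists_cons_of_ne_nil hne
      have e1 := h1 p (by rw [hpt]; exact List.mem_cons_self)
      have e2 := h2 p (by rw [hpt]; exact List.mem_cons_self)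
      rw [Set.mem_singleton_iff] at e1 e2
      exact hab (e1.symm.trans e2)
    exact ⟨_, conj_injective h2⟩
  · exact ⟨_, conj_injective h1⟩

end free

end Crest.Agent.R134
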