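import Crest.Agent.R134.Defs
import Crest.Agent.R95.PauliAlg

/-!
# R134 : interface statements (all `sorry` here; do NOT import this file in proofs)

Owners prove exactly these statements in their own files (same names, in the sub-namespace of their
file or in `Crest.Agent.R134`); this file only documents them and checks that they typecheck.
-/

set_option autoImplicit false

universe u

namespace Crest.Agent.R134.Iface

open Crest.Agent.R95 Crest.Agent.R134 Filter Topology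

variable {A : Type u} [CStarAlgebra A] (T : TracialState A)

/-! ## FreeHaar.lean (helper954) -/

theorem FreeHaar.closure {S : Set A} {u : A}
    (h : FreeHaar T (StarAlgebra.adjoin ℂ S : Set A) u) : FreeHaar T (W T S : Set A) u := by
  sorry

theorem FreeHaar.mul {G : StarSubalgebra ℂ A} {u V V' : A} (h : FreeHaar T (G : Set A) u)
    (hV : V ∈ unitary A) (hVG : V ∈ G) (hV' : V' ∈ unitary A) (hVG' : V' ∈ G) :
    FreeHaar T (G : Set A) (V * u * V') := by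
  sorry

/-- extension of automorphisms -/
theorem FreeHaar.ext (hT : Amb T) {R G : StarSubalgebra ℂ A} (hR : TensorPos T (R : Set A))
    (hRG : ∀ r ∈ R, ∀ g ∈ G, r * g = g * r) {u u' : A} (hRu : ∀ r ∈ R, r * u = u * r)
    (hRu' : ∀ r ∈ R, r * u' = u' * r) (hu : FreeHaar T (G : Set A) u)
    (hu' : FreeHaar T (G : Set A) u')
    (hgen : ∀ x, x ∈ W T ((R : Set A) ∪ G ∪ {u})) (hgen' : ∀ x, x ∈ W T ((R : Set A) ∪ G ∪ {u'})) :
    ∃ α : A ≃⋆ₐ[ℂ] A, Pres T α ∧ Fixes α (R : Set A) ∧ Fixes α (G : Set A) ∧ α u = u' := by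
  sorry

/-! ## Semi.lean (helper403) -/

theorem SD.norm_le (hT : Amb T) {S : Set A} (hS : ∀ s ∈ S, star s ∈ S) {x : A} (h : SD T S x) :
    ‖x‖ ≤ 2 := by
  sorry

theorem SD.freeHaar (hT : Amb T) {S : Set A} (hS : ∀ s ∈ S, star s ∈ S) {x : A} (h : SD T S x) :
    FreeHaar T (StarAlgebra.adjoin ℂ S : Set A) (uu x) := by
  sorry

omit T in
theorem ru_unitary (d : ℕ) {x : A} (hx : IsSelfAdjoint x) : ru d x ∈ unitary A := by
  sorry

omit T in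
theorem ru_pow {d : ℕ} (hd : 0 < d) {x : A} (hx : IsSelfAdjoint x) : ru d x ^ d = uu x := by
  sorry

omit T in
theorem map_ru (d : ℕ) {x : A} (hx : IsSelfAdjoint x) (α : A ≃⋆ₐ[ℂ] A) : α (ru d x) = ru d (α x) := by
  sorry

omit T in
theorem map_uu {x : A} (hx : IsSelfAdjoint x) (α : A ≃⋆ₐ[ℂ] A) : α (uu x) = uu (α x) := by
  sorry

theorem ru_mem (d : ℕ) {x : A} (hx : IsSelfAdjoint x) : ru d x ∈ W T {x} := by
  sorry

theorem uu_mem {x : A} (hx : IsSelfAdjoint x) : uu x ∈ W T {x} := by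
  sorry

theorem SD.mem_W_uu (hT : Amb T) {S : Set A} (hS : ∀ s ∈ S, star s ∈ S) {x : A} (h : SD T S x) :
    x ∈ W T {uu x} := by
  sorry

/-- the mean of `ru d x` -/
noncomputable def kap (d : ℕ) : ℝ := (Sc fun t => (Real.cos (Θ t / d) : ℂ)).re

theorem kap_bounds {d : ℕ} (hd : 0 < d) : 0 ≤ kap d ∧ kap d ≤ 1 ∧ 1 - kap d ≤ 5 / (d : ℝ) ^ 2 := by
  sorry

theorem SD.tau_mul_ru (hT : Amb T) {S : Set A} (hS : ∀ s ∈ S, star s ∈ S) {x : A} (h : SD T S x)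
    {d : ℕ} (hd : 0 < d) {a : A} (ha : a ∈ W T S) : T.τ (a * ru d x) = kap d * T.τ a := by
  sorry

theorem inverse_a (ε : ℝ) (hε : 0 < ε) : ∃ δ : ℝ, 0 < δ ∧
    ∀ (A : Type u) [CStarAlgebra A] (T : TracialState A), Amb T → ∀ (S : Set A),
      (∀ s ∈ S, star s ∈ S) → ∀ x : A, SD T S x → ∀ α : A ≃⋆ₐ[ℂ] A, Pres T α →
        T.nrm2 (α (uu x) - uu x) < δ → T.nrm2 (α x - x) < ε := by
  sorry

theorem inverse_b (ε : ℝ) (hε : 0 < ε) : ∃ δ : ℝ, 0 < δ ∧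
    ∀ (A : Type u) [CStarAlgebra A] (T : TracialState A), Amb T → ∀ (S : Set A),
      (∀ s ∈ S, star s ∈ S) → ∀ x : A, SD T S x → ∀ V ∈ unitary A,
        T.nrm2 (V - uu x) < δ → ∃ z ∈ StarAlgebra.adjoin ℂ ({V} : Set A), IsSelfAdjoint z ∧
          T.nrm2 (z - x) < ε := by
  sorry

/-! ## Conv.lean (helper856) -/

/-- a Haar unitary free from `G` is the `uu` of a semicircular element free from `G`. -/
theorem exists_semicircular (hT : Amb T) {S : Set A} {u : A} (h : FreeHaar T (W T S : Set A) u) :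
    ∃ X : A, SD T (W T S : Set A) X ∧ ‖X‖ ≤ 2 ∧ uu X = u ∧ X ∈ W T {u} := by
  sorry

/-! ## PauliSD.lean (helper301) -/

theorem pauli_SD {ι : Type} [Fintype ι] [DecidableEq ι] (F : PauliSys A ι) {G : Set A} {X : A}
    (hG : ∀ i, F.f i ∈ G) (h : SD T G X) (i : ι) :
    SD T ({g | g ∈ G ∧ F.InQ g} ∪
        {z | ∃ k, k ≠ i ∧ z = ((Real.sqrt (Fintype.card ι) : ℝ) : ℂ) • F.E (F.f k * X)})
      (((Real.sqrt (Fintype.card ι) : ℝ) : ℂ) • F.E (F.f i * X)) := by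
  sorry

/-! ## Core.lean (helper795) -/

theorem core (hT : ∀ a : A, T.nrm2 a = 0 → a = 0) {I : Type} [Fintype I] [DecidableEq I] {N : ℕ}
    (B Fix : Set A) (u : I → A) (c w : Fin N → A) (d : Fin N → ℕ) (κ : Fin N → ℝ)
    (L : ∀ k, Fin (d k) → I) (hB : B ⊆ Fix)
    (hu : ∀ i, u i ∈ unitary A) (hc : ∀ k, c k ∈ unitary A) (hw : ∀ k, w k ∈ unitary A)
    (hwd : ∀ k, w k ^ d k = c k) (hwW : ∀ k, w k ∈ W T {c k})
    (hind : ∀ k, ∀ a ∈ W T (B ∪ Set.range u ∪ {z | ∃ l, l ≠ k ∧ z = c l}),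
      T.τ (a * w k) = κ k * T.τ a)
    (hEu : ∀ i, ∀ V ∈ unitary A, V ∈ W T (B ∪ {z | ∃ j, j ≠ i ∧ z = u j} ∪ Set.range c) →
      ∃ α : A ≃⋆ₐ[ℂ] A, Pres T α ∧ Fixes α Fix ∧ (∀ j, j ≠ i → α (u j) = u j) ∧
        (∀ k, α (c k) = c k) ∧ α (u i) = u i * V)
    (hEc : ∀ k, ∀ V ∈ unitary A, V ∈ W T (B ∪ Set.range u ∪ {z | ∃ l, l ≠ k ∧ z = c l}) →
      ∃ α : A ≃⋆ₐ[ℂ] A, Pres T α ∧ Fixes α Fix ∧ (∀ i, α (u i) = u i) ∧
        (∀ l, l ≠ k → α (c l) = c l) ∧ α (c k) = V * c k)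
    (hLinj : ∀ k, Function.Injective (L k))
    (hL2 : ∀ k k', k ≠ k' → ∀ l m l' m', L k l = L k' l' → L k m = L k' m' → l = m) :
    ∃ α : A ≃⋆ₐ[ℂ] A, Pres T α ∧ Fixes α Fix ∧
      (∀ k, T.τ (star (c k) * α (List.ofFn fun l => u (L k l)).prod) =
        ∏ k' with (k < k' ∧ ∃ l l', L k l = L k' l'), (κ k' : ℂ)) ∧
      (∀ i, T.τ (star (u i) * α (u i)) = ∏ k with (∃ l, L k l = i), (κ k : ℂ)) := by
  sorry

/-! ## Lines.lean (helper887) -/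

theorem exists_design (m : ℕ) (ε : ℝ) (hε : 0 < ε) :
    ∃ (J : ℕ) (d : Fin (m * 4 ^ J) → ℕ) (L : ∀ k, Fin (d k) → Fin (4 ^ J)),
      (∀ k, 0 < d k) ∧ (∀ k, Function.Injective (L k)) ∧
      (∀ k k', k ≠ k' → ∀ l m l' m', L k l = L k' l' → L k m = L k' m' → l = m) ∧
      (∀ k, ∑ k' with (k < k' ∧ ∃ l l', L k l = L k' l'), (5 : ℝ) / (d k' : ℝ) ^ 2 ≤ ε) ∧
      (∀ i, ∑ k with (∃ l, L k l = i), (5 : ℝ) / (d k : ℝ) ^ 2 ≤ ε) := by
  sorry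

/-! ## Absorb.lean (helper983) -/

/-- The standing data of the main theorem. -/
structure Data {m : ℕ} (R : StarSubalgebra ℂ A) (Q : Set A) (u v : ℕ → A) (x : A) (y : Fin m → A) :
    Prop where
  tens : TensorPos T (R : Set A)
  star_mem : ∀ q ∈ Q, star q ∈ Q
  comm : ∀ r ∈ R, ∀ q ∈ Q, r * q = q * r
  pairs : Pairs u v
  u_mem : ∀ j, u j ∈ Q
  v_mem : ∀ j, v j ∈ Q
  comm_x : ∀ r ∈ R, r * x = x * r
  comm_y : ∀ r ∈ R, ∀ j, r * y j = y j * r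
  sd_x : SD T (Q ∪ Set.range y) x
  sd_y : ∀ j, SD T (Q ∪ {x} ∪ {z | ∃ l, l ≠ j ∧ z = y l}) (y j)
  gen : ∀ z, z ∈ W T ((R : Set A) ∪ Q ∪ {x} ∪ Set.range y)

theorem absorb (hT : Amb T) {m : ℕ} {R : StarSubalgebra ℂ A} {Q : Set A} {u v : ℕ → A} {x : A}
    {y : Fin m → A} (h : Data T R Q u v x y) (ε : ℝ) (hε : 0 < ε) :
    ∃ α : A ≃⋆ₐ[ℂ] A, Pres T α ∧ Fixes α ((R : Set A) ∪ Q) ∧ T.nrm2 (α x - x) < ε ∧
      ∀ j, ∃ z ∈ W T ((R : Set A) ∪ Q ∪ {α x}), IsSelfAdjoint z ∧ T.nrm2 (z - y j) < ε := by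
  sorry

/-! ## Limit.lean -/

theorem main (hT : Amb T) {m : ℕ} {R : StarSubalgebra ℂ A} {Q : Set A} {u v : ℕ → A} {x : A}
    {y : Fin m → A} (h : Data T R Q u v x y) :
    ∃ x' : A, SD T Q x' ∧ (∀ r ∈ R, r * x' = x' * r) ∧
      ∀ z, z ∈ W T ((R : Set A) ∪ Q ∪ {x'}) := by
  sorry

end Crest.Agent.R134.Iface
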