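import Crest.Agent.R134.Data
import Crest.Agent.R95.PauliAlg

/-!
# R134 : interface statements for the case n = 2 (all `sorry`; do NOT import in proofs)
-/

set_option autoImplicit false

universe u

namespace Crest.Agent.R134.Iface2

open Crest.Agent.R95 Crest.Agent.R134 Filter Topology

variable {A : Type u} [CStarAlgebra A] (T : TracialState A)

/-- like `Der`, with `∂ X = ½ (1 ⊗ 1 + Z ⊗ Z)` -/
inductive DerZ (Z : A) (G : Set A) (X : A) : A → (A → A → ℂ) → Prop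
  | one : DerZ Z G X 1 (fun _ _ => 0)
  | coef {a : A} : a ∈ G → DerZ Z G X a (fun _ _ => 0)
  | var : DerZ Z G X X (fun p q => (T.τ p * T.τ q + T.τ (p * Z) * T.τ (Z * q)) / 2)
  | add {w w' : A} {D D' : A → A → ℂ} : DerZ Z G X w D → DerZ Z G X w' D' →
      DerZ Z G X (w + w') (fun p q => D p q + D' p q)
  | smul {w : A} {D : A → A → ℂ} (c : ℂ) : DerZ Z G X w D → DerZ Z G X (c • w) (fun p q => c * D p q)
  | mul {w w' : A} {D D' : A → A → ℂ} : DerZ Z G X w D → DerZ Z G X w' D' →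
      DerZ Z G X (w * w') (fun p q => D' (p * w) q + D p (w' * q))

/-- `X` is "semicircular, block diagonal with respect to `Z`", over `G` -/
def SDZ (Z : A) (G : Set A) (X : A) : Prop :=
  IsSelfAdjoint X ∧ ∀ (w : A) (D : A → A → ℂ), DerZ T Z G X w D → T.τ (X * w) = D 1 1

/-- (n2.1) the diagonal part of a semicircular element is SDZ over `G` and the off-diagonal part. -/
theorem sdz_diag {G : Set A} {X Z : A} (hZ : Z ∈ G) (hsa : IsSelfAdjoint Z) (hZ2 : Z * Z = 1)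
    (h : SD T G X) :
    SDZ T Z (G ∪ {(1 / 2 : ℂ) • (X - Z * X * Z)}) ((1 / 2 : ℂ) • (X + Z * X * Z)) := by
  sorry

/-- (n2.2) the off-diagonal part is (up to `√2`) a scalar semicircular element. -/
theorem sd_off {G : Set A} {X Z : A} (hZ : Z ∈ G) (hsa : IsSelfAdjoint Z) (hZ2 : Z * Z = 1)
    (hτ : T.τ Z = 0) (h : SD T G X) :
    SD T (∅ : Set A) ((((Real.sqrt 2 : ℝ) : ℂ) / 2) • (X - Z * X * Z)) := by
  sorry

/-- (n2.3) sign of a semicircular element (helper856) -/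
theorem exists_sign (hT : Amb T) {S : Set A} (hS : ∀ s ∈ S, star s ∈ S) {Y : A} (h : SD T S Y) :
    ∃ V : A, IsSelfAdjoint V ∧ V * V = 1 ∧ V ∈ W T {Y} ∧ T.τ V = 0 ∧
      (∀ α : A ≃⋆ₐ[ℂ] A, α Y = -Y → Pres T α → α V = -V) ∧
      (∀ Z : A, Z ∈ unitary A → Z * Y * star Z = -Y → Z * V * star Z = -V) ∧
      ∃ (p : ℕ → Polynomial ℂ), (∀ k, ‖Polynomial.aeval Y (p k)‖ ≤ 2) ∧
        Tendsto (fun k => T.nrm2 (Polynomial.aeval Y (p k) - V)) atTop (𝓝 0) := by
  sorry

/-- (n2.4) `SDZ` passes to bounded 2-norm limits of coefficients. -/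
theorem SDZ.closure {Z : A} {G G' : Set A} {X : A} (h : SDZ T Z G X)
    (hG : ∀ g ∈ G', ∃ (s : ℕ → A) (C : ℝ), (∀ k, s k ∈ StarAlgebra.adjoin ℂ G) ∧ (∀ k, ‖s k‖ ≤ C) ∧
      Tendsto (fun k => T.nrm2 (s k - g)) atTop (𝓝 0)) (hstar : ∀ g ∈ G, star g ∈ G) :
    SDZ T Z (G ∪ G') X := by
  sorry

/-- (n2.5) Pauli coordinates of a block diagonal semicircular element: `F` has card 4 in the
application, `f o = 1`, `f z = Z`. The coordinates with index commuting with `Z` are free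
semicircular over the commutant. -/
theorem pauli_SDZ {ι : Type} [Fintype ι] [DecidableEq ι] (F : PauliSys A ι) {G : Set A} {X Z : A}
    (hG : ∀ i, F.f i ∈ G) (z : ι) (hz : F.f z = Z) (h : SDZ T Z G X) (i : ι) (hi : F.c i z = 1) :
    SD T ({g | g ∈ G ∧ F.InQ g} ∪
        {w | ∃ k, k ≠ i ∧ w = ((Real.sqrt (Fintype.card ι) : ℝ) : ℂ) • F.E (F.f k * X)})
      (((Real.sqrt (Fintype.card ι) : ℝ) : ℂ) • F.E (F.f i * X)) := by
  sorry

/-- (n2.6) two *-free Haar unitaries generate a factor that contains commuting Pauli pairs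
(for `A` = a von Neumann algebra in standard form). -/
def HasFreePauli (T : TracialState A) : Prop :=
  ∀ a b : A, a ∈ unitary A → (∀ k : ℕ, 0 < k → T.τ (a ^ k) = 0) → FreeHaar T (W T {a} : Set A) b →
    ∃ u v : ℕ → A, Pairs u v ∧ (∀ j, u j ∈ W T {a, b}) ∧ (∀ j, v j ∈ W T {a, b})

/-- (n2.7) the conclusion for n = 2 in the abstract frame: from three free Haar unitaries generating `A`
we get two free Haar unitaries generating `A`. -/
theorem two_three (hT : Amb T) (hP : HasFreePauli T) {a b c : A}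
    (ha : a ∈ unitary A) (ha' : ∀ k : ℕ, 0 < k → T.τ (a ^ k) = 0)
    (hb : FreeHaar T (W T {a, c} : Set A) b) (hc : FreeHaar T (W T {a, b} : Set A) c)
    (hgen : ∀ z, z ∈ W T {a, b, c}) :
    ∃ b' : A, FreeHaar T (W T {a} : Set A) b' ∧ ∀ z, z ∈ W T {a, b'} := by
  sorry

/-- (n ≥ 3) the conclusion in the abstract frame: `S` = the first `n-1` generators. -/
theorem many (hT : Amb T) {S : Set A} {a b c : A} (u v : ℕ → A) (huv : Pairs u v)
    (hu : ∀ j, u j ∈ W T S) (hv : ∀ j, v j ∈ W T S)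
    (hb : FreeHaar T (W T (S ∪ {c}) : Set A) b) (hc : FreeHaar T (W T (S ∪ {b}) : Set A) c)
    (hgen : ∀ z, z ∈ W T (S ∪ {b, c})) :
    ∃ b' : A, FreeHaar T (W T S : Set A) b' ∧ ∀ z, z ∈ W T (S ∪ {b'}) := by
  sorry

end Crest.Agent.R134.Iface2
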