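import Crest.Agent.R134.Absorb
import Crest.Agent.R134.Limit

/-!
# R134 : the main theorem
-/

set_option autoImplicit false

universe u

namespace Crest.Agent.R134

open Crest.Agent.R95 Filter Topology

variable {A : Type u} [CStarAlgebra A] (T : TracialState A)

/-- **Main theorem**, with the approximating automorphisms. -/
theorem main' (hT : Amb T) {m : ℕ} {R : StarSubalgebra ℂ A} {Q : Set A} {u v : ℕ → A} {x : A}
    {y : Fin m → A} (h : Data T R Q u v x y) :
    ∃ (x' : A) (α : ℕ → A ≃⋆ₐ[ℂ] A), SD T Q x' ∧ (∀ r ∈ R, r * x' = x' * r) ∧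
      (∀ z, z ∈ W T ((R : Set A) ∪ Q ∪ {x'})) ∧ (∀ n, Pres T (α n)) ∧
      (∀ n, Fixes (α n) ((R : Set A) ∪ Q)) ∧
      Tendsto (fun n => T.nrm2 (α n x - x')) atTop (𝓝 0) :=
  Limit.main_of_absorb' hT h (absorb hT h)

/-- **Main theorem**: `m + 1` free semicircular elements (over `Q`, commuting with `R`) can be
replaced by one. -/
theorem main (hT : Amb T) {m : ℕ} {R : StarSubalgebra ℂ A} {Q : Set A} {u v : ℕ → A} {x : A}
    {y : Fin m → A} (h : Data T R Q u v x y) :
    ∃ x' : A, SD T Q x' ∧ (∀ r ∈ R, r * x' = x' * r) ∧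
      ∀ z, z ∈ W T ((R : Set A) ∪ Q ∪ {x'}) :=
  Limit.main_of_absorb hT h (absorb hT h)

end Crest.Agent.R134
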