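import Crest.Agent.R134.Main
import Crest.Agent.R134.Conv
import Crest.Agent.R134.Final

/-!
# R134 : the abstract conclusion for `n ≥ 3`
-/

set_option autoImplicit false

universe u

namespace Crest.Agent.R134

open Crest.Agent.R95 Filter Topology

variable {A : Type u} [CStarAlgebra A] (T : TracialState A)

theorem manyX (hT : Amb T) {S : Set A} {b c : A} (u v : ℕ → A) (huv : Pairs u v)
    (hu : ∀ j, u j ∈ W T S) (hv : ∀ j, v j ∈ W T S)
    (hb : FreeHaar T (W T (S ∪ {c}) : Set A) b) (hc : FreeHaar T (W T (S ∪ {b}) : Set A) c)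
    (hgen : ∀ z, z ∈ W T (S ∪ {b, c})) :
    ∃ b' : A, FreeHaar T (W T S : Set A) b' ∧ ∀ z, z ∈ W T (S ∪ {b'}) := by
  obtain ⟨X, hX, _, hXu, hXW⟩ := Conv.exists_semicircular hT hb
  obtain ⟨Y, hY, _, hYu, hYW⟩ := Conv.exists_semicircular hT hc
  have hD : Data T (⊥ : StarSubalgebra ℂ A) (W T S : Set A) u v X (fun _ : Fin 1 => Y) := by
    have hbot : ∀ r ∈ (⊥ : StarSubalgebra ℂ A), ∃ c : ℂ, r = algebraMap ℂ A c := by
      intro r hr
      obtain ⟨c, rfl⟩ := StarSubalgebra.mem_bot.1 hr
      exact ⟨c, rfl⟩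
    have hcomm : ∀ r ∈ (⊥ : StarSubalgebra ℂ A), ∀ z : A, r * z = z * r := by
      intro r hr z
      obtain ⟨c, rfl⟩ := hbot r hr
      exact Algebra.commutes c z
    refine ⟨?_, fun q hq => star_mem hq, fun r hr q _ => hcomm r hr q, huv, hu, hv,
      fun r hr => hcomm r hr X, fun r hr _ => hcomm r hr Y, ?_, ?_, ?_⟩
    · intro r hr q _
      obtain ⟨c, rfl⟩ := hbot r hr
      rw [Algebra.algebraMap_eq_smul_one, smul_mul_assoc, one_mul, map_smul, map_smul, T.one,
        smul_eq_mul, smul_eq_mul, mul_one]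
    · refine hX.mono ?_
      rintro z (hz | ⟨_, rfl⟩)
      · exact W_mono T Set.subset_union_left hz
      · exact W_mono T Set.subset_union_right hYW
    · intro j
      refine hY.mono ?_
      rintro z ((hz | hz) | ⟨l, hl, _⟩)
      · exact W_mono T Set.subset_union_left hz
      · rw [Set.mem_singleton_iff] at hz
        subst hz
        exact W_mono T Set.subset_union_right hXW
      · exact absurd (Subsingleton.elim l j) hl
    · intro z
      refine W_le T ?_ (hgen z)
      rintro w (hw | hw)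
      · exact subset_W T _ (Or.inl (Or.inl (Or.inr (subset_W T S hw))))
      · rcases hw with rfl | hw
        · rw [← hXu]
          exact W_mono T (Set.singleton_subset_iff.2 (Or.inl (Or.inr rfl))) (uu_mem T hX.1)
        · rw [Set.mem_singleton_iff] at hw
          subst hw
          rw [← hYu]
          exact W_mono T (Set.singleton_subset_iff.2 (Or.inr ⟨0, rfl⟩)) (uu_mem T hY.1)
  obtain ⟨x', hx', _, hgen'⟩ := main T hT hD
  have hstar : ∀ s ∈ (W T S : Set A), star s ∈ (W T S : Set A) := fun s hs => star_mem hs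
  refine ⟨uu x', ?_, ?_⟩
  · have h1 := SD.freeHaar T hT hstar hx'
    have e : StarAlgebra.adjoin ℂ (W T S : Set A) = W T S :=
      le_antisymm (StarAlgebra.adjoin_le (Set.Subset.refl _)) (StarAlgebra.subset_adjoin ℂ _)
    rwa [e] at h1
  · intro z
    refine W_le T ?_ (hgen' z)
    rintro w ((hw | hw) | hw)
    · obtain ⟨c, rfl⟩ := StarSubalgebra.mem_bot.1 hw
      exact StarSubalgebra.algebraMap_mem _ _
    · exact W_mono T Set.subset_union_left hw
    · rw [Set.mem_singleton_iff] at hw
      subst hw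
      exact W_mono T Set.subset_union_right (SD.mem_W_uu T hT hstar hx')

end Crest.Agent.R134
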