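import Crest.Agent.R134.FreeHaar
import Crest.Agent.R134.PauliSD

/-!
R134 (helper954): auxiliary lemmas for the case `n = 2` (closedness of commutants, Pauli algebra in
tensor position, limits of automorphisms, bounded limits).
-/

set_option autoImplicit false
set_option linter.unusedSectionVars false

universe u

namespace Crest.Agent.R134

open Crest.Agent.R95 Filter Topology

variable {A : Type u} [CStarAlgebra A] (T : TracialState A)

/-! ## commutants are closed -/

theorem eq_of_nrm2_le (hT : ∀ a : A, T.nrm2 a = 0 → a = 0) {x y : A}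
    (h : ∀ ε : ℝ, 0 < ε → T.nrm2 (x - y) ≤ ε) : x = y := by
  rw [← sub_eq_zero]
  apply hT
  refine le_antisymm (le_of_forall_pos_le_add fun ε hε => ?_) (T.nrm2_nonneg _)
  rw [zero_add]; exact h ε hε

/-- commutation with a fixed element passes to 2-norm limits -/
theorem commute_of_approx (hT : ∀ a : A, T.nrm2 a = 0 → a = 0) {t z : A}
    (h : ∀ ε : ℝ, 0 < ε → ∃ y, t * y = y * t ∧ T.nrm2 (z - y) < ε) : t * z = z * t := by
  refine eq_of_nrm2_le T hT fun ε hε => ?_
  obtain ⟨y, hy, hzy⟩ := h (ε / (2 * (‖t‖ + 1))) (by positivity)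
  have e : t * z - z * t = t * (z - y) - (z - y) * t := by
    rw [mul_sub, sub_mul, hy]; abel
  rw [e]
  refine (T.nrm2_sub_le _ _).trans ?_
  have h1 := T.nrm2_mul_le_left t (z - y)
  have h2 := T.nrm2_mul_le_right (z - y) t
  have h3 : ‖t‖ * T.nrm2 (z - y) ≤ ‖t‖ * (ε / (2 * (‖t‖ + 1))) := by gcongr
  have h4 : T.nrm2 (z - y) * ‖t‖ ≤ (ε / (2 * (‖t‖ + 1))) * ‖t‖ := by gcongr
  have h5 : ‖t‖ * (ε / (2 * (‖t‖ + 1))) ≤ ε / 2 := by
    rw [mul_div_assoc', div_le_div_iff₀ (by positivity) (by norm_num)]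
    nlinarith [norm_nonneg t]
  linarith

theorem W_le_centralizer (hT : ∀ a : A, T.nrm2 a = 0 → a = 0) {S s : Set A}
    (h : S ⊆ StarSubalgebra.centralizer ℂ s) : W T S ≤ StarSubalgebra.centralizer ℂ s := by
  have hadj : StarAlgebra.adjoin ℂ S ≤ StarSubalgebra.centralizer ℂ s :=
    StarAlgebra.adjoin_le h
  intro z hz
  rw [StarSubalgebra.mem_centralizer_iff]
  intro g hg
  constructor
  · refine commute_of_approx T hT fun ε hε => ?_
    obtain ⟨a, ha, hza⟩ := hz ε hε
    exact ⟨a, (StarSubalgebra.mem_centralizer_iff ℂ |>.1 (hadj ha) g hg).1, hza⟩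
  · refine commute_of_approx T hT fun ε hε => ?_
    obtain ⟨a, ha, hza⟩ := hz ε hε
    exact ⟨a, (StarSubalgebra.mem_centralizer_iff ℂ |>.1 (hadj ha) g hg).2, hza⟩

/-- the 2-norm closure of the scalars -/
theorem mem_W_empty (hT : ∀ a : A, T.nrm2 a = 0 → a = 0) {x : A} (hx : x ∈ W T (∅ : Set A)) :
    x = T.τ x • (1 : A) := by
  refine eq_of_nrm2_le T hT fun ε hε => ?_
  obtain ⟨a, ha, hxa⟩ := hx (ε / 2) (by positivity)
  have ha' : a ∈ (⊥ : StarSubalgebra ℂ A) :=
    StarAlgebra.adjoin_le (S := (⊥ : StarSubalgebra ℂ A)) (Set.empty_subset _) ha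
  obtain ⟨c, rfl⟩ := StarSubalgebra.mem_bot.1 ha'
  have e1 : x - T.τ x • (1 : A) = (x - algebraMap ℂ A c) + (c - T.τ x) • (1 : A) := by
    rw [sub_smul, Algebra.algebraMap_eq_smul_one]; abel
  rw [e1]
  refine (T.nrm2_add_le _ _).trans ?_
  have h2 : ‖c - T.τ x‖ ≤ T.nrm2 (x - algebraMap ℂ A c) := by
    have e2 : c - T.τ x = - T.τ ((x - algebraMap ℂ A c) * 1) := by
      rw [mul_one, map_sub, Algebra.algebraMap_eq_smul_one, map_smul, T.one]
      simp
    rw [e2, norm_neg]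
    refine (T.norm_tau_mul_le _ _).trans ?_
    rw [T.nrm2_one, mul_one]
  rw [T.nrm2_smul, T.nrm2_one, mul_one]
  linarith

/-! ## Pauli systems -/

section Pauli

variable {ι : Type} [Fintype ι] [DecidableEq ι] (F : PauliSys A ι)

theorem inQ_iff {q : A} : F.InQ q ↔ q ∈ StarSubalgebra.centralizer ℂ (Set.range F.f) := by
  rw [StarSubalgebra.mem_centralizer_iff]
  constructor
  · rintro h _ ⟨i, rfl⟩
    exact ⟨h i, by rw [F.star_f]; exact h i⟩
  · intro h i
    exact (h _ ⟨i, rfl⟩).1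

theorem inQ_of_mem_W (hT : ∀ a : A, T.nrm2 a = 0 → a = 0) {S : Set A} (hS : ∀ s ∈ S, F.InQ s)
    {z : A} (hz : z ∈ W T S) : F.InQ z := by
  rw [inQ_iff]
  exact W_le_centralizer T hT (fun s hs => (inQ_iff F).1 (hS s hs)) hz

/-- the star algebra generated by a Pauli system -/
noncomputable def pAlg : StarSubalgebra ℂ A := StarAlgebra.adjoin ℂ (Set.range F.f)

theorem pAlg_span {r : A} (hr : r ∈ pAlg F) : r ∈ Submodule.span ℂ (Set.range F.f) := by
  unfold pAlg at hr
  induction hr using StarAlgebra.adjoin_induction with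
  | mem x hx => exact Submodule.subset_span hx
  | algebraMap c =>
    rw [Algebra.algebraMap_eq_smul_one, ← F.f_o]
    exact Submodule.smul_mem _ _ (Submodule.subset_span ⟨F.o, rfl⟩)
  | add x y _ _ hx hy => exact Submodule.add_mem _ hx hy
  | mul x y _ _ hx hy =>
    have h1 : x * y ∈ Submodule.span ℂ (Set.range F.f) * Submodule.span ℂ (Set.range F.f) :=
      Submodule.mul_mem_mul hx hy
    rw [Submodule.span_mul_span] at h1
    refine Submodule.span_le.2 ?_ h1
    rintro _ ⟨_, ⟨i, rfl⟩, _, ⟨j, rfl⟩, rfl⟩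
    obtain ⟨σ, hσ⟩ := F.perm i
    obtain ⟨c, -, hc⟩ := hσ j
    change F.f i * F.f j ∈ Submodule.span ℂ (Set.range F.f)
    rw [hc]
    exact Submodule.smul_mem _ _ (Submodule.subset_span ⟨_, rfl⟩)
  | star x _ hx =>
    refine Submodule.span_induction (p := fun x _ => star x ∈ Submodule.span ℂ (Set.range F.f))
      ?_ ?_ ?_ ?_ hx
    · rintro _ ⟨i, rfl⟩
      rw [F.star_f]; exact Submodule.subset_span ⟨i, rfl⟩
    · rw [star_zero]; exact Submodule.zero_mem _
    · intro a b _ _ ha hb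
      rw [star_add]; exact Submodule.add_mem _ ha hb
    · intro c a _ ha
      rw [star_smul]; exact Submodule.smul_mem _ _ ha

theorem pAlg_comm {r q : A} (hr : r ∈ pAlg F) (hq : F.InQ q) : r * q = q * r := by
  refine Submodule.span_induction (p := fun x _ => x * q = q * x) ?_ ?_ ?_ ?_ (pAlg_span F hr)
  · rintro _ ⟨i, rfl⟩; exact hq i
  · rw [zero_mul, mul_zero]
  · intro a b _ _ ha hb; rw [add_mul, mul_add, ha, hb]
  · intro c a _ ha; rw [smul_mul_assoc, mul_smul_comm, ha]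

theorem pAlg_tensorPos : TensorPos T (pAlg F : Set A) := by
  intro r hr q hq
  have hqQ : F.InQ q := fun i => hq _ (StarAlgebra.subset_adjoin ℂ _ ⟨i, rfl⟩)
  have key : ∀ i, T.τ (F.f i * q) = T.τ (F.f i) * T.τ q := by
    intro i
    have h1 := F.orth T hqQ F.o i
    have h2 := F.orth T F.inQ_one F.o i
    rw [F.f_o, one_mul] at h1 h2
    rw [mul_one, T.one] at h2
    rw [h1, h2]
    split_ifs <;> simp
  refine Submodule.span_induction (p := fun x _ => T.τ (x * q) = T.τ x * T.τ q) ?_ ?_ ?_ ?_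
    (pAlg_span F hr)
  · rintro _ ⟨i, rfl⟩; exact key i
  · rw [zero_mul, map_zero, zero_mul]
  · intro a b _ _ ha hb; rw [add_mul, map_add, map_add, add_mul, ha, hb]
  · intro c a _ ha
    rw [smul_mul_assoc, map_smul, map_smul, ha, smul_eq_mul, smul_eq_mul, mul_assoc]

end Pauli

/-! ## bounded limits -/

/-- bounded 2-norm limits of elements of `B` -/
def BLSet (B : StarSubalgebra ℂ A) : Set A :=
  {g | ∃ (s : ℕ → A) (C : ℝ), (∀ k, s k ∈ B) ∧ (∀ k, ‖s k‖ ≤ C) ∧
    Tendsto (fun k => T.nrm2 (s k - g)) atTop (𝓝 0)}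

/-- bounded 2-norm limits of elements of `B`, a star subalgebra -/
def BL (B : StarSubalgebra ℂ A) : StarSubalgebra ℂ A where
  carrier := BLSet T B
  mul_mem' := by
    rintro x y ⟨s, C, hs, hC, hx⟩ ⟨t, D, ht, hD, hy⟩
    refine ⟨fun k => s k * t k, C * D, fun k => mul_mem (hs k) (ht k), fun k => ?_, ?_⟩
    · exact (norm_mul_le _ _).trans (mul_le_mul (hC k) (hD k) (norm_nonneg _)
        ((norm_nonneg _).trans (hC k)))
    · have h3 : Tendsto (fun k => C * T.nrm2 (t k - y) + T.nrm2 (s k - x) * ‖y‖) atTop (𝓝 0) := by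
        simpa using (hy.const_mul C).add (hx.mul_const ‖y‖)
      refine squeeze_zero (fun k => T.nrm2_nonneg _) (fun k => ?_) h3
      have e : s k * t k - x * y = s k * (t k - y) + (s k - x) * y := by noncomm_ring
      rw [e]
      refine (T.nrm2_add_le _ _).trans (add_le_add ?_ (T.nrm2_mul_le_right _ _))
      refine (T.nrm2_mul_le_left _ _).trans ?_
      exact mul_le_mul_of_nonneg_right (hC k) (T.nrm2_nonneg _)
  add_mem' := by
    rintro x y ⟨s, C, hs, hC, hx⟩ ⟨t, D, ht, hD, hy⟩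
    refine ⟨fun k => s k + t k, C + D, fun k => add_mem (hs k) (ht k), fun k => ?_, ?_⟩
    · exact (norm_add_le _ _).trans (add_le_add (hC k) (hD k))
    · have h3 : Tendsto (fun k => T.nrm2 (s k - x) + T.nrm2 (t k - y)) atTop (𝓝 0) := by
        simpa using hx.add hy
      refine squeeze_zero (fun k => T.nrm2_nonneg _) (fun k => ?_) h3
      have e : s k + t k - (x + y) = (s k - x) + (t k - y) := by abel
      rw [e]
      exact T.nrm2_add_le _ _
  algebraMap_mem' := by
    intro r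
    refine ⟨fun _ => algebraMap ℂ A r, ‖algebraMap ℂ A r‖, fun _ => algebraMap_mem _ r,
      fun _ => le_rfl, ?_⟩
    simp [T.nrm2_zero]
  star_mem' := by
    rintro x ⟨s, C, hs, hC, hx⟩
    refine ⟨fun k => star (s k), C, fun k => star_mem (hs k), fun k => ?_, ?_⟩
    · rw [norm_star]; exact hC k
    · refine hx.congr fun k => ?_
      rw [← star_sub, T.nrm2_star]

theorem subset_BL (B : StarSubalgebra ℂ A) : B ≤ BL T B := by
  intro x hx
  refine ⟨fun _ => x, ‖x‖, fun _ => hx, fun _ => le_rfl, ?_⟩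
  simp [T.nrm2_zero]

/-! ## limits of automorphisms -/

/-- `α_k z → z'` in 2-norm -/
def Lim (α : ℕ → (A ≃⋆ₐ[ℂ] A)) (z z' : A) : Prop :=
  Tendsto (fun k => T.nrm2 (α k z - z')) atTop (𝓝 0)

variable {T}

theorem Lim.unique (hT : ∀ a : A, T.nrm2 a = 0 → a = 0) {α : ℕ → (A ≃⋆ₐ[ℂ] A)} {z x y : A}
    (hx : Lim T α z x) (hy : Lim T α z y) : x = y := by
  refine eq_of_nrm2_le T hT fun ε hε => ?_
  have h1 : ∀ᶠ k in atTop, T.nrm2 (α k z - x) < ε / 2 := hx.eventually_lt_const (by positivity)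
  have h2 : ∀ᶠ k in atTop, T.nrm2 (α k z - y) < ε / 2 := hy.eventually_lt_const (by positivity)
  obtain ⟨k, hk1, hk2⟩ := (h1.and h2).exists
  have h3 := T.nrm2_triangle x (α k z) y
  rw [T.nrm2_sub_comm x (α k z)] at h3
  linarith

theorem Lim.of_fixes {α : ℕ → (A ≃⋆ₐ[ℂ] A)} {z : A} (h : ∀ k, α k z = z) : Lim T α z z := by
  unfold Lim
  simp [h, T.nrm2_zero]

theorem Lim.add {α : ℕ → (A ≃⋆ₐ[ℂ] A)} {x x' y y' : A} (hx : Lim T α x x') (hy : Lim T α y y') :
    Lim T α (x + y) (x' + y') := by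
  have h3 : Tendsto (fun k => T.nrm2 (α k x - x') + T.nrm2 (α k y - y')) atTop (𝓝 0) := by
    simpa using Tendsto.add hx hy
  refine squeeze_zero (fun k => T.nrm2_nonneg _) (fun k => ?_) h3
  have e : α k (x + y) - (x' + y') = (α k x - x') + (α k y - y') := by rw [map_add]; abel
  rw [e]
  exact T.nrm2_add_le _ _

theorem Lim.mul {α : ℕ → (A ≃⋆ₐ[ℂ] A)} {x x' y y' : A} (hx : Lim T α x x') (hy : Lim T α y y') :
    Lim T α (x * y) (x' * y') := by
  have h3 : Tendsto (fun k => ‖x‖ * T.nrm2 (α k y - y') + T.nrm2 (α k x - x') * ‖y'‖) atTop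
      (𝓝 0) := by
    simpa using (Tendsto.const_mul ‖x‖ hy).add (Tendsto.mul_const ‖y'‖ hx)
  refine squeeze_zero (fun k => T.nrm2_nonneg _) (fun k => ?_) h3
  have e : α k (x * y) - x' * y' = α k x * (α k y - y') + (α k x - x') * y' := by
    rw [map_mul]; noncomm_ring
  rw [e]
  refine (T.nrm2_add_le _ _).trans (add_le_add ?_ (T.nrm2_mul_le_right _ _))
  refine (T.nrm2_mul_le_left _ _).trans ?_
  rw [StarAlgEquiv.norm_map]

theorem Lim.st {α : ℕ → (A ≃⋆ₐ[ℂ] A)} {x x' : A} (hx : Lim T α x x') :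
    Lim T α (star x) (star x') := by
  refine Tendsto.congr (fun k => ?_) hx
  rw [map_star, ← star_sub, T.nrm2_star]

theorem Lim.one {α : ℕ → (A ≃⋆ₐ[ℂ] A)} : Lim T α 1 1 := Lim.of_fixes fun _ => map_one _

/-- limits of automorphisms exist on `W T S` as soon as they exist on `S` -/
theorem exists_lim (hT : Amb T) {α : ℕ → (A ≃⋆ₐ[ℂ] A)} (hα : ∀ k, Pres T (α k)) {S S' : Set A}
    (h : ∀ s ∈ S, ∃ s' ∈ W T S', Lim T α s s') {z : A} (hz : z ∈ W T S) :
    ∃ z' ∈ W T S', Lim T α z z' := by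
  have hadj : ∀ z ∈ StarAlgebra.adjoin ℂ S, ∃ z' ∈ W T S', Lim T α z z' := by
    intro z hz
    induction hz using StarAlgebra.adjoin_induction with
    | mem x hx => exact h x hx
    | algebraMap r =>
      refine ⟨algebraMap ℂ A r, algebraMap_mem _ r, Lim.of_fixes fun _ => ?_⟩
      rw [Algebra.algebraMap_eq_smul_one, map_smul, map_one]
    | add x y _ _ hx hy =>
      obtain ⟨x', hx', h1⟩ := hx
      obtain ⟨y', hy', h2⟩ := hy
      exact ⟨x' + y', add_mem hx' hy', h1.add h2⟩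
    | mul x y _ _ hx hy =>
      obtain ⟨x', hx', h1⟩ := hx
      obtain ⟨y', hy', h2⟩ := hy
      exact ⟨x' * y', mul_mem hx' hy', h1.mul h2⟩
    | star x _ hx =>
      obtain ⟨x', hx', h1⟩ := hx
      exact ⟨star x', star_mem hx', h1.st⟩
  -- Cauchy
  obtain ⟨z', hz'n, hz'⟩ := hT.complete (fun k => α k z) ‖z‖
    (fun k => (StarAlgEquiv.norm_map (α k) z).le) (by
      intro ε hε
      obtain ⟨a, ha, hza⟩ := hz (ε / 4) (by positivity)
      obtain ⟨a', -, haa'⟩ := hadj a ha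
      have h1 : ∀ᶠ k in atTop, T.nrm2 (α k a - a') < ε / 4 :=
        haa'.eventually_lt_const (by positivity)
      obtain ⟨K, hK⟩ := eventually_atTop.1 h1
      refine ⟨K, fun k hk l hl => ?_⟩
      have e1 : T.nrm2 (α k z - α k a) < ε / 4 := by
        rw [← map_sub, (hα k).nrm2]; exact hza
      have e2 : T.nrm2 (α l z - α l a) < ε / 4 := by
        rw [← map_sub, (hα l).nrm2]; exact hza
      have h3 := T.nrm2_triangle (α k z) (α k a) (α l z)
      have h4 := T.nrm2_triangle (α k a) a' (α l z)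
      have h5 := T.nrm2_triangle a' (α l a) (α l z)
      rw [T.nrm2_sub_comm a' (α l a), T.nrm2_sub_comm (α l a) (α l z)] at h5
      linarith [hK k hk, hK l hl])
  refine ⟨z', mem_W_of_approx T fun ε hε => ?_, hz'⟩
  obtain ⟨a, ha, hza⟩ := hz (ε / 4) (by positivity)
  obtain ⟨a', ha'W, haa'⟩ := hadj a ha
  refine ⟨a', ha'W, ?_⟩
  have h1 : ∀ᶠ k in atTop, T.nrm2 (α k a - a') < ε / 4 :=
    haa'.eventually_lt_const (by positivity)
  have h2 : ∀ᶠ k in atTop, T.nrm2 (α k z - z') < ε / 4 :=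
    hz'.eventually_lt_const (by positivity)
  obtain ⟨k, hk1, hk2⟩ := (h1.and h2).exists
  have e1 : T.nrm2 (α k z - α k a) < ε / 4 := by
    rw [← map_sub, (hα k).nrm2]; exact hza
  have h3 := T.nrm2_triangle z' (α k z) a'
  have h4 := T.nrm2_triangle (α k z) (α k a) a'
  rw [T.nrm2_sub_comm z' (α k z)] at h3
  linarith

/-! ## limits of free Haar unitaries -/

theorem Lim.unitary (hT : ∀ a : A, T.nrm2 a = 0 → a = 0) {α : ℕ → (A ≃⋆ₐ[ℂ] A)} {u u' : A}
    (hu : u ∈ unitary A) (h : Lim T α u u') : u' ∈ unitary A := by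
  rw [Unitary.mem_iff] at hu ⊢
  constructor
  · have h1 : Lim T α (star u * u) (star u' * u') := h.st.mul h
    rw [hu.1] at h1
    exact h1.unique hT Lim.one
  · have h1 : Lim T α (u * star u) (u' * star u') := h.mul h.st
    rw [hu.2] at h1
    exact h1.unique hT Lim.one

theorem FreeHaar.lim (hT : ∀ a : A, T.nrm2 a = 0 → a = 0) {α : ℕ → (A ≃⋆ₐ[ℂ] A)}
    (hα : ∀ k, Pres T (α k)) {G : Set A} (hG : ∀ k, Fixes (α k) G) {u u' : A}
    (hu : FreeHaar T G u) (h : Lim T α u u') : FreeHaar T G u' := by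
  refine ⟨h.unitary hT hu.1, fun L hL hLG hA => ?_⟩
  have hw : ∀ L : List (Bool × A), (∀ p ∈ L, p.2 ∈ G) → Lim T α (word u L) (word u' L) := by
    intro L hL
    induction L with
    | nil => exact Lim.one
    | cons p L ih =>
      obtain ⟨b, a⟩ := p
      have hsg : Lim T α (sg u b) (sg u' b) := by
        cases b
        · exact h.st
        · exact h
      exact (hsg.mul (Lim.of_fixes fun k => hG k a (hL (b, a) (by simp)))).mul
        (ih fun p hp => hL p (by simp [hp]))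
  have h0 := hu.2 L hL hLG hA
  have h1 := hw L hLG
  rw [← norm_le_zero_iff]
  refine le_of_forall_pos_le_add fun ε hε => ?_
  rw [zero_add]
  have h2 : ∀ᶠ k in atTop, T.nrm2 (α k (word u L) - word u' L) < ε :=
    h1.eventually_lt_const hε
  obtain ⟨k, hk⟩ := h2.exists
  have h3 : T.τ (word u' L) = - T.τ ((α k (word u L) - word u' L) * 1) := by
    rw [mul_one, map_sub, hα k, h0]; ring
  rw [h3, norm_neg]
  refine (T.norm_tau_mul_le _ _).trans ?_
  rw [T.nrm2_one, mul_one]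
  exact hk.le

end Crest.Agent.R134
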