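import Crest.Agent.R134.Data

/-!
# R134 : shared definitions for the case n = 2 (`DerZ`, `SDZ`, exactly as in `Iface2.lean`)
-/

set_option autoImplicit false

universe u

namespace Crest.Agent.R134

open Crest.Agent.R95

variable {A : Type u} [CStarAlgebra A] (T : TracialState A)

/-- like `Der`, with `∂ X = ½ (1 ⊗ 1 + Z ⊗ Z)` -/
inductive DerZ (Z : A) (G : Set A) (X : A) : A → (A → A → ℂ) → Prop
  | one : DerZ Z G X 1 (fun _ _ => 0)
  | coef {a : A} : a ∈ G → DerZ Z G X a (fun _ _ => 0)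
  | var : DerZ Z G X X (fun p q => (T.τ p * T.τ q + T.τ (p * Z) * T.τ (Z * q)) / 2)
  | add {w w' : A} {D D' : A → A → ℂ} : DerZ Z G X w D → DerZ Z G X w' D' →
      DerZ Z G X (w + w') (fun p q => D p q + D' p q)
  | smul {w : A} {D : A → A → ℂ} (c : ℂ) : DerZ Z G X w D → DerZ Z G X (c • w) (fun p q => c * D p q)
  | mul {w w' : A} {D D' : A → A → ℂ} : DerZ Z G X w D → DerZ Z G X w' D' →
      DerZ Z G X (w * w') (fun p q => D' (p * w) q + D p (w' * q))

/-- `X` is "semicircular, block diagonal with respect to `Z`", over `G` -/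
def SDZ (Z : A) (G : Set A) (X : A) : Prop :=
  IsSelfAdjoint X ∧ ∀ (w : A) (D : A → A → ℂ), DerZ T Z G X w D → T.τ (X * w) = D 1 1

end Crest.Agent.R134
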