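import Crest.Agent.R134.N2Defs
import Crest.Agent.R134.PauliSD

/-!
# R134 (helper887): Pauli coordinates of a block diagonal semicircular element (`pauli_SDZ`)
-/

set_option autoImplicit false
set_option linter.unusedSectionVars false

universe u

namespace Crest.Agent.R134

open Crest.Agent.R95

variable {A : Type u} [CStarAlgebra A] (T : TracialState A)

theorem DerZ.zero {Z : A} {G : Set A} {X : A} : DerZ T Z G X 0 (fun _ _ => 0) := by
  have := DerZ.smul (T := T) (Z := Z) (G := G) (X := X) 0 DerZ.one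
  simpa using this

theorem DerZ.sum {Z : A} {G : Set A} {X : A} {α : Type*} (s : Finset α) (w : α → A)
    (D : α → A → A → ℂ) (h : ∀ k ∈ s, DerZ T Z G X (w k) (D k)) :
    DerZ T Z G X (∑ k ∈ s, w k) (fun p q => ∑ k ∈ s, D k p q) := by
  classical
  induction s using Finset.induction_on with
  | empty => simpa using DerZ.zero (T := T)
  | insert k s hk ih =>
    simp only [Finset.sum_insert hk]
    exact DerZ.add (h k (Finset.mem_insert_self k s))
      (ih fun j hj => h j (Finset.mem_insert_of_mem hj))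

section Pauli

variable {ι : Type} [Fintype ι] [DecidableEq ι] (F : PauliSys A ι)

/-- the bilinear form of the `Z`-derivative of a coordinate -/
theorem derZ_coo {G : Set A} {Z : A} (hG : ∀ i, F.f i ∈ G) (X : A) (j : ι) :
    DerZ T Z G X (coo F X j) (fun p q => ((rt ι : ℝ) : ℂ)⁻¹ *
      ∑ h, (T.τ (p * (F.f h * F.f j)) * T.τ (F.f h * q) +
        T.τ (p * (F.f h * F.f j) * Z) * T.τ (Z * (F.f h * q))) / 2) := by
  have h1 : ∀ h : ι, DerZ T Z G X (F.f h * (F.f j * X) * F.f h)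
      (fun p q => (T.τ (p * (F.f h * F.f j)) * T.τ (F.f h * q) +
        T.τ (p * (F.f h * F.f j) * Z) * T.τ (Z * (F.f h * q))) / 2) := by
    intro h
    have hd := DerZ.mul (DerZ.mul (DerZ.coef (T := T) (Z := Z) (X := X) (hG h))
      (DerZ.mul (DerZ.coef (T := T) (Z := Z) (X := X) (hG j))
        (DerZ.var (T := T) (Z := Z) (G := G) (X := X))))
      (DerZ.coef (T := T) (Z := Z) (X := X) (hG h))
    convert hd using 1
    funext p q
    simp only [zero_add, add_zero, mul_assoc]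
  have h2 := DerZ.smul (((rt ι : ℝ) : ℂ)⁻¹) (DerZ.sum T Finset.univ _ _ fun h _ => h1 h)
  convert h2 using 1
  unfold coo
  rw [F.E_def, smul_smul, rt_mul_inv F]

/-- the second half of the orthogonality computation -/
theorem sum_tau_tau_Z {p q : A} (hp : F.InQ p) (hq : F.InQ q) (z i j : ι) (hi : F.c i z = 1) :
    ∑ h, T.τ (p * (F.f h * F.f j) * F.f z) * T.τ (F.f z * (F.f h * (q * F.f i)))
      = if j = i then T.τ p * T.τ q else 0 := by
  obtain ⟨σ, hσ⟩ := F.perm z
  choose ζ hζ1 hζ using hσ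
  have h1 : ∀ h, T.τ (p * (F.f h * F.f j) * F.f z) = if σ h = j then ζ h * T.τ p else 0 := by
    intro h
    have e : T.τ (p * (F.f h * F.f j) * F.f z) = ζ h * T.τ (F.f (σ h) * F.f j * p) := by
      calc T.τ (p * (F.f h * F.f j) * F.f z) = T.τ (F.f z * (p * (F.f h * F.f j))) := T.tr _ _
        _ = T.τ (p * ((F.f z * F.f h) * F.f j)) := by
          rw [← mul_assoc, hp z]; simp only [mul_assoc]
        _ = T.τ (p * ((ζ h • F.f (σ h)) * F.f j)) := by rw [hζ h]
        _ = ζ h * T.τ (p * (F.f (σ h) * F.f j)) := by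
          rw [smul_mul_assoc, mul_smul_comm, map_smul, smul_eq_mul]
        _ = _ := by rw [T.tr p]
    rw [e, F.orth T hp]
    split_ifs <;> simp
  have h2 : ∀ h, T.τ (F.f z * (F.f h * (q * F.f i))) = if σ h = i then ζ h * T.τ q else 0 := by
    intro h
    have e : T.τ (F.f z * (F.f h * (q * F.f i))) = ζ h * T.τ (F.f (σ h) * F.f i * q) := by
      calc T.τ (F.f z * (F.f h * (q * F.f i))) = T.τ ((F.f z * F.f h) * (F.f i * q)) := by
            rw [← hq i]; simp only [mul_assoc]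
        _ = T.τ ((ζ h • F.f (σ h)) * (F.f i * q)) := by rw [hζ h]
        _ = ζ h * T.τ (F.f (σ h) * F.f i * q) := by
          rw [smul_mul_assoc, map_smul, smul_eq_mul, mul_assoc]
    rw [e, F.orth T hq]
    split_ifs <;> simp
  simp_rw [h1, h2]
  have hζi : ζ (σ.symm i) * ζ (σ.symm i) = 1 := by
    set h := σ.symm i with hh
    have hsi : σ h = i := by simp [hh]
    have a1 : F.f z * F.f h = ζ h • F.f i := by rw [hζ h, hsi]
    have a2 : F.f i * F.f z = F.f z * F.f i := by
      have := F.comm i z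
      rw [hi] at this
      simpa using this
    have a3 : F.f z * F.f h * F.f z = F.f h := by
      rw [a1, smul_mul_assoc, a2, ← mul_smul_comm, ← a1, ← mul_assoc, F.sq, one_mul]
    have a4 : (F.f z * F.f h) * (F.f z * F.f h) = 1 := by
      rw [← mul_assoc, a3, F.sq]
    rw [a1, smul_mul_smul_comm, F.sq] at a4
    have a5 := congrArg T.τ a4
    rw [map_smul, T.one, smul_eq_mul, mul_one] at a5
    exact a5
  rw [Finset.sum_eq_single (σ.symm i)]
  · have hsi : σ (σ.symm i) = i := by simp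
    rw [hsi, if_pos rfl]
    by_cases hij : j = i
    · rw [if_pos hij.symm, if_pos hij]
      linear_combination (T.τ p * T.τ q) * hζi
    · rw [if_neg (fun h => hij h.symm), if_neg hij, zero_mul]
  · intro h _ hne
    have : σ h ≠ i := by
      intro h'
      exact hne (by rw [← h']; simp)
    rw [if_neg this, mul_zero]
  · intro h
    exact absurd (Finset.mem_univ _) h

theorem derZ_lift {G : Set A} (hG : ∀ i, F.f i ∈ G) (X : A) (z i : ι) (hi : F.c i z = 1) {w : A}
    {D' : A → A → ℂ} (h : Der T (cooG F G X i) (coo F X i) w D') :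
    F.InQ w ∧ ∃ D, DerZ T (F.f z) G X w D ∧ ∀ p q, F.InQ p → F.InQ q →
      ((rt ι : ℝ) : ℂ) * D p (q * F.f i) = D' p q := by
  have h0 : ((rt ι : ℝ) : ℂ) ≠ 0 := by exact_mod_cast (rt_pos F).ne'
  have hcoo : ∀ j, ∀ p q, F.InQ p → F.InQ q → ((rt ι : ℝ) : ℂ) * (((rt ι : ℝ) : ℂ)⁻¹ *
      ∑ h, (T.τ (p * (F.f h * F.f j)) * T.τ (F.f h * (q * F.f i)) +
        T.τ (p * (F.f h * F.f j) * F.f z) * T.τ (F.f z * (F.f h * (q * F.f i)))) / 2)
        = if j = i then T.τ p * T.τ q else 0 := by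
    intro j p q hp hq
    rw [← mul_assoc, mul_inv_cancel₀ h0, one_mul, ← Finset.sum_div, Finset.sum_add_distrib,
      sum_tau_tau T F hp hq, sum_tau_tau_Z T F hp hq z i j hi]
    split_ifs <;> ring
  induction h with
  | one => exact ⟨F.inQ_one, _, DerZ.one, fun p q _ _ => by simp⟩
  | coef ha =>
    rcases ha with ⟨ha, hQ⟩ | ⟨j, hj, rfl⟩
    · exact ⟨hQ, _, DerZ.coef ha, fun p q _ _ => by simp⟩
    · exact ⟨coo_inQ F X j, _, derZ_coo T F hG X j, fun p q hp hq => by
        have := hcoo j p q hp hq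
        rwa [if_neg hj] at this⟩
  | var =>
    exact ⟨coo_inQ F X i, _, derZ_coo T F hG X i, fun p q hp hq => by
        have := hcoo i p q hp hq
        rwa [if_pos rfl] at this⟩
  | add _ _ ih ih' =>
    obtain ⟨hw, D, hD, e⟩ := ih
    obtain ⟨hw', D', hD', e'⟩ := ih'
    exact ⟨F.inQ_add hw hw', _, DerZ.add hD hD', fun p q hp hq => by
      rw [mul_add, e p q hp hq, e' p q hp hq]⟩
  | smul c _ ih =>
    obtain ⟨hw, D, hD, e⟩ := ih
    exact ⟨F.inQ_smul c hw, _, DerZ.smul c hD, fun p q hp hq => by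
      rw [mul_left_comm, e p q hp hq]⟩
  | mul _ _ ih ih' =>
    obtain ⟨hw, D, hD, e⟩ := ih
    obtain ⟨hw', D', hD', e'⟩ := ih'
    exact ⟨F.inQ_mul hw hw', _, DerZ.mul hD hD', fun p q hp hq => by
      rw [mul_add, e' _ q (F.inQ_mul hp hw) hq, ← mul_assoc, e p _ hp (F.inQ_mul hw' hq)]⟩

theorem SDZ.coo {G : Set A} (hG : ∀ i, F.f i ∈ G) {X : A} (z : ι) (hX : SDZ T (F.f z) G X) (i : ι)
    (hi : F.c i z = 1) : SD T (cooG F G X i) (coo F X i) := by
  refine ⟨coo_sa F hX.1 i, fun w D' hD' => ?_⟩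
  obtain ⟨hw, D, hD, e⟩ := derZ_lift T F hG X z i hi hD'
  have h1 : T.τ (X * (w * F.f i)) = D 1 (F.f i) := by
    have := hX.2 _ _ (DerZ.mul hD (DerZ.coef (T := T) (X := X) (hG i)))
    rw [this]
    simp
  have h2 : T.τ (R134.coo F X i * w) = ((rt ι : ℝ) : ℂ) * T.τ (X * (w * F.f i)) := by
    unfold R134.coo
    rw [smul_mul_assoc, map_smul, smul_eq_mul, ← F.tau_E_right T hw, mul_assoc, T.tr (F.f i),
      mul_assoc]
  have h3 := e 1 1 F.inQ_one F.inQ_one
  rw [h2, h1, ← h3, one_mul]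

/-- the interface form -/
theorem pauli_SDZ {G : Set A} {X Z : A}
    (hG : ∀ i, F.f i ∈ G) (z : ι) (hz : F.f z = Z) (h : SDZ T Z G X) (i : ι) (hi : F.c i z = 1) :
    SD T ({g | g ∈ G ∧ F.InQ g} ∪
        {w | ∃ k, k ≠ i ∧ w = ((Real.sqrt (Fintype.card ι) : ℝ) : ℂ) • F.E (F.f k * X)})
      (((Real.sqrt (Fintype.card ι) : ℝ) : ℂ) • F.E (F.f i * X)) := by
  subst hz
  exact SDZ.coo T F hG z h i hi

end Pauli

end Crest.Agent.R134
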