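import Crest.Agent.R134.N2Defs

/-!
# R134 (n = 2): diagonal and off-diagonal part of a semicircular element
-/

set_option autoImplicit false

universe u

namespace Crest.Agent.R134

open Crest.Agent.R95 Filter Topology

variable {A : Type u} [CStarAlgebra A] (T : TracialState A)

namespace N2aX

theorem tau_conj {Z : A} (hZ2 : Z * Z = 1) (a : A) : T.τ (Z * a * Z) = T.τ a := by
  rw [T.tr, ← mul_assoc, hZ2, one_mul]

/-- `Der` of `Z X Z` -/
theorem der_ZXZ {G : Set A} {X Z : A} (hZ : Z ∈ G) :
    Der T G X (Z * X * Z) (fun p q => T.τ (p * Z) * T.τ (Z * q)) := by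
  have h1 := Der.mul (Der.mul (Der.coef (T := T) (X := X) hZ) (Der.var (T := T) (G := G)))
    (Der.coef (T := T) (X := X) hZ)
  simpa using h1

theorem sdz_claim {G : Set A} {X Z : A} (hZ : Z ∈ G) (hZ2 : Z * Z = 1) {w : A} {D' : A → A → ℂ}
    (h : DerZ T Z (G ∪ {(1 / 2 : ℂ) • (X - Z * X * Z)}) ((1 / 2 : ℂ) • (X + Z * X * Z)) w D') :
    ∃ D, Der T G X w D ∧ ∀ p q, D p q + D (Z * p) (q * Z) = 2 * D' p q := by
  have c1 : ∀ p : A, T.τ (Z * p * Z) = T.τ p := tau_conj T hZ2
  have c2 : ∀ p : A, T.τ (Z * p) = T.τ (p * Z) := fun p => T.tr _ _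
  have c3 : ∀ p : A, T.τ (Z * (p * Z)) = T.τ p := fun p => by rw [← mul_assoc]; exact c1 p
  induction h with
  | one => exact ⟨_, Der.one, fun p q => by simp⟩
  | coef ha =>
    rcases ha with ha | ha
    · exact ⟨_, Der.coef ha, fun p q => by simp⟩
    · rw [Set.mem_singleton_iff] at ha
      subst ha
      have h1 := Der.smul (1 / 2 : ℂ) (Der.add (Der.var (T := T) (G := G) (X := X))
        (Der.smul (-1 : ℂ) (der_ZXZ T (X := X) hZ)))
      have e : (1 / 2 : ℂ) • (X + (-1 : ℂ) • (Z * X * Z)) = (1 / 2 : ℂ) • (X - Z * X * Z) := by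
        rw [neg_one_smul, sub_eq_add_neg]
      rw [e] at h1
      refine ⟨_, h1, fun p q => ?_⟩
      have e1 := c2 p
      have e2 := c2 q
      simp only [c1, c3]
      rw [e1, e2]
      ring
  | var =>
    have h1 := Der.smul (1 / 2 : ℂ) (Der.add (Der.var (T := T) (G := G) (X := X))
      (der_ZXZ T (X := X) hZ))
    refine ⟨_, h1, fun p q => ?_⟩
    have e1 := c2 p
    have e2 := c2 q
    simp only [c1, c3]
    rw [e1, e2]
    ring
  | add _ _ ih ih' =>
    obtain ⟨D, hD, e⟩ := ih
    obtain ⟨D', hD', e'⟩ := ih'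
    exact ⟨_, Der.add hD hD', fun p q => by linear_combination e p q + e' p q⟩
  | smul c _ ih =>
    obtain ⟨D, hD, e⟩ := ih
    exact ⟨_, Der.smul c hD, fun p q => by linear_combination c * e p q⟩
  | mul _ _ ih ih' =>
    rename_i w w' E E' _ _
    obtain ⟨D, hD, e⟩ := ih
    obtain ⟨D', hD', e'⟩ := ih'
    refine ⟨_, Der.mul hD hD', fun p q => ?_⟩
    have h1 := e' (p * w) q
    have h2 := e p (w' * q)
    rw [← mul_assoc] at h1
    rw [mul_assoc w' q Z] at h2
    linear_combination h1 + h2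

end N2aX

/-- (n2.1) the diagonal part of a semicircular element is SDZ over `G` and the off-diagonal part. -/
theorem sdz_diag {G : Set A} {X Z : A} (hZ : Z ∈ G) (hsa : IsSelfAdjoint Z) (hZ2 : Z * Z = 1)
    (h : SD T G X) :
    SDZ T Z (G ∪ {(1 / 2 : ℂ) • (X - Z * X * Z)}) ((1 / 2 : ℂ) • (X + Z * X * Z)) := by
  refine ⟨?_, fun w D' hD' => ?_⟩
  · rw [isSelfAdjoint_iff, star_smul, star_add, star_mul, star_mul, hsa.star_eq, h.1.star_eq,
      ← mul_assoc]
    congr 1
    simp
  · obtain ⟨D, hD, e⟩ := N2aX.sdz_claim T hZ hZ2 hD'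
    have h1 := h.2 w D hD
    have h2 := h.2 _ _ (Der.mul (Der.mul (Der.coef (T := T) (X := X) hZ) hD)
      (Der.coef (T := T) (X := X) hZ))
    have h3 : T.τ (Z * X * Z * w) = T.τ (X * (Z * w * Z)) := by
      rw [mul_assoc, mul_assoc, T.tr]
      congr 1
      noncomm_ring
    have h4 := e 1 1
    rw [smul_mul_assoc, map_smul, smul_eq_mul, add_mul, map_add, h1, h3, h2]
    simp only [mul_one, one_mul, zero_add, add_zero] at h4 ⊢
    linear_combination (1 / 2 : ℂ) * h4

namespace N2aX

/-! ## parity -/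

/-- the word in `X` (true) and `Z` (false) -/
noncomputable def wz (X Z : A) : List Bool → A
  | [] => 1
  | b :: L => (if b then X else Z) * wz X Z L

theorem wz_append (X Z : A) (L M : List Bool) : wz X Z (L ++ M) = wz X Z L * wz X Z M := by
  induction L with
  | nil => simp [wz]
  | cons b L ih => simp only [List.cons_append, wz, ih, mul_assoc]

/-- number of `Z`s -/
def nz (L : List Bool) : ℕ := L.count false

theorem nz_append (L M : List Bool) : nz (L ++ M) = nz L + nz M := List.count_append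

theorem nz_cons_true (L : List Bool) : nz (true :: L) = nz L := by simp [nz]
theorem nz_cons_false (L : List Bool) : nz (false :: L) = nz L + 1 := by simp [nz]

/-- the derivative of a word -/
noncomputable def dz (T : TracialState A) (X Z : A) : List Bool → A → A → ℂ
  | [] => fun _ _ => 0
  | true :: L => fun p q => dz T X Z L (p * X) q + T.τ p * T.τ (wz X Z L * q)
  | false :: L => fun p q => dz T X Z L (p * Z) q

theorem der_wz {G : Set A} {X Z : A} (hZ : Z ∈ G) : ∀ L : List Bool,
    Der T G X (wz X Z L) (dz T X Z L)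
  | [] => Der.one
  | true :: L => by
    have := Der.mul (Der.var (T := T) (G := G) (X := X)) (der_wz hZ L)
    simpa [wz, dz] using this
  | false :: L => by
    have := Der.mul (Der.coef (T := T) (X := X) hZ) (der_wz hZ L)
    simpa [wz, dz] using this

theorem dz_zero {X Z : A} {n : ℕ}
    (ih : ∀ L : List Bool, L.length ≤ n → Odd (nz L) → T.τ (wz X Z L) = 0) :
    ∀ (L P Q : List Bool), P.length + L.length + Q.length ≤ n + 1 → Odd (nz P + nz L + nz Q) →
      dz T X Z L (wz X Z P) (wz X Z Q) = 0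
  | [], P, Q => fun _ _ => rfl
  | true :: L, P, Q => fun hl ho => by
    rw [nz_cons_true] at ho
    simp only [List.length_cons] at hl
    simp only [dz]
    have h1 := dz_zero ih L (P ++ [true]) Q (by simp; omega)
      (by rw [nz_append]; simpa [nz] using ho)
    rw [wz_append] at h1
    simp only [wz, mul_one, if_true] at h1
    rw [h1, zero_add, ← wz_append]
    by_cases hP : Odd (nz P)
    · rw [ih P (by omega) hP, zero_mul]
    · rw [ih (L ++ Q) (by simp; omega), mul_zero]
      rw [nz_append]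
      rw [Nat.not_odd_iff_even] at hP
      rw [add_assoc] at ho
      exact (Nat.odd_add'.1 ho).2 hP
  | false :: L, P, Q => fun hl ho => by
    rw [nz_cons_false] at ho
    simp only [List.length_cons] at hl
    simp only [dz]
    have h1 := dz_zero ih L (P ++ [false]) Q (by simp; omega)
      (by
        rw [nz_append]
        have : nz [false] = 1 := by simp [nz]
        rw [this]
        convert ho using 1
        omega)
    rw [wz_append] at h1
    simpa [wz] using h1

theorem tau_odd {G : Set A} {X Z : A} (hZ : Z ∈ G) (hZ2 : Z * Z = 1)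
    (hτ : T.τ Z = 0) (h : SD T G X) : ∀ (n : ℕ) (L : List Bool), L.length ≤ n → Odd (nz L) →
      T.τ (wz X Z L) = 0 := by
  intro n
  induction n with
  | zero =>
    intro L hL ho
    have : L = [] := List.length_eq_zero_iff.1 (by omega)
    subst this
    simp [nz] at ho
  | succ n ih =>
    intro L hL ho
    by_cases hX : true ∈ L
    · obtain ⟨P, Q, rfl⟩ := List.append_of_mem hX
      have e : T.τ (wz X Z (P ++ true :: Q)) = T.τ (X * wz X Z (Q ++ P)) := by
        rw [wz_append, T.tr, wz_append]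
        simp only [wz, if_true, mul_assoc]
      rw [e, h.2 _ _ (der_wz T hZ (Q ++ P))]
      have := dz_zero T ih (Q ++ P) [] [] (by simp at hL ⊢; omega)
        (by
          rw [nz_append, nz_cons_true] at ho
          rw [nz_append]
          simpa [nz, add_comm] using ho)
      simpa [wz] using this
    · have hall : ∀ b ∈ L, b = false := by
        intro b hb
        cases b
        · rfl
        · exact absurd hb hX
      have hrep : L = List.replicate L.length false := List.eq_replicate_of_mem hall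
      have key : ∀ k : ℕ, wz X Z (List.replicate k false) = Z ^ k := by
        intro k
        induction k with
        | zero => simp [wz]
        | succ k ihk => rw [List.replicate_succ, wz, ihk, pow_succ']; simp
      have hodd : Odd L.length := by
        have : nz L = L.length := by
          rw [hrep]; simp [nz]
        rwa [this] at ho
      rw [hrep, key]
      obtain ⟨k, hk⟩ := hodd
      rw [hk, pow_succ, pow_mul, sq, hZ2, one_pow, one_mul, hτ]

/-- the span of the even words -/
noncomputable def Ev (X Z : A) : Submodule ℂ A := Submodule.span ℂ {w | ∃ L, Even (nz L) ∧ w = wz X Z L}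

theorem Ev_one (X Z : A) : (1 : A) ∈ Ev X Z := Submodule.subset_span ⟨[], by simp [nz], rfl⟩

theorem Ev_mul {X Z : A} {a b : A} (ha : a ∈ Ev X Z) (hb : b ∈ Ev X Z) : a * b ∈ Ev X Z := by
  have : a * b ∈ Ev X Z * Ev X Z := Submodule.mul_mem_mul ha hb
  rw [Ev, Submodule.span_mul_span] at this
  refine Submodule.span_mono ?_ this
  rintro _ ⟨_, ⟨L, hL, rfl⟩, _, ⟨M, hM, rfl⟩, rfl⟩
  exact ⟨L ++ M, by rw [nz_append]; exact hL.add hM, (wz_append X Z L M).symm⟩

theorem tau_Z_Ev {G : Set A} {X Z : A} (hZ : Z ∈ G) (hZ2 : Z * Z = 1)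
    (hτ : T.τ Z = 0) (h : SD T G X) {b : A} (hb : b ∈ Ev X Z) : T.τ (Z * b) = 0 := by
  induction hb using Submodule.span_induction with
  | mem x hx =>
    obtain ⟨L, hL, rfl⟩ := hx
    have := tau_odd T hZ hZ2 hτ h (L.length + 1) (false :: L) (by simp)
      (by rw [nz_cons_false]; exact hL.add_one)
    simpa [wz] using this
  | zero => simp
  | add x y _ _ hx hy => rw [mul_add, map_add, hx, hy, add_zero]
  | smul c x _ hx => rw [mul_smul_comm, map_smul, hx, smul_zero]

theorem off_mem_Ev (X Z : A) (c : ℂ) : c • (X - Z * X * Z) ∈ Ev X Z := by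
  refine Submodule.smul_mem _ _ (Submodule.sub_mem _ ?_ ?_)
  · exact Submodule.subset_span ⟨[true], by simp [nz], by simp [wz]⟩
  · exact Submodule.subset_span ⟨[false, true, false], by simp [nz], by simp [wz, mul_assoc]⟩

theorem off_claim {G : Set A} {X Z : A} (hZ : Z ∈ G) (hZ2 : Z * Z = 1)
    (hτ : T.τ Z = 0) (h : SD T G X) {c : ℂ} {w : A} {D' : A → A → ℂ}
    (hd : Der T (∅ : Set A) (c • (X - Z * X * Z)) w D') :
    w ∈ Ev X Z ∧ ∃ D, Der T G X w D ∧ ∀ p ∈ Ev X Z, ∀ q ∈ Ev X Z,
      D p q - D (Z * p) (q * Z) = 2 * c * D' p q := by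
  have c1 : ∀ p : A, T.τ (Z * p * Z) = T.τ p := tau_conj T hZ2
  have c2 : ∀ p : A, T.τ (Z * p) = T.τ (p * Z) := fun p => T.tr _ _
  have c3 : ∀ p : A, T.τ (Z * (p * Z)) = T.τ p := fun p => by rw [← mul_assoc]; exact c1 p
  induction hd with
  | one => exact ⟨Ev_one X Z, _, Der.one, fun p _ q _ => by simp⟩
  | coef ha => exact absurd ha (Set.notMem_empty _)
  | var =>
    have h1 := Der.smul c (Der.add (Der.var (T := T) (G := G) (X := X))
      (Der.smul (-1 : ℂ) (der_ZXZ T (X := X) hZ)))
    have e : c • (X + (-1 : ℂ) • (Z * X * Z)) = c • (X - Z * X * Z) := by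
      rw [neg_one_smul, sub_eq_add_neg]
    rw [e] at h1
    refine ⟨off_mem_Ev X Z c, _, h1, fun p hp q hq => ?_⟩
    have hp0 := tau_Z_Ev T hZ hZ2 hτ h hp
    have hq0 := tau_Z_Ev T hZ hZ2 hτ h hq
    rw [c1, c3, hq0, hp0]
    ring
  | add _ _ ih ih' =>
    obtain ⟨hw, D, hD, e⟩ := ih
    obtain ⟨hw', D', hD', e'⟩ := ih'
    exact ⟨Submodule.add_mem _ hw hw', _, Der.add hD hD', fun p hp q hq => by
      linear_combination e p hp q hq + e' p hp q hq⟩
  | smul r _ ih =>
    obtain ⟨hw, D, hD, e⟩ := ih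
    exact ⟨Submodule.smul_mem _ _ hw, _, Der.smul r hD, fun p hp q hq => by
      linear_combination r * e p hp q hq⟩
  | mul _ _ ih ih' =>
    rename_i w w' E E' _ _
    obtain ⟨hw, D, hD, e⟩ := ih
    obtain ⟨hw', D', hD', e'⟩ := ih'
    refine ⟨Ev_mul hw hw', _, Der.mul hD hD', fun p hp q hq => ?_⟩
    have h1 := e' (p * w) (Ev_mul hp hw) q hq
    have h2 := e p hp (w' * q) (Ev_mul hw' hq)
    rw [← mul_assoc] at h1
    rw [mul_assoc w' q Z] at h2
    linear_combination h1 + h2

end N2aX

/-- (n2.2) the off-diagonal part is (up to `√2`) a scalar semicircular element. -/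
theorem sd_off {G : Set A} {X Z : A} (hZ : Z ∈ G) (hsa : IsSelfAdjoint Z) (hZ2 : Z * Z = 1)
    (hτ : T.τ Z = 0) (h : SD T G X) :
    SD T (∅ : Set A) ((((Real.sqrt 2 : ℝ) : ℂ) / 2) • (X - Z * X * Z)) := by
  have hc : (((Real.sqrt 2 : ℝ) : ℂ)) * ((Real.sqrt 2 : ℝ) : ℂ) = 2 := by
    rw [← Complex.ofReal_mul, Real.mul_self_sqrt (by norm_num)]
    norm_num
  refine ⟨?_, fun w D' hD' => ?_⟩
  · rw [isSelfAdjoint_iff, star_smul, star_sub, star_mul, star_mul, hsa.star_eq, h.1.star_eq,
      ← mul_assoc]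
    congr 1
    simp [Complex.conj_ofReal]
  · obtain ⟨hw, D, hD, e⟩ := N2aX.off_claim T hZ hZ2 hτ h hD'
    have h1 := h.2 w D hD
    have h2 := h.2 _ _ (Der.mul (Der.mul (Der.coef (T := T) (X := X) hZ) hD)
      (Der.coef (T := T) (X := X) hZ))
    have h3 : T.τ (Z * X * Z * w) = T.τ (X * (Z * w * Z)) := by
      rw [mul_assoc, mul_assoc, T.tr]
      congr 1
      noncomm_ring
    have h4 := e 1 (N2aX.Ev_one X Z) 1 (N2aX.Ev_one X Z)
    rw [smul_mul_assoc, map_smul, smul_eq_mul, sub_mul, map_sub, h1, h3, h2]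
    simp only [mul_one, one_mul, zero_add, add_zero] at h4 ⊢
    rw [h4]
    linear_combination (1 / 2 : ℂ) * D' 1 1 * hc

end Crest.Agent.R134
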