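import Crest.Agent.R134.N2Defs
import Crest.Agent.R134.Limit

/-!
# R134 (n = 2): `SDZ` passes to bounded 2-norm limits of coefficients
-/

set_option autoImplicit false

universe u

namespace Crest.Agent.R134

open Crest.Agent.R95 Filter Topology Limit

variable {A : Type u} [CStarAlgebra A] (T : TracialState A)

variable {T} in
/-- elements of the algebra generated by a star closed set are coefficients -/
theorem DerZ.of_adjoinX {Z : A} {G : Set A} (hG : ∀ g ∈ G, star g ∈ G) {X a : A}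
    (ha : a ∈ StarAlgebra.adjoin ℂ G) : DerZ T Z G X a (fun _ _ => 0) := by
  have hstar : G ∪ star G = G := by
    rw [Set.union_eq_left]
    intro g hg
    have := hG _ hg
    rwa [star_star] at this
  have h1 : ∀ z, z ∈ Algebra.adjoin ℂ G → z ∈ StarAlgebra.adjoin ℂ G := by
    intro z hz
    have : z ∈ (StarAlgebra.adjoin ℂ G).toSubalgebra := by
      rw [StarAlgebra.adjoin_toSubalgebra, hstar]; exact hz
    exact this
  have ha' : a ∈ Algebra.adjoin ℂ G := by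
    have h1 : a ∈ (StarAlgebra.adjoin ℂ G).toSubalgebra := ha
    rwa [StarAlgebra.adjoin_toSubalgebra, hstar] at h1
  induction ha' using Algebra.adjoin_induction with
  | mem x hx => exact DerZ.coef hx
  | algebraMap r =>
    have := DerZ.smul (T := T) (Z := Z) (G := G) (X := X) r DerZ.one
    rw [Algebra.algebraMap_eq_smul_one]
    simpa using this
  | add x y hx' hy' hx hy => simpa using DerZ.add (hx (h1 _ hx')) (hy (h1 _ hy'))
  | mul x y hx' hy' hx hy => simpa using DerZ.mul (hx (h1 _ hx')) (hy (h1 _ hy'))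

/-- polynomials with coefficients in `G ∪ G'` are limits of polynomials with coefficients in `G` -/
theorem derZ_limit {Z : A} {G G' : Set A} {X : A} (hstar : ∀ g ∈ G, star g ∈ G)
    (hG : ∀ g ∈ G', ∃ (s : ℕ → A) (C : ℝ), (∀ k, s k ∈ StarAlgebra.adjoin ℂ G) ∧ (∀ k, ‖s k‖ ≤ C) ∧
      Tendsto (fun k => T.nrm2 (s k - g)) atTop (𝓝 0)) {w : A} {D : A → A → ℂ}
    (h : DerZ T Z (G ∪ G') X w D) : ∃ (wn : ℕ → A) (Dn : ℕ → A → A → ℂ),
      (∀ n, DerZ T Z G X (wn n) (Dn n)) ∧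
      Cv T wn w ∧ ∀ (p q : ℕ → A) (p' q' : A), Cv T p p' → Cv T q q' →
        Tendsto (fun n => Dn n (p n) (q n)) atTop (𝓝 (D p' q')) := by
  induction h with
  | one => exact ⟨fun _ => 1, fun _ _ _ => 0, fun _ => DerZ.one, Cv.const 1,
      fun _ _ _ _ _ _ => tendsto_const_nhds⟩
  | coef ha =>
    rcases ha with ha | ha
    · exact ⟨fun _ => _, fun _ _ _ => 0, fun _ => DerZ.coef ha, Cv.const _,
        fun _ _ _ _ _ _ => tendsto_const_nhds⟩
    · obtain ⟨s, C, hs, hC, hlim⟩ := hG _ ha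
      exact ⟨s, fun _ _ _ => 0, fun n => DerZ.of_adjoinX hstar (hs n), ⟨⟨C, hC⟩, hlim⟩,
        fun _ _ _ _ _ _ => tendsto_const_nhds⟩
  | var =>
    refine ⟨fun _ => X, fun _ p q => (T.τ p * T.τ q + T.τ (p * Z) * T.τ (Z * q)) / 2,
      fun _ => DerZ.var, Cv.const X, fun p q p' q' hp hq => ?_⟩
    have h1 := (hp.mul (Cv.const Z)).tau
    have h2 := ((Cv.const Z).mul hq).tau
    exact ((hp.tau.mul hq.tau).add (h1.mul h2)).div_const 2
  | add _ _ ih ih' =>
    obtain ⟨wn, Dn, h1, h2, h3⟩ := ih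
    obtain ⟨wn', Dn', h1', h2', h3'⟩ := ih'
    exact ⟨fun n => wn n + wn' n, fun n p q => Dn n p q + Dn' n p q,
      fun n => DerZ.add (h1 n) (h1' n), h2.add h2', fun p q p' q' hp hq =>
        (h3 p q p' q' hp hq).add (h3' p q p' q' hp hq)⟩
  | smul c _ ih =>
    obtain ⟨wn, Dn, h1, h2, h3⟩ := ih
    exact ⟨fun n => c • wn n, fun n p q => c * Dn n p q, fun n => DerZ.smul c (h1 n), h2.smul c,
      fun p q p' q' hp hq => (h3 p q p' q' hp hq).const_mul c⟩
  | mul _ _ ih ih' =>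
    obtain ⟨wn, Dn, h1, h2, h3⟩ := ih
    obtain ⟨wn', Dn', h1', h2', h3'⟩ := ih'
    refine ⟨fun n => wn n * wn' n, fun n p q => Dn' n (p * wn n) q + Dn n p (wn' n * q),
      fun n => DerZ.mul (h1 n) (h1' n), h2.mul h2', fun p q p' q' hp hq => ?_⟩
    exact (h3' _ _ _ _ (hp.mul h2) hq).add (h3 _ _ _ _ hp (h2'.mul hq))

/-- (n2.4) `SDZ` passes to bounded 2-norm limits of coefficients. -/
theorem SDZ.closure {Z : A} {G G' : Set A} {X : A} (h : SDZ T Z G X)
    (hG : ∀ g ∈ G', ∃ (s : ℕ → A) (C : ℝ), (∀ k, s k ∈ StarAlgebra.adjoin ℂ G) ∧ (∀ k, ‖s k‖ ≤ C) ∧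
      Tendsto (fun k => T.nrm2 (s k - g)) atTop (𝓝 0)) (hstar : ∀ g ∈ G, star g ∈ G) :
    SDZ T Z (G ∪ G') X := by
  refine ⟨h.1, fun w D hD => ?_⟩
  obtain ⟨wn, Dn, h1, h2, h3⟩ := derZ_limit T hstar hG hD
  have h4 := ((Cv.const X).mul h2).tau
  have h5 := h3 (fun _ => 1) (fun _ => 1) 1 1 (Cv.const 1) (Cv.const 1)
  refine tendsto_nhds_unique h4 (h5.congr fun n => ?_)
  exact (h.2 _ _ (h1 n)).symm

end Crest.Agent.R134
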