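import Crest.Agent.R134.Law
import Crest.Agent.R134.Data

/-!
# R134: semicircular elements: freeness of `C*(x)` from `G`, the Haar unitary `uu x`, roots `ru d x`
(helper403)
-/

set_option autoImplicit false
set_option linter.unusedSectionVars false

universe u

namespace Crest.Agent.R134

open Crest.Agent.R95 Polynomial MeasureTheory

namespace Sm

variable {A : Type u} [CStarAlgebra A] {T : TracialState A}

theorem continuous_tau (T : TracialState A) : Continuous T.τ :=
  AddMonoidHomClass.continuous_of_bound T.τ 1 (fun a => by rw [one_mul]; exact T.norm_tau_le a)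

/-- general words `∏ (b_i * g_i)` -/
noncomputable def Wb (l : List (A × A)) : A := (l.map (fun p => p.1 * p.2)).prod

@[simp] theorem Wb_nil : Wb ([] : List (A × A)) = 1 := rfl
@[simp] theorem Wb_cons (p : A × A) (l : List (A × A)) : Wb (p :: l) = p.1 * p.2 * Wb l := by
  simp [Wb]
theorem Wb_append (l l' : List (A × A)) : Wb (l ++ l') = Wb l * Wb l' := by simp [Wb]

/-- the centred part of `C*(x)`: norm closure of the span of the `ch x (n+1)` -/
noncomputable def Cx (x : A) : Submodule ℂ A :=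
  (Submodule.span ℂ (Set.range fun n : ℕ => ch x (n+1))).topologicalClosure

/-- admissible lists -/
def Adm (T : TracialState A) (K : Set A) (G : Set A) (l : List (A × A)) : Prop :=
  ∀ p ∈ l, p.1 ∈ K ∧ p.2 ∈ G ∧ T.τ p.2 = 0

theorem closed_kernel (y z : A) :
    ∃ N : Submodule ℂ A, IsClosed (N : Set A) ∧ ∀ b, b ∈ N ↔ T.τ (y * (b * z)) = 0 := by
  let φ : A →ₗ[ℂ] ℂ := T.τ ∘ₗ (LinearMap.mulLeft ℂ y) ∘ₗ (LinearMap.mulRight ℂ z)
  refine ⟨LinearMap.ker φ, ?_, fun b => ?_⟩
  · have hc : Continuous φ := (continuous_tau T).comp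
      ((continuous_const.mul continuous_id).comp (continuous_id.mul continuous_const))
    exact isClosed_singleton.preimage hc
  · rw [LinearMap.mem_ker]; rfl

/-- **freeness of `C*(x)` and `G`** -/
theorem CF.free {x : A} {G : Set A} (h : CF T x G) {l : List (A × A)}
    (hl : Adm T (Cx x) G l) {b : A} (hb : b ∈ Cx x) {g : A} (hg : g ∈ G) :
    T.τ (Wb l * (b * g)) = 0 := by
  -- step 1: mixed lists
  have key : ∀ (l1 : List (A × A)), Adm T (Cx x) G l1 → ∀ (l2 : List (ℕ × A)), Cen T G l2 →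
      ∀ (n : ℕ) (g : A), g ∈ G → T.τ (Wb l1 * (Wc x l2 * (ch x (n+1) * g))) = 0 := by
    intro l1
    induction l1 using List.reverseRecOn with
    | nil => intro _ l2 hl2 n g hg; rw [Wb_nil, one_mul]; exact h l2 n g hl2 hg
    | append_singleton l1 p ih =>
      intro hl1 l2 hl2 n g hg
      have hp := hl1 p (by simp)
      have hl1' : Adm T (Cx x) G l1 := fun q hq => hl1 q (by simp [hq])
      obtain ⟨N, hN, hN'⟩ := closed_kernel (T := T) (Wb l1) (p.2 * (Wc x l2 * (ch x (n+1) * g)))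
      have hsub : Cx x ≤ N := by
        refine Submodule.topologicalClosure_minimal _ ?_ hN
        rw [Submodule.span_le]
        rintro _ ⟨m, rfl⟩
        rw [SetLike.mem_coe, hN']
        have := ih hl1' ((m, p.2) :: l2) (by
          intro q hq
          rcases List.mem_cons.1 hq with rfl | hq
          · exact ⟨hp.2.1, hp.2.2⟩
          · exact hl2 q hq) n g hg
        rw [Wc_cons] at this
        simpa only [mul_assoc] using this
      have := (hN' p.1).1 (hsub hp.1)
      rw [Wb_append]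
      simpa [mul_assoc] using this
  obtain ⟨N, hN, hN'⟩ := closed_kernel (T := T) (Wb l) g
  have hsub : Cx x ≤ N := by
    refine Submodule.topologicalClosure_minimal _ ?_ hN
    rw [Submodule.span_le]
    rintro _ ⟨m, rfl⟩
    rw [SetLike.mem_coe, hN']
    have := key l hl [] (by simp [Cen]) m g hg
    simpa using this
  exact (hN' b).1 (hsub hb)

theorem ch_poly_mem (x : A) (p : ℂ[X]) :
    aeval x p ∈ Submodule.span ℂ (Set.range fun n : ℕ => ch x n) := by
  have key : ∀ m n : ℕ, aeval x (X ^ m * ch (X : ℂ[X]) n) ∈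
      Submodule.span ℂ (Set.range fun n : ℕ => ch x n) := by
    intro m
    induction m with
    | zero => intro n; rw [pow_zero, one_mul, aeval_ch]; exact Submodule.subset_span ⟨n, rfl⟩
    | succ m ih =>
      intro n
      cases n with
      | zero => simpa [pow_succ] using ih 1
      | succ n =>
        have e : X ^ (m+1) * ch (X : ℂ[X]) (n+1) = X ^ m * ch (X : ℂ[X]) (n+2) +
            X ^ m * ch (X : ℂ[X]) n := by
          rw [ch_add_two]; ring
        rw [e, map_add]
        exact Submodule.add_mem _ (ih _) (ih _)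
  induction p using Polynomial.induction_on' with
  | add p q hp hq => rw [map_add]; exact Submodule.add_mem _ hp hq
  | monomial n a =>
    have := key n 0
    simp only [ch_zero, mul_one] at this
    rw [← C_mul_X_pow_eq_monomial, map_mul, aeval_C, Algebra.algebraMap_eq_smul_one,
      smul_mul_assoc, one_mul]
    exact Submodule.smul_mem _ _ this

theorem sub_tau_mem_of_span {x : A}
    (hx : ∀ n, T.τ (ch x (n+1)) = 0) {a : A}
    (ha : a ∈ Submodule.span ℂ (Set.range fun n : ℕ => ch x n)) :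
    a - algebraMap ℂ A (T.τ a) ∈ Submodule.span ℂ (Set.range fun n : ℕ => ch x (n+1)) := by
  induction ha using Submodule.span_induction with
  | mem a ha =>
    obtain ⟨n, rfl⟩ := ha
    cases n with
    | zero => simp [T.one]
    | succ n => simp only [hx, map_zero, sub_zero]; exact Submodule.subset_span ⟨n, rfl⟩
  | zero => simp
  | add a b _ _ ha hb =>
    have : a + b - algebraMap ℂ A (T.τ (a + b)) =
      (a - algebraMap ℂ A (T.τ a)) + (b - algebraMap ℂ A (T.τ b)) := by
      rw [map_add, map_add]; abel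
    rw [this]; exact Submodule.add_mem _ ha hb
  | smul c a _ ha =>
    have : c • a - algebraMap ℂ A (T.τ (c • a)) = c • (a - algebraMap ℂ A (T.τ a)) := by
      rw [map_smul, smul_sub, smul_eq_mul, map_mul, Algebra.algebraMap_eq_smul_one c,
        smul_mul_assoc, one_mul]
    rw [this]; exact Submodule.smul_mem _ _ ha

/-- centred functions of `x` belong to `Cx x` -/
theorem fc_sub_mem {x : A} (hx : IsSelfAdjoint x) (h : ∀ n, T.τ (ch x (n+1)) = 0) {F : ℝ → ℂ}
    (hF : Continuous F) : fc x F - algebraMap ℂ A (Sc F) ∈ Cx x := by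
  have hcl : IsClosed ((Cx x : Submodule ℂ A) : Set A) := Submodule.isClosed_topologicalClosure _
  rw [← SetLike.mem_coe, ← hcl.closure_eq, Metric.mem_closure_iff]
  intro ε hε
  obtain ⟨p, hp⟩ := exists_poly_near hF (max ‖x‖ 2) (ε := ε / 4) (by positivity)
  have hm := sub_tau_mem_of_span h (ch_poly_mem x p)
  refine ⟨_, Submodule.le_topologicalClosure _ hm, ?_⟩
  rw [dist_eq_norm]
  have e : fc x F - algebraMap ℂ A (Sc F) - (aeval x p - algebraMap ℂ A (T.τ (aeval x p))) =
      fc x (fun s => F s - p.eval (s:ℂ)) - algebraMap ℂ A (T.τ (fc x (fun s => F s - p.eval (s:ℂ)))) := by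
    rw [fc_sub hF (continuous_eval p), fc_poly hx, ← law hx h hF, map_sub, map_sub]
    abel
  rw [e]
  have h1 : ‖fc x (fun s => F s - p.eval (s:ℂ))‖ ≤ ε / 4 := by
    refine norm_fc_le hx (R := max ‖x‖ 2) (by positivity) (le_max_left _ _) fun s hs => ?_
    rw [norm_sub_rev]
    exact hp s hs
  have h2 : ‖algebraMap ℂ A (T.τ (fc x (fun s => F s - p.eval (s:ℂ))))‖ ≤ ε / 4 := by
    rw [Algebra.algebraMap_eq_smul_one, norm_smul]
    have h3 : ‖(1:A)‖ ≤ 1 := by
      cases subsingleton_or_nontrivial A with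
      | inl h => rw [Subsingleton.elim (1:A) 0]; simp
      | inr h => simp
    have h4 := (T.norm_tau_le (fc x (fun s => F s - p.eval (s:ℂ)))).trans h1
    calc _ ≤ (ε / 4) * 1 := mul_le_mul h4 h3 (norm_nonneg _) (by positivity)
      _ = ε / 4 := mul_one _
  refine (norm_sub_le _ _).trans_lt ?_
  linarith

theorem fc_mem {x : A} (hx : IsSelfAdjoint x) (h : ∀ n, T.τ (ch x (n+1)) = 0) {F : ℝ → ℂ}
    (hF : Continuous F) (h0 : Sc F = 0) : fc x F ∈ Cx x := by
  have := fc_sub_mem (T := T) hx h hF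
  rwa [h0, map_zero, sub_zero] at this

/-! ### `Θ` -/

theorem continuous_Θ : Continuous Θ := by
  unfold Θ
  fun_prop

theorem Θ_two_cos {t : ℝ} (h0 : 0 ≤ t) (h1 : t ≤ Real.pi) :
    Θ (2 * Real.cos t) = 2 * t - Real.sin (2 * t) - Real.pi := by
  unfold Θ
  rw [mul_div_cancel_left₀ _ (two_ne_zero), Real.arccos_cos h0 h1]

/-- the exponentials `exp (i c Θ)` -/
noncomputable def ex (c : ℝ) (s : ℝ) : ℂ := Complex.exp (Complex.I * ((c * Θ s : ℝ) : ℂ))

theorem continuous_ex (c : ℝ) : Continuous (ex c) := by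
  have := continuous_Θ
  unfold ex
  fun_prop

theorem ex_mul (c d s : ℝ) : ex c s * ex d s = ex (c + d) s := by
  unfold ex
  rw [← Complex.exp_add]
  congr 1
  push_cast
  ring

theorem ex_zero (s : ℝ) : ex 0 s = 1 := by simp [ex]

theorem ex_star (c s : ℝ) : star (ex c s) = ex (-c) s := by
  unfold ex
  rw [Complex.star_def, ← Complex.exp_conj]
  congr 1
  simp

theorem norm_ex (c s : ℝ) : ‖ex c s‖ = 1 := by
  unfold ex
  rw [mul_comm]
  exact Complex.norm_exp_ofReal_mul_I _

/-- `Sc (exp (i c Θ)) = sin (c π) / (c π)` -/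
theorem Sc_ex {c : ℝ} (hc : c ≠ 0) :
    Sc (ex c) = ((Real.sin (c * Real.pi) / (c * Real.pi) : ℝ) : ℂ) := by
  have hI : ∫ t in (0:ℝ)..Real.pi, ex c (2 * Real.cos t) * ((Real.sin t ^ 2 : ℝ) : ℂ) =
      ((Real.sin (c * Real.pi) / (2 * c) : ℝ) : ℂ) := by
    set Φ : ℝ → ℂ := fun t =>
      (1 / (4 * Complex.I * c)) * Complex.exp (Complex.I * ((c * (2 * t - Real.sin (2 * t) - Real.pi) : ℝ) : ℂ))
      with hΦ
    have hd : ∀ t ∈ Set.uIcc (0:ℝ) Real.pi, HasDerivAt Φ
        (Complex.exp (Complex.I * ((c * (2 * t - Real.sin (2 * t) - Real.pi) : ℝ) : ℂ)) *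
          ((Real.sin t ^ 2 : ℝ) : ℂ)) t := by
      intro t _
      have h1 : HasDerivAt (fun t : ℝ => c * (2 * t - Real.sin (2 * t) - Real.pi))
          (c * (4 * Real.sin t ^ 2)) t := by
        have h2 : HasDerivAt (fun t : ℝ => Real.sin (2 * t)) (Real.cos (2 * t) * 2) t := by
          have h := ((hasDerivAt_id' t).const_mul (2:ℝ)).sin
          simpa using h
        refine (((((hasDerivAt_id' t).const_mul (2:ℝ)).fun_sub h2).sub_const
          Real.pi).const_mul c).congr_deriv ?_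
        rw [Real.cos_two_mul]
        have := Real.sin_sq_add_cos_sq t
        have e : Real.cos t ^ 2 = 1 - Real.sin t ^ 2 := by linarith
        rw [e]; ring
      have h4 := (((h1.ofReal_comp).const_mul Complex.I).cexp).const_mul (1 / (4 * Complex.I * c) : ℂ)
      refine h4.congr_deriv ?_
      have hcc : (c : ℂ) ≠ 0 := by exact_mod_cast hc
      have hI0 : Complex.I ≠ 0 := Complex.I_ne_zero
      push_cast
      field_simp
    have hint : IntervalIntegrable (fun t : ℝ =>
        Complex.exp (Complex.I * ((c * (2 * t - Real.sin (2 * t) - Real.pi) : ℝ) : ℂ)) *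
          ((Real.sin t ^ 2 : ℝ) : ℂ)) volume 0 Real.pi := by
      apply Continuous.intervalIntegrable
      fun_prop
    have := intervalIntegral.integral_eq_sub_of_hasDerivAt hd hint
    have hcongr : ∫ t in (0:ℝ)..Real.pi, ex c (2 * Real.cos t) * ((Real.sin t ^ 2 : ℝ) : ℂ) =
        ∫ t in (0:ℝ)..Real.pi,
          Complex.exp (Complex.I * ((c * (2 * t - Real.sin (2 * t) - Real.pi) : ℝ) : ℂ)) *
          ((Real.sin t ^ 2 : ℝ) : ℂ) := by
      refine intervalIntegral.integral_congr fun t ht => ?_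
      rw [Set.uIcc_of_le Real.pi_pos.le] at ht
      simp only [ex, Θ_two_cos ht.1 ht.2]
    rw [hcongr, this, hΦ]
    have hcc : (c : ℂ) ≠ 0 := by exact_mod_cast hc
    simp only [mul_zero, Real.sin_zero, sub_zero, zero_sub, Real.sin_two_pi]
    have e1 : Complex.I * ((c * (2 * Real.pi - Real.pi) : ℝ) : ℂ) = ((c * Real.pi : ℝ) : ℂ) * Complex.I := by
      push_cast; ring
    have e2 : Complex.I * ((c * (-Real.pi) : ℝ) : ℂ) = -((c * Real.pi : ℝ) : ℂ) * Complex.I := by
      push_cast; ring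
    rw [e1, e2]
    have e3 : Complex.exp (((c * Real.pi : ℝ) : ℂ) * Complex.I) -
        Complex.exp (-((c * Real.pi : ℝ) : ℂ) * Complex.I) = 2 * Complex.I * Complex.sin ((c * Real.pi : ℝ) : ℂ) := by
      rw [Complex.sin]
      have : Complex.I * Complex.I = -1 := Complex.I_mul_I
      ring_nf
      rw [Complex.I_sq]
      ring
    rw [← mul_sub, e3, ← Complex.ofReal_sin]
    push_cast
    have hI0 : Complex.I ≠ 0 := Complex.I_ne_zero
    field_simp
    norm_num
  unfold Sc
  rw [hI]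
  have hcc : (c : ℂ) ≠ 0 := by exact_mod_cast hc
  have hpi : (Real.pi : ℂ) ≠ 0 := by exact_mod_cast Real.pi_ne_zero
  push_cast
  field_simp

theorem Sc_ex_int {m : ℤ} (hm : m ≠ 0) : Sc (ex m) = 0 := by
  rw [Sc_ex (by exact_mod_cast hm), Real.sin_int_mul_pi]
  simp

theorem uu_eq_ex (x : A) : uu x = fc x (ex 1) := by
  rw [uu_eq_fc]
  congr 1
  ext s
  simp [ex]

theorem sg_uu (x : A) (b : Bool) :
    sg (uu x) b = fc x (ex ((if b then (1:ℤ) else -1 : ℤ) : ℝ)) := by
  cases b with
  | true => simp [sg, uu_eq_ex]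
  | false =>
    simp only [sg, Bool.false_eq_true, if_false, uu_eq_ex, ← fc_star]
    congr 1
    ext s
    rw [ex_star]
    simp

/-- word induction for `FreeHaar` -/
theorem word_aux {x : A} (hx : IsSelfAdjoint x) {G : StarSubalgebra ℂ A} (hCF : CF T x (G : Set A))
    (h : ∀ n, T.τ (ch x (n+1)) = 0) (L : List (Bool × A)) :
    (∀ p ∈ L, p.2 ∈ G) → ∀ (m : ℤ) (a : A) (b : Bool) (l : List (A × A)), m ≠ 0 →
      (b = true → 0 < m) → (b = false → m < 0) → a ∈ G → Alt T ((b, a) :: L) →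
      Adm T (Cx x) G l → T.τ (Wb l * (fc x (ex m) * a * word (uu x) L)) = 0 := by
  have hE : ∀ m n : ℤ, fc x (ex m) * fc x (ex n) = fc x (ex ((m + n : ℤ) : ℝ)) := by
    intro m n
    rw [← fc_mul (continuous_ex _) (continuous_ex _)]
    congr 1
    ext s
    rw [ex_mul]
    push_cast
    rfl
  have hsg := sg_uu x
  have hmem : ∀ m : ℤ, m ≠ 0 → fc x (ex m) ∈ Cx x := fun m hm =>
    fc_mem (T := T) hx h (continuous_ex _) (Sc_ex_int hm)
  induction L with
  | nil =>
    intro _ m a b l hm _ _ ha _ hl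
    simp only [word, mul_one]
    exact hCF.free hl (hmem m hm) ha
  | cons p L ih =>
    obtain ⟨b', a'⟩ := p
    intro hL m a b l hm hb1 hb2 ha hAlt hl
    have ha' : a' ∈ G := hL (b', a') (by simp)
    have hL' : ∀ p ∈ L, p.2 ∈ G := fun p hp => hL p (by simp [hp])
    have ih' := ih hL'
    simp only [Alt] at hAlt
    have hs : ((if b' then (1:ℤ) else -1)) ≠ 0 := by cases b' <;> simp
    -- centred middle coefficient
    have hcen : ∀ c : A, c ∈ G → T.τ c = 0 →
        T.τ (Wb l * (fc x (ex m) * c * word (uu x) ((b', a') :: L))) = 0 := by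
      intro c hc hc0
      have h1 := ih' (if b' then (1:ℤ) else -1) a' b' (l ++ [(fc x (ex m), c)]) hs
        (by intro hb; simp [hb]) (by intro hb; simp [hb]) ha' hAlt.2 (by
          intro q hq
          rcases List.mem_append.1 hq with hq | hq
          · exact hl q hq
          · rw [List.mem_singleton] at hq
            rw [hq]
            exact ⟨hmem m hm, hc, hc0⟩)
      rw [← h1, Wb_append]
      simp only [word, hsg, Wb_cons, Wb_nil, mul_one, mul_assoc]
    by_cases hbb : b = b'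
    · subst hbb
      -- split the coefficient
      have h1 := hcen (a - algebraMap ℂ A (T.τ a)) (sub_mem ha (StarSubalgebra.algebraMap_mem _ _))
        (by rw [map_sub, Algebra.algebraMap_eq_smul_one, map_smul, T.one]; simp)
      have hm' : m + (if b then (1:ℤ) else -1) ≠ 0 := by
        cases b with
        | true => have := hb1 rfl; simp; omega
        | false => have := hb2 rfl; simp; omega
      have h2 := ih' (m + (if b then (1:ℤ) else -1)) a' b l hm'
        (by intro hb; have := hb1 hb; simp [hb]; omega)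
        (by intro hb; have := hb2 hb; simp [hb]; omega) ha' hAlt.2 hl
      have e : Wb l * (fc x (ex m) * a * word (uu x) ((b, a') :: L)) =
          Wb l * (fc x (ex m) * (a - algebraMap ℂ A (T.τ a)) * word (uu x) ((b, a') :: L)) +
          T.τ a • (Wb l * (fc x (ex ((m + (if b then (1:ℤ) else -1) : ℤ) : ℝ)) * a' *
            word (uu x) L)) := by
        rw [← hE]
        simp only [word, hsg, Algebra.algebraMap_eq_smul_one]
        simp only [mul_sub, sub_mul, mul_smul_comm, smul_mul_assoc, mul_one, mul_assoc]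
        abel
      rw [e, map_add, h1, zero_add, map_smul, h2, smul_zero]
    · exact hcen a ha (hAlt.1 hbb)

theorem cf_of_SD {S : Set A} {x : A} (hS : ∀ a ∈ S, star a ∈ S) (h : SD T S x) :
    CF T x (StarAlgebra.adjoin ℂ S : Set A) :=
  (SDW_of_SD (SD.adjoin hS h)).cf (fun _ ha _ hb => mul_mem ha hb) (one_mem _)

theorem tau_ch_of_SD {S : Set A} {x : A} (hS : ∀ a ∈ S, star a ∈ S) (h : SD T S x) (n : ℕ) :
    T.τ (ch x (n+1)) = 0 := by
  have := cf_of_SD hS h [] n 1 (by simp [Cen]) (one_mem _)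
  simpa using this

/-- `ex (1/d)` -/
theorem ru_eq_ex (d : ℕ) (x : A) : ru d x = fc x (ex (1 / d)) := by
  rw [ru_eq_fc]
  congr 1
  ext s
  unfold ex
  congr 1
  push_cast
  ring

theorem fc_unitary {x : A} (hx : IsSelfAdjoint x) (c : ℝ) : fc x (ex c) ∈ unitary A := by
  have h2 : star (fc x (ex c)) = fc x (ex (-c)) := by
    rw [← fc_star]; congr 1; ext s; rw [ex_star]
  have h3 : ∀ c : ℝ, fc x (ex c) * fc x (ex (-c)) = 1 := by
    intro c
    rw [← fc_mul (continuous_ex _) (continuous_ex _)]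
    have : (fun s => ex c s * ex (-c) s) = fun _ => 1 := by
      ext s; rw [ex_mul, add_neg_cancel, ex_zero]
    rw [this, fc_const hx, map_one]
  rw [Unitary.mem_iff, h2]
  refine ⟨?_, h3 c⟩
  have := h3 (-c)
  rwa [neg_neg] at this

theorem fc_pow {x : A} (hx : IsSelfAdjoint x) (c : ℝ) (n : ℕ) :
    fc x (ex c) ^ n = fc x (ex (n * c)) := by
  induction n with
  | zero =>
    have : (ex ((0:ℕ) * c)) = fun _ => 1 := by ext s; simp [ex]
    rw [pow_zero, this, fc_const hx, map_one]
  | succ n ih =>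
    rw [pow_succ, ih, ← fc_mul (continuous_ex _) (continuous_ex _)]
    congr 1
    ext s
    rw [ex_mul]
    push_cast
    ring_nf

theorem fc_mem_closed {x : A} {M : StarSubalgebra ℂ A} (hM : IsClosed (M : Set A)) (hx : x ∈ M)
    (F : ℝ → ℂ) : fc x F ∈ M := by
  have : IsClosed (M : Set A) := hM
  exact cfc_mem (hs := hM) (fun z : ℂ => F z.re) hx

theorem map_fc {B : Type*} [CStarAlgebra B] {x : A} (hx : IsSelfAdjoint x) (α : A →⋆ₐ[ℂ] B)
    (F : ℝ → ℂ) (hF : Continuous F) : α (fc x F) = fc (α x) F := by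
  unfold fc
  refine StarAlgHomClass.map_cfc α (fun z : ℂ => F z.re) x (by fun_prop) ?_ hx.isStarNormal
    (hx.map α).isStarNormal
  exact AddMonoidHomClass.continuous_of_bound α 1 fun a => by
    rw [one_mul]; exact NonUnitalStarAlgHom.norm_apply_le α a

end Sm

open Sm

section NoT
variable {A : Type u} [CStarAlgebra A]

theorem uu_unitary {x : A} (hx : IsSelfAdjoint x) : uu x ∈ unitary A := by
  rw [uu_eq_ex]; exact fc_unitary hx 1

theorem ru_unitary (d : ℕ) {x : A} (hx : IsSelfAdjoint x) : ru d x ∈ unitary A := by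
  rw [ru_eq_ex]; exact fc_unitary hx _

theorem ru_pow {d : ℕ} (hd : 0 < d) {x : A} (hx : IsSelfAdjoint x) : ru d x ^ d = uu x := by
  rw [ru_eq_ex, uu_eq_ex, fc_pow hx]
  congr 2
  field_simp

theorem map_ru (d : ℕ) {x : A} (hx : IsSelfAdjoint x) (α : A ≃⋆ₐ[ℂ] A) :
    α (ru d x) = ru d (α x) := by
  rw [ru_eq_ex, ru_eq_ex]
  exact map_fc hx (α : A →⋆ₐ[ℂ] A) _ (continuous_ex _)

theorem map_uu {x : A} (hx : IsSelfAdjoint x) (α : A ≃⋆ₐ[ℂ] A) : α (uu x) = uu (α x) := by
  rw [uu_eq_ex, uu_eq_ex]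
  exact map_fc hx (α : A →⋆ₐ[ℂ] A) _ (continuous_ex _)

end NoT

variable {A : Type u} [CStarAlgebra A] (T : TracialState A)

theorem SD.norm_le (hT : Amb T) {S : Set A} (hS : ∀ s ∈ S, star s ∈ S) {x : A} (h : SD T S x) :
    ‖x‖ ≤ 2 :=
  norm_le_two hT.faithful h.1 (tau_ch_of_SD hS h)

/-- **law of a semicircular element** -/
theorem SD.law {S : Set A} (hS : ∀ s ∈ S, star s ∈ S) {x : A} (h : SD T S x) {F : ℝ → ℂ}
    (hF : Continuous F) : T.τ (cfc (fun z : ℂ => F z.re) x) = Sc F :=
  Sm.law h.1 (tau_ch_of_SD hS h) hF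

/-- **`uu x` is a Haar unitary free from the *-algebra generated by `S`** -/
theorem SD.freeHaar (_hT : Amb T) {S : Set A} (hS : ∀ s ∈ S, star s ∈ S) {x : A} (h : SD T S x) :
    FreeHaar T (StarAlgebra.adjoin ℂ S : Set A) (uu x) := by
  refine ⟨uu_unitary h.1, fun L hL hmem hAlt => ?_⟩
  match L, hL with
  | (b, a) :: L, _ =>
    have h1 := word_aux h.1 (cf_of_SD hS h) (tau_ch_of_SD hS h) L
      (fun p hp => hmem p (by simp [hp]))
      (if b then (1:ℤ) else -1) a b [] (by cases b <;> simp) (by intro hb; simp [hb])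
      (by intro hb; simp [hb]) (hmem (b, a) (by simp)) hAlt (by simp [Adm])
    rw [Wb_nil, one_mul] at h1
    rw [← h1, word, sg_uu]

theorem fc_mem_W {x : A} (F : ℝ → ℂ) : fc x F ∈ W T {x} :=
  fc_mem_closed (isClosed_W T {x}) (subset_W T {x} rfl) F

theorem ru_mem (d : ℕ) {x : A} (_hx : IsSelfAdjoint x) : ru d x ∈ W T {x} := by
  rw [ru_eq_ex]; exact fc_mem_W T _

theorem uu_mem {x : A} (_hx : IsSelfAdjoint x) : uu x ∈ W T {x} := by
  rw [uu_eq_ex]; exact fc_mem_W T _

/-! ### the mean of `ru d x` -/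

/-- the mean of `ru d x` -/
noncomputable def kap (d : ℕ) : ℝ := (Sc fun t => (Real.cos (Θ t / d) : ℂ)).re

theorem abs_Θ_le {s : ℝ} (hs : s ∈ Set.Icc (-2:ℝ) 2) : |Θ s| ≤ Real.pi := by
  have h1 : -1 ≤ s / 2 := by linarith [hs.1]
  have h2 : s / 2 ≤ 1 := by linarith [hs.2]
  set t := Real.arccos (s / 2) with ht
  have e : s = 2 * Real.cos t := by rw [ht, Real.cos_arccos h1 h2]; ring
  have h0 : 0 ≤ t := Real.arccos_nonneg _
  have hpi : t ≤ Real.pi := Real.arccos_le_pi _
  rw [e, Θ_two_cos h0 hpi, abs_le]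
  constructor
  · have := Real.sin_le (x := 2 * t) (by linarith)
    linarith
  · have := Real.sin_le (x := 2 * Real.pi - 2 * t) (by linarith)
    rw [Real.sin_two_pi_sub] at this
    linarith

theorem ex_add_ex_neg (c s : ℝ) : ex c s + ex (-c) s = 2 * ((Real.cos (c * Θ s) : ℝ) : ℂ) := by
  unfold ex
  rw [Complex.ofReal_cos, Complex.cos]
  have e1 : Complex.I * ((c * Θ s : ℝ) : ℂ) = ((c * Θ s : ℝ) : ℂ) * Complex.I := by ring
  have e2 : Complex.I * ((-c * Θ s : ℝ) : ℂ) = -((c * Θ s : ℝ) : ℂ) * Complex.I := by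
    push_cast; ring
  rw [e1, e2]
  ring

theorem Sc_ex_eq_kap (d : ℕ) : Sc (ex (1 / d)) = kap d := by
  rcases Nat.eq_zero_or_pos d with rfl | hd
  · have : (ex (1 / ((0:ℕ):ℝ))) = fun _ => 1 := by ext s; simp [ex]
    rw [this, Sc_one, kap]
    have : (fun t => ((Real.cos (Θ t / ((0:ℕ):ℝ)) : ℝ) : ℂ)) = fun _ => 1 := by ext s; simp
    simp only [CharP.cast_eq_zero, div_zero, Real.cos_zero, Complex.ofReal_one] at *
    simp [Sc_one]
  · have hd' : (d : ℝ) ≠ 0 := by positivity
    have h1 : Sc (fun t => (Real.cos (Θ t / d) : ℂ)) =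
        (1/2) * (Sc (ex (1/d)) + Sc (ex (-(1/d)))) := by
      rw [← Sc_add (continuous_ex _) (continuous_ex _), ← Sc_const_mul]
      congr 1
      ext s
      rw [ex_add_ex_neg]
      have : Θ s / d = 1 / d * Θ s := by ring
      rw [this]
      ring
    have hne : (1 / (d:ℝ)) ≠ 0 := by positivity
    have h2 : Sc (ex (-(1/d))) = Sc (ex (1/d)) := by
      rw [Sc_ex hne, Sc_ex (neg_ne_zero.2 hne)]
      congr 1
      rw [neg_mul, Real.sin_neg, neg_div_neg_eq]
    rw [h2] at h1
    have h3 : Sc (fun t => (Real.cos (Θ t / d) : ℂ)) = Sc (ex (1/d)) := by rw [h1]; ring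
    rw [kap, h3, Sc_ex hne, Complex.ofReal_re]

theorem kap_bounds {d : ℕ} (hd : 0 < d) : 0 ≤ kap d ∧ kap d ≤ 1 ∧ 1 - kap d ≤ 5 / (d : ℝ) ^ 2 := by
  have hd' : (0:ℝ) < d := by exact_mod_cast hd
  have hd1 : (1:ℝ) ≤ d := by exact_mod_cast hd
  have hpi := Real.pi_pos
  have hk : (kap d : ℂ) = ((Real.sin (1 / d * Real.pi) / (1 / d * Real.pi) : ℝ) : ℂ) := by
    rw [← Sc_ex_eq_kap, Sc_ex (by positivity)]
  have hk' : kap d = Real.sin (1 / d * Real.pi) / (1 / d * Real.pi) := by exact_mod_cast hk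
  have hy0 : 0 < 1 / d * Real.pi := by positivity
  have hy1 : 1 / d * Real.pi ≤ Real.pi := by
    have : 1 / (d:ℝ) ≤ 1 := by rw [div_le_one hd']; exact hd1
    nlinarith
  refine ⟨?_, ?_, ?_⟩
  · rw [hk']
    exact div_nonneg (Real.sin_nonneg_of_nonneg_of_le_pi hy0.le hy1) hy0.le
  · rw [hk', div_le_one hy0]
    exact Real.sin_le hy0.le
  · have h1 : ((1 - kap d : ℝ) : ℂ) = Sc (fun s => ((1 - Real.cos (1 / d * Θ s) : ℝ) : ℂ)) := by
      have e : (fun s => ((1 - Real.cos (1 / d * Θ s) : ℝ) : ℂ)) =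
          fun s => 1 - (1/2) * (ex (1/d) s + ex (-(1/d)) s) := by
        ext s
        rw [ex_add_ex_neg]
        push_cast
        ring
      have hc : Continuous fun s => (ex (1/d) s + ex (-(1/d)) s) :=
        (continuous_ex _).add (continuous_ex _)
      have hne : (1 / (d:ℝ)) ≠ 0 := by positivity
      have h2 : Sc (ex (-(1/d))) = Sc (ex (1/d)) := by
        rw [Sc_ex hne, Sc_ex (neg_ne_zero.2 hne)]
        congr 1
        rw [neg_mul, Real.sin_neg, neg_div_neg_eq]
      have hc' : Continuous fun s => (1/2:ℂ) * (ex (1/d) s + ex (-(1/d)) s) :=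
        continuous_const.mul hc
      rw [e, Sc_sub continuous_const hc', Sc_one, Sc_const_mul,
        Sc_add (continuous_ex _) (continuous_ex _), h2, Sc_ex_eq_kap]
      push_cast
      ring
    have h2 : ‖((1 - kap d : ℝ) : ℂ)‖ ≤ 5 / (d:ℝ)^2 := by
      rw [h1]
      refine norm_Sc_le fun s hs => ?_
      rw [Complex.norm_real, Real.norm_eq_abs, abs_le]
      have hc1 := Real.cos_le_one (1 / d * Θ s)
      have hc2 := Real.one_sub_sq_div_two_le_cos (x := 1 / d * Θ s)
      have hθ := abs_Θ_le hs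
      have hsq : Θ s ^ 2 ≤ 10 := by
        have h3 : Θ s ^ 2 = |Θ s| ^ 2 := (sq_abs _).symm
        rw [h3]
        have := Real.pi_lt_d2
        nlinarith [abs_nonneg (Θ s)]
      have h4 : (1 / d * Θ s) ^ 2 / 2 ≤ 5 / (d:ℝ)^2 := by
        have : (1 / d * Θ s) ^ 2 / 2 = (Θ s ^ 2 / 2) / (d:ℝ)^2 := by field_simp
        rw [this]
        gcongr
        linarith
      have h5 : 0 ≤ 5 / (d:ℝ)^2 := by positivity
      constructor <;> linarith
    rw [Complex.norm_real, Real.norm_eq_abs] at h2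
    exact (le_abs_self _).trans h2

theorem SD.tau_mul_ru (_hT : Amb T) {S : Set A} (hS : ∀ s ∈ S, star s ∈ S) {x : A}
    (h : SD T S x) {d : ℕ} (_hd : 0 < d) {a : A} (ha : a ∈ W T S) : T.τ (a * ru d x) = kap d * T.τ a := by
  have h1 : ∀ a ∈ StarAlgebra.adjoin ℂ S, T.τ (a * ru d x) = kap d * T.τ a := by
    intro a ha
    have hmem := fc_sub_mem (T := T) h.1 (tau_ch_of_SD hS h) (continuous_ex (1 / (d:ℝ)))
    have := (cf_of_SD hS h).free (l := []) (by simp [Adm]) hmem ha
    rw [Wb_nil, one_mul, Sc_ex_eq_kap, ← ru_eq_ex, sub_mul, map_sub, T.tr,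
      Algebra.algebraMap_eq_smul_one, smul_mul_assoc, one_mul, map_smul, sub_eq_zero] at this
    exact this
  refine eq_of_forall_dist_le fun ε hε => ?_
  obtain ⟨b, hb, hab⟩ := ha (ε / 2) (by positivity)
  rw [dist_eq_norm]
  have e : T.τ (a * ru d x) - kap d * T.τ a = T.τ ((a - b) * ru d x) - kap d * T.τ (a - b) := by
    rw [sub_mul, map_sub, map_sub, h1 b hb]; ring
  rw [e]
  have hu := ru_unitary d h.1
  have n1 : ‖T.τ ((a - b) * ru d x)‖ ≤ T.nrm2 (a - b) := by
    have := T.norm_tau_mul_le (a - b) (ru d x)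
    have h2 : T.nrm2 (ru d x) = 1 := by
      have := T.nrm2_unitary_mul (Unitary.star_mul_self_of_mem hu) 1
      rw [mul_one, T.nrm2_one] at this
      exact this
    rwa [h2, mul_one] at this
  have n2 : ‖T.τ (a - b)‖ ≤ T.nrm2 (a - b) := by
    have := T.norm_tau_mul_le (a - b) 1
    rwa [T.nrm2_one, mul_one, mul_one] at this
  have n3 : ‖(kap d : ℂ)‖ ≤ 1 := by
    rw [← Sc_ex_eq_kap]
    exact norm_Sc_le fun s _ => (norm_ex _ _).le
  refine (norm_sub_le _ _).trans ?_
  rw [norm_mul]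
  have := mul_le_mul n3 n2 (norm_nonneg _) zero_le_one
  linarith

end Crest.Agent.R134
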