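import Crest.Agent.R134.Conv
import Crest.Agent.R134.Semi

/-!
# R134 Sign: the sign of a semicircular element
-/

set_option autoImplicit false
set_option linter.unusedSectionVars false

universe u

namespace Crest.Agent.R134

open Crest.Agent.R95 Filter Topology MeasureTheory Polynomial
open Crest.Agent.R134.Limit Crest.Agent.R134.Sm
open scoped Interval

namespace Conv

/-! ### scalar functions -/

/-- clamp to `[-1,1]` -/
noncomputable def clamp (x : ℝ) : ℝ := max (-1) (min 1 x)

theorem clamp_continuous : Continuous clamp := by unfold clamp; fun_prop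

theorem clamp_mem (x : ℝ) : clamp x ∈ Set.Icc (-1 : ℝ) 1 := by
  unfold clamp
  exact ⟨le_max_left _ _, max_le (by norm_num) (min_le_left _ _)⟩

theorem clamp_neg (x : ℝ) : clamp (-x) = -clamp x := by
  unfold clamp
  rcases le_total x (-1) with h | h
  · rw [min_eq_left (by linarith), max_eq_right (by norm_num), min_eq_right (by linarith),
      max_eq_left h]
    ring
  · rcases le_total x 1 with h' | h'
    · rw [min_eq_right (by linarith), max_eq_right (by linarith), min_eq_right h', max_eq_right h]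
    · rw [min_eq_right (by linarith), max_eq_left (by linarith), min_eq_left h',
        max_eq_right (by norm_num)]

theorem clamp_of_one_le {x : ℝ} (h : 1 ≤ x) : clamp x = 1 := by
  unfold clamp
  rw [min_eq_left h, max_eq_right (by norm_num)]

theorem clamp_nonneg {x : ℝ} (h : 0 ≤ x) : 0 ≤ clamp x := by
  unfold clamp
  exact le_max_of_le_right (le_min zero_le_one h)

theorem clamp_nonpos {x : ℝ} (h : x ≤ 0) : clamp x ≤ 0 := by
  have := clamp_nonneg (neg_nonneg.2 h)
  rw [clamp_neg] at this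
  linarith

/-- same sign -/
theorem clamp_mul_nonneg (k l : ℕ) (x : ℝ) : 0 ≤ clamp (k * x) * clamp (l * x) := by
  rcases le_total 0 x with h | h
  · exact mul_nonneg (clamp_nonneg (by positivity)) (clamp_nonneg (by positivity))
  · exact mul_nonneg_of_nonpos_of_nonpos
      (clamp_nonpos (mul_nonpos_of_nonneg_of_nonpos (by positivity) h))
      (clamp_nonpos (mul_nonpos_of_nonneg_of_nonpos (by positivity) h))

/-- `φ_k` -/
noncomputable def ph (k : ℕ) (s : ℝ) : ℝ := -clamp (k * Real.sin (Θ s))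

theorem ph_continuous (k : ℕ) : Continuous (ph k) := by
  unfold ph
  have := Θ_continuous
  exact (clamp_continuous.comp (by fun_prop)).neg

theorem ph_mem (k : ℕ) (s : ℝ) : ph k s ∈ Set.Icc (-1 : ℝ) 1 := by
  have := clamp_mem (k * Real.sin (Θ s))
  unfold ph
  exact ⟨by linarith [this.2], by linarith [this.1]⟩

theorem Θ_neg (s : ℝ) : Θ (-s) = -Θ s := by
  unfold Θ
  rw [neg_div, Real.arccos_neg]
  have : 2 * (Real.pi - Real.arccos (s / 2)) = 2 * Real.pi - 2 * Real.arccos (s / 2) := by ring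
  rw [this, Real.sin_two_pi_sub]
  ring

theorem ph_neg (k : ℕ) (s : ℝ) : ph k (-s) = -ph k s := by
  unfold ph
  rw [Θ_neg, Real.sin_neg, mul_neg, clamp_neg]

theorem ph_sub_sq_le (k l : ℕ) (s : ℝ) :
    (ph k s - ph l s) ^ 2 ≤ (1 - ph k s ^ 2) + (1 - ph l s ^ 2) := by
  have h1 := ph_mem k s
  have h2 := ph_mem l s
  have h3 : 0 ≤ ph k s * ph l s := by
    unfold ph
    have := clamp_mul_nonneg k l (Real.sin (Θ s))
    nlinarith
  set a := ph k s
  set b := ph l s
  -- a² + b² - ab ≤ 1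
  have h4 : a ^ 2 + b ^ 2 - a * b ≤ 1 := by
    have ha : a ^ 2 ≤ 1 := by nlinarith [h1.1, h1.2]
    have hb : b ^ 2 ≤ 1 := by nlinarith [h2.1, h2.2]
    rcases le_total (a ^ 2) (b ^ 2) with h | h
    · have h5 : a ^ 2 ≤ a * b := by
        have h6 : (a ^ 2) ^ 2 ≤ (a * b) ^ 2 := by nlinarith [sq_nonneg a]
        exact (sq_le_sq₀ (sq_nonneg a) h3).1 h6
      linarith
    · have h5 : b ^ 2 ≤ a * b := by
        have h6 : (b ^ 2) ^ 2 ≤ (a * b) ^ 2 := by nlinarith [sq_nonneg b]
        exact (sq_le_sq₀ (sq_nonneg b) h3).1 h6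
      linarith
  nlinarith

/-- the error -/
noncomputable def er (k : ℕ) : ℝ := (Sc fun s => ((1 - ph k s ^ 2 : ℝ) : ℂ)).re

theorem er_tendsto : Tendsto er atTop (𝓝 0) := by
  have h1 : Tendsto (fun k : ℕ => ∫ t in (0 : ℝ)..Real.pi,
      ((1 - ph k (2 * Real.cos t) ^ 2 : ℝ) : ℂ) * ((Real.sin t ^ 2 : ℝ) : ℂ)) atTop
      (𝓝 (∫ _t in (0 : ℝ)..Real.pi, (0 : ℂ))) := by
    have hIoc : Ι (0 : ℝ) Real.pi = Set.Ioc 0 Real.pi := Set.uIoc_of_le Real.pi_pos.le
    refine intervalIntegral.tendsto_integral_filter_of_dominated_convergence (fun _ => 1) ?_ ?_ ?_ ?_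
    · refine Eventually.of_forall fun k => ?_
      refine Continuous.aestronglyMeasurable ?_
      have := ph_continuous k
      fun_prop
    · refine Eventually.of_forall fun k => Eventually.of_forall fun t _ => ?_
      rw [← Complex.ofReal_mul, Complex.norm_real, Real.norm_eq_abs, abs_mul]
      have h2 := ph_mem k (2 * Real.cos t)
      have h3 : |1 - ph k (2 * Real.cos t) ^ 2| ≤ 1 := by
        rw [abs_le]
        constructor <;> nlinarith [h2.1, h2.2]
      have h4 : |Real.sin t ^ 2| ≤ 1 := by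
        rw [abs_of_nonneg (sq_nonneg _)]
        nlinarith [Real.sin_sq_le_one t]
      calc |1 - ph k (2 * Real.cos t) ^ 2| * |Real.sin t ^ 2| ≤ 1 * 1 :=
            mul_le_mul h3 h4 (abs_nonneg _) zero_le_one
        _ = 1 := one_mul 1
    · exact intervalIntegrable_const
    · filter_upwards [Measure.ae_ne volume Real.pi, Measure.ae_ne volume (Real.pi / 2)] with
        t ht1 ht2 ht
      rw [hIoc] at ht
      have ht' : t < Real.pi := lt_of_le_of_ne ht.2 ht1
      have h2 : Θ (2 * Real.cos t) = ss t := Θ_cos ⟨ht.1.le, ht.2⟩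
      have h3 : -Real.pi < ss t := by
        rw [← ss_zero]
        exact ss_strictMono ht.1
      have h4 : ss t < Real.pi := by
        conv_rhs => rw [← ss_pi]
        exact ss_strictMono ht'
      have h5 : ss t ≠ 0 := by
        intro h
        have h6 : ss (Real.pi / 2) = 0 := by
          unfold ss
          rw [mul_div_cancel₀ _ (two_ne_zero), Real.sin_pi]
          ring
        rw [← h6] at h
        exact ht2 (ss_strictMono.injective h)
      have h6 : Real.sin (ss t) ≠ 0 := by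
        rcases lt_or_gt_of_ne h5 with h | h
        · have := Real.sin_neg_of_neg_of_neg_pi_lt h h3
          exact this.ne
        · exact (Real.sin_pos_of_pos_of_lt_pi h h4).ne'
      obtain ⟨K, hK⟩ := exists_nat_gt (1 / |Real.sin (ss t)|)
      refine tendsto_const_nhds.congr' ?_
      filter_upwards [eventually_ge_atTop K] with k hk
      have h7 : 0 < |Real.sin (ss t)| := abs_pos.2 h6
      have h8 : 1 ≤ k * |Real.sin (ss t)| := by
        rw [div_lt_iff₀ h7] at hK
        have : (K : ℝ) ≤ k := by exact_mod_cast hk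
        nlinarith
      have h9 : ph k (2 * Real.cos t) ^ 2 = 1 := by
        unfold ph
        rw [h2]
        rcases le_total 0 (Real.sin (ss t)) with h | h
        · rw [abs_of_nonneg h] at h8
          rw [clamp_of_one_le h8]
          norm_num
        · rw [abs_of_nonpos h] at h8
          have : (k : ℝ) * Real.sin (ss t) = -(k * -Real.sin (ss t)) := by ring
          rw [this, clamp_neg, clamp_of_one_le h8]
          norm_num
      rw [h9]
      simp
  rw [intervalIntegral.integral_zero] at h1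
  have h2 := (Complex.continuous_re.tendsto _).comp (h1.const_mul (2 / Real.pi : ℂ))
  rw [mul_zero, Complex.zero_re] at h2
  exact h2

theorem er_nonneg_aux {F : ℝ → ℝ} (h : ∀ s, 0 ≤ F s) :
    0 ≤ (Sc fun s => (F s : ℂ)).re := by
  unfold Sc
  have h1 : (∫ t in (0 : ℝ)..Real.pi, (F (2 * Real.cos t) : ℂ) * ((Real.sin t ^ 2 : ℝ) : ℂ)) =
      ((∫ t in (0 : ℝ)..Real.pi, F (2 * Real.cos t) * Real.sin t ^ 2 : ℝ) : ℂ) := by
    rw [← intervalIntegral.integral_ofReal]
    refine intervalIntegral.integral_congr fun t _ => ?_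
    push_cast
    rfl
  rw [h1]
  have h2 : (2 / Real.pi : ℂ) = ((2 / Real.pi : ℝ) : ℂ) := by push_cast; ring
  rw [h2, ← Complex.ofReal_mul, Complex.ofReal_re]
  refine mul_nonneg (by positivity) ?_
  exact intervalIntegral.integral_nonneg Real.pi_pos.le fun t _ =>
    mul_nonneg (h _) (sq_nonneg _)

theorem Sc_re_mono {F G : ℝ → ℝ} (hF : Continuous F) (hG : Continuous G) (h : ∀ s, F s ≤ G s) :
    (Sc fun s => (F s : ℂ)).re ≤ (Sc fun s => (G s : ℂ)).re := by
  have h1 := er_nonneg_aux (F := fun s => G s - F s) fun s => sub_nonneg.2 (h s)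
  have h2 : (Sc fun s => ((G s - F s : ℝ) : ℂ)) = (Sc fun s => (G s : ℂ)) - Sc fun s => (F s : ℂ) := by
    rw [← Sc_sub (F := fun s => (G s : ℂ)) (G := fun s => (F s : ℂ)) (by fun_prop) (by fun_prop)]
    congr 1
    funext s
    push_cast
    rfl
  rw [h2, Complex.sub_re] at h1
  linarith

theorem er_nonneg (k : ℕ) : 0 ≤ er k := by
  refine er_nonneg_aux (F := fun s => 1 - ph k s ^ 2) fun s => ?_
  have := ph_mem k s
  nlinarith [this.1, this.2]

/-- orthogonality to even powers of the Haar unitary -/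
theorem Sc_ph_ex (k m : ℕ) : Sc (fun s => (ph k s : ℂ) * ex (2 * m : ℕ) s) = 0 := by
  have hc : Continuous fun s => (ph k s : ℂ) * ex (2 * m : ℕ) s := by
    have h1 := ph_continuous k
    have h2 := continuous_ex (2 * m : ℕ)
    fun_prop
  rw [← integral_xi hc]
  -- the function on the circle
  set H : ℝ → ℂ := fun θ => ((-clamp (k * Real.sin θ) : ℝ) : ℂ) *
    Complex.exp (Complex.I * (((2 * m : ℕ) * θ : ℝ) : ℂ)) with hH
  have h1 : ∫ θ in (-Real.pi)..Real.pi, (ph k (xi θ) : ℂ) * ex (2 * m : ℕ) (xi θ) =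
      ∫ θ in (-Real.pi)..Real.pi, H θ := by
    refine intervalIntegral.integral_congr fun θ hθ => ?_
    rw [Set.uIcc_of_le (by linarith [Real.pi_pos])] at hθ
    simp only [ph, ex, Θ_xi hθ, hH]
  have hHc : Continuous H := by
    have := clamp_continuous
    rw [hH]
    fun_prop
  have h2 : ∀ θ, H (θ + Real.pi) = -H θ := by
    intro θ
    simp only [hH]
    rw [Real.sin_add_pi, mul_neg, clamp_neg]
    have e : Complex.exp (Complex.I * (((2 * m : ℕ) * (θ + Real.pi) : ℝ) : ℂ)) =
        Complex.exp (Complex.I * (((2 * m : ℕ) * θ : ℝ) : ℂ)) := by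
      have : Complex.I * (((2 * m : ℕ) * (θ + Real.pi) : ℝ) : ℂ) =
          Complex.I * (((2 * m : ℕ) * θ : ℝ) : ℂ) + m * (2 * Real.pi * Complex.I) := by
        push_cast
        ring
      rw [this, Complex.exp_add, Complex.exp_nat_mul_two_pi_mul_I, mul_one]
    rw [e]
    push_cast
    ring
  have h3 : ∫ θ in (0 : ℝ)..Real.pi, H θ = -∫ θ in (-Real.pi)..0, H θ := by
    have h4 := intervalIntegral.integral_comp_add_right (a := -Real.pi) (b := 0) H Real.pi
    rw [neg_add_cancel, zero_add] at h4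
    rw [← h4]
    simp only [h2]
    rw [intervalIntegral.integral_neg]
  rw [h1, ← intervalIntegral.integral_add_adjacent_intervals (b := 0)
    (hHc.intervalIntegrable _ _) (hHc.intervalIntegrable _ _), h3, add_neg_cancel, mul_zero]

/-! ### operators -/

variable {A : Type u} [CStarAlgebra A] {T : TracialState A}

/-- `φ_k (Y)` -/
noncomputable def Vk (Y : A) (k : ℕ) : A := fc Y (fun s => (ph k s : ℂ))

theorem phc_continuous (k : ℕ) : Continuous fun s => (ph k s : ℂ) :=
  Complex.continuous_ofReal.comp (ph_continuous k)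

theorem Vk_sa (Y : A) (k : ℕ) : IsSelfAdjoint (Vk Y k) := by
  unfold Vk
  show star (fc Y (fun s => (ph k s : ℂ))) = _
  rw [← fc_star]
  congr 1
  funext s
  simp

theorem Vk_norm {Y : A} (hY : IsSelfAdjoint Y) (k : ℕ) : ‖Vk Y k‖ ≤ 1 := by
  refine norm_fc_le hY zero_le_one le_rfl fun s _ => ?_
  rw [Complex.norm_real, Real.norm_eq_abs]
  exact abs_le.2 (ph_mem k s)

theorem nrm2_Vk_sub {Y : A} (hY : IsSelfAdjoint Y) (h : ∀ n, T.τ (ch Y (n + 1)) = 0) (k l : ℕ) :
    T.nrm2 (Vk Y k - Vk Y l) ^ 2 ≤ er k + er l := by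
  have hk := ph_continuous k
  have hl := ph_continuous l
  unfold Vk
  rw [← fc_sub (phc_continuous k) (phc_continuous l),
    nrm2_fc_sq (F := fun s => (ph k s : ℂ) - (ph l s : ℂ)) hY h
      ((phc_continuous k).sub (phc_continuous l))]
  have e1 : (fun s => star ((ph k s : ℂ) - (ph l s : ℂ)) * ((ph k s : ℂ) - (ph l s : ℂ))) =
      fun s => (((ph k s - ph l s) ^ 2 : ℝ) : ℂ) := by
    funext s
    rw [← Complex.ofReal_sub, Complex.star_def, Complex.conj_ofReal]
    push_cast
    ring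
  rw [e1]
  have e2 : er k + er l = (Sc fun s => (((1 - ph k s ^ 2) + (1 - ph l s ^ 2) : ℝ) : ℂ)).re := by
    unfold er
    rw [← Complex.add_re, ← Sc_add (by fun_prop) (by fun_prop)]
    congr 2
    funext s
    push_cast
    ring
  rw [e2]
  exact Sc_re_mono (F := fun s => (ph k s - ph l s) ^ 2)
    (G := fun s => (1 - ph k s ^ 2) + (1 - ph l s ^ 2)) (by fun_prop) (by fun_prop)
    (ph_sub_sq_le k l)

theorem nrm2_Vk_sq_sub {Y : A} (hY : IsSelfAdjoint Y) (h : ∀ n, T.τ (ch Y (n + 1)) = 0) (k : ℕ) :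
    T.nrm2 (Vk Y k * Vk Y k - 1) ^ 2 ≤ er k := by
  have hk := ph_continuous k
  have e0 : Vk Y k * Vk Y k - 1 = fc Y (fun s => (ph k s : ℂ) * (ph k s : ℂ) - 1) := by
    rw [fc_sub (F := fun s => (ph k s : ℂ) * (ph k s : ℂ)) (G := fun _ => 1) (by fun_prop)
      (by fun_prop), fc_mul (phc_continuous k) (phc_continuous k), fc_const hY, map_one]
    rfl
  rw [e0, nrm2_fc_sq hY h (by fun_prop)]
  have e1 : (fun s => star ((ph k s : ℂ) * (ph k s : ℂ) - 1) * ((ph k s : ℂ) * (ph k s : ℂ) - 1)) =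
      fun s => (((1 - ph k s ^ 2) ^ 2 : ℝ) : ℂ) := by
    funext s
    rw [← Complex.ofReal_mul, ← Complex.ofReal_one, ← Complex.ofReal_sub, Complex.star_def,
      Complex.conj_ofReal]
    push_cast
    ring
  rw [e1]
  unfold er
  refine Sc_re_mono (F := fun s => (1 - ph k s ^ 2) ^ 2) (G := fun s => 1 - ph k s ^ 2)
    (by fun_prop) (by fun_prop) fun s => ?_
  have := ph_mem k s
  have h1 : ph k s ^ 2 ≤ 1 := by nlinarith [this.1, this.2]
  nlinarith [sq_nonneg (ph k s)]

theorem fc_neg {Y : A} (hY : IsSelfAdjoint Y) {F : ℝ → ℂ} (hF : Continuous F) :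
    fc (-Y) F = fc Y (fun s => F (-s)) := by
  unfold fc
  rw [← cfc_comp_neg (fun z : ℂ => F z.re) Y (by fun_prop) hY.isStarNormal]
  simp

theorem fc_neg_fun {Y : A} {F : ℝ → ℂ} : fc Y (fun s => -F s) = -fc Y F := by
  unfold fc
  exact cfc_neg (fun z : ℂ => F z.re) Y

theorem fc_mem_W' {x : A} (F : ℝ → ℂ) : fc x F ∈ W T {x} := by
  refine fc_mem_closed (isClosed_W T _) ?_ F
  exact subset_W T _ (Set.mem_singleton x)

/-- **the sign of a semicircular element** -/
theorem exists_sign (hT : Amb T) {S : Set A} (hS : ∀ s ∈ S, star s ∈ S) {Y : A} (h : SD T S Y) :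
    ∃ V : A, IsSelfAdjoint V ∧ V * V = 1 ∧ V ∈ W T {Y} ∧ T.τ V = 0 ∧
      (∀ α : A ≃⋆ₐ[ℂ] A, α Y = -Y → Pres T α → α V = -V) ∧
      (∀ Z : A, Z ∈ unitary A → Z * Y * star Z = -Y → Z * V * star Z = -V) ∧
      (∃ (p : ℕ → Polynomial ℂ), (∀ k, ‖Polynomial.aeval Y (p k)‖ ≤ 2) ∧
        Tendsto (fun k => T.nrm2 (Polynomial.aeval Y (p k) - V)) atTop (𝓝 0)) ∧
      ∀ m : ℕ, T.τ (V * uu Y ^ (2 * m)) = 0 := by
  have hY := h.1
  have hch := tau_ch_of_SD hS h
  have hY2 : ‖Y‖ ≤ 2 := norm_le_two hT.faithful hY hch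
  obtain ⟨V, hV1, hV⟩ := hT.complete (Vk Y) 1 (Vk_norm hY) (by
    intro ε hε
    obtain ⟨K, hK⟩ := (Metric.tendsto_atTop.1 er_tendsto) (ε ^ 2 / 2) (by positivity)
    refine ⟨K, fun k hk l hl => ?_⟩
    have h1 := hK k hk
    have h2 := hK l hl
    rw [Real.dist_0_eq_abs, abs_of_nonneg (er_nonneg _)] at h1 h2
    have h3 := nrm2_Vk_sub hY hch k l
    exact lt_of_pow_lt_pow_left₀ 2 hε.le (by linarith))
  have hcv : Cv T (Vk Y) V := ⟨⟨1, Vk_norm hY⟩, hV⟩
  have hVsa : IsSelfAdjoint V := by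
    have h1 := Cv.star hcv
    have h2 : (fun k => star (Vk Y k)) = Vk Y := by
      funext k
      exact Vk_sa Y k
    rw [h2] at h1
    exact Cv.unique hT.faithful h1 hcv
  have hα : ∀ α : A ≃⋆ₐ[ℂ] A, α Y = -Y → Pres T α → α V = -V := by
    intro α hαY hp
    have h1 : ∀ k, α (Vk Y k) = -Vk Y k := by
      intro k
      have h2 : α (Vk Y k) = fc (α Y) (fun s => (ph k s : ℂ)) :=
        map_fc hY (α : A →⋆ₐ[ℂ] A) _ (phc_continuous k)
      rw [h2, hαY, fc_neg hY (phc_continuous k)]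
      have h3 : (fun s => (ph k (-s) : ℂ)) = fun s => -(ph k s : ℂ) := by
        funext s
        rw [ph_neg]
        push_cast
        rfl
      rw [h3, fc_neg_fun]
      rfl
    have h4 : Cv T (fun k => α (Vk Y k)) (α V) := by
      refine ⟨⟨1, fun k => ?_⟩, ?_⟩
      · simp only [h1, norm_neg]
        exact Vk_norm hY k
      · refine hcv.2.congr fun k => ?_
        rw [← map_sub, Pres.nrm2 hp]
    have h5 : Cv T (fun k => α (Vk Y k)) (-V) := by
      have h6 := Cv.smul (-1) hcv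
      simp only [neg_smul, one_smul] at h6
      simpa only [h1] using h6
    exact Cv.unique hT.faithful h4 h5
  have hVk_mem : ∀ k, Vk Y k ∈ W T {Y} := fun k => fc_mem_W' _
  have hm : ∀ m : ℕ, T.τ (V * uu Y ^ (2 * m)) = 0 := by
    intro m
    have h1 : Cv T (fun k => Vk Y k * uu Y ^ (2 * m)) (V * uu Y ^ (2 * m)) :=
      Cv.mul hcv (Cv.const _)
    have h2 : ∀ k, T.τ (Vk Y k * uu Y ^ (2 * m)) = 0 := by
      intro k
      have h3 : uu Y ^ (2 * m) = fc Y (ex (2 * m : ℕ)) := by
        rw [uu_eq_ex, fc_pow hY, mul_one]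
      rw [h3]
      unfold Vk
      rw [← fc_mul (phc_continuous k) (continuous_ex _)]
      exact (law (F := fun s => (ph k s : ℂ) * ex (2 * m : ℕ) s) hY hch
        ((phc_continuous k).mul (continuous_ex _))).trans (Sc_ph_ex k m)
    have h4 := Cv.tau h1
    simp only [h2] at h4
    exact tendsto_nhds_unique h4 tendsto_const_nhds
  refine ⟨V, hVsa, ?_, ?_, ?_, hα, ?_, ?_, hm⟩
  · -- V * V = 1
    have h1 : Cv T (fun k => Vk Y k * Vk Y k) (V * V) := Cv.mul hcv hcv
    have h2 : Cv T (fun k => Vk Y k * Vk Y k) 1 := by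
      refine ⟨h1.1, ?_⟩
      have h3 : Tendsto (fun k => T.nrm2 (Vk Y k * Vk Y k - 1) ^ 2) atTop (𝓝 0) :=
        squeeze_zero (fun _ => sq_nonneg _) (nrm2_Vk_sq_sub hY hch) er_tendsto
      have h7 := (Real.continuous_sqrt.tendsto _).comp h3
      rw [Real.sqrt_zero] at h7
      refine h7.congr fun k => ?_
      simp only [Function.comp_apply]
      exact Real.sqrt_sq (T.nrm2_nonneg _)
    exact Cv.unique hT.faithful h1 h2
  · refine mem_W_of_approx T fun ε hε => ?_
    obtain ⟨K, hK⟩ := (Metric.tendsto_atTop.1 hV) ε hε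
    refine ⟨Vk Y K, hVk_mem K, ?_⟩
    have := hK K le_rfl
    rwa [Real.dist_0_eq_abs, abs_of_nonneg (T.nrm2_nonneg _), T.nrm2_sub_comm] at this
  · have := hm 0
    simpa using this
  · intro Z hZ hZY
    have h1 := hα (Unitary.conjStarAlgAut ℂ A ⟨Z, hZ⟩)
      (by rw [Unitary.conjStarAlgAut_apply]; exact hZY)
      (by
        intro a
        rw [Unitary.conjStarAlgAut_apply]
        show T.τ (Z * a * star Z) = T.τ a
        rw [T.tr, ← mul_assoc, Unitary.star_mul_self_of_mem hZ, one_mul])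
    rw [Unitary.conjStarAlgAut_apply] at h1
    exact h1
  · -- polynomials
    have hp : ∀ k : ℕ, ∃ p : ℂ[X], ‖aeval Y p - Vk Y k‖ ≤ 1 / ((k : ℝ) + 1) := by
      intro k
      obtain ⟨p, hp⟩ := exists_poly_near (phc_continuous k) 2 (ε := 1 / ((k : ℝ) + 1))
        (by positivity)
      refine ⟨p, ?_⟩
      unfold Vk
      rw [← fc_poly hY p, ← fc_sub (continuous_eval p) (phc_continuous k)]
      exact norm_fc_le hY (by positivity) hY2 hp
    choose p hp using hp
    refine ⟨p, fun k => ?_, ?_⟩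
    · have h1 := hp k
      have h2 : 1 / ((k : ℝ) + 1) ≤ 1 := by
        rw [div_le_one (by positivity)]
        linarith [Nat.cast_nonneg (α := ℝ) k]
      have h3 := Vk_norm hY k
      calc ‖aeval Y (p k)‖ = ‖(aeval Y (p k) - Vk Y k) + Vk Y k‖ := by rw [sub_add_cancel]
        _ ≤ ‖aeval Y (p k) - Vk Y k‖ + ‖Vk Y k‖ := norm_add_le _ _
        _ ≤ 2 := by linarith
    · have h1 : Tendsto (fun k : ℕ => 1 / ((k : ℝ) + 1) + T.nrm2 (Vk Y k - V)) atTop (𝓝 0) := by
        have := (tendsto_one_div_add_atTop_nhds_zero_nat (𝕜 := ℝ)).add hV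
        simpa using this
      refine squeeze_zero (fun _ => T.nrm2_nonneg _) (fun k => ?_) h1
      refine (T.nrm2_triangle _ (Vk Y k) _).trans ?_
      exact add_le_add ((T.nrm2_le_norm _).trans (hp k)) le_rfl

end Conv

end Crest.Agent.R134
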