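import Crest.Agent.R134.Conv
import Crest.Agent.R134.Sign
import Crest.Agent.R134.FreePauli
import Crest.Agent.R134.Main
import Crest.Agent.R134.N2aX
import Crest.Agent.R134.N2bX
import Crest.Agent.R134.N2Pauli
import Crest.Agent.R134.N2Aux
import Crest.Agent.R134.Inv
import Crest.Agent.R134.Limit
import Crest.Agent.R134.Absorb

/-!
R134 (helper954): the conclusion for `n = 2` in the abstract frame.
-/

set_option autoImplicit false
set_option linter.unusedSectionVars false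
set_option linter.unusedVariables false

universe u

namespace Crest.Agent.R134

open Crest.Agent.R95 Filter Topology

variable {A : Type u} [CStarAlgebra A] {T : TracialState A}

/-- `SD` passes to the 2-norm closure of the coefficients -/
theorem SD.toW (hT : Amb T) {S : Set A} (hS : ∀ s ∈ S, star s ∈ S) {x : A} (h : SD T S x) :
    SD T (W T S : Set A) x := by
  have h1 := FreeHaar.closure T (SD.freeHaar T hT hS h)
  obtain ⟨X, hX, -, huu, -⟩ := Conv.exists_semicircular hT h1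
  have h2 : X = x := SD.uu_inj T hT (fun s hs => star_mem hs) hS hX h huu
  rw [← h2]; exact hX

/-- the off-diagonal part, normalised -/
noncomputable def offY (Z X : A) : A := (((Real.sqrt 2 : ℝ) : ℂ) / 2) • (X - Z * X * Z)
noncomputable def offX (Z X : A) : A := (1 / 2 : ℂ) • (X - Z * X * Z)
noncomputable def dgX (Z X : A) : A := (1 / 2 : ℂ) • (X + Z * X * Z)

theorem sqrt2_ne : ((Real.sqrt 2 : ℝ) : ℂ) ≠ 0 := by
  have : Real.sqrt 2 ≠ 0 := by positivity
  exact_mod_cast this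

theorem offY_eq (Z X : A) : offY Z X = ((Real.sqrt 2 : ℝ) : ℂ) • offX Z X := by
  unfold offY offX
  rw [smul_smul]; congr 1; ring

theorem offX_eq (Z X : A) : offX Z X = ((Real.sqrt 2 : ℝ) : ℂ)⁻¹ • offY Z X := by
  rw [offY_eq, smul_smul, inv_mul_cancel₀ sqrt2_ne, one_smul]

theorem off_add_dg (Z X : A) : offX Z X + dgX Z X = X := by
  unfold offX dgX
  rw [← smul_add]
  have : X - Z * X * Z + (X + Z * X * Z) = (2 : ℂ) • X := by rw [two_smul]; abel
  rw [this, smul_smul]; norm_num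

/-- the data for `n = 2` -/
structure Ctx (T : TracialState A) (a b c Z V X C : A) : Prop where
  ha : a ∈ unitary A
  a0 : ∀ k : ℕ, 0 < k → T.τ (a ^ k) = 0
  Zmem : Z ∈ W T {a}
  Zsa : star Z = Z
  Z2 : Z * Z = 1
  Za : ∀ k : ℕ, T.τ (Z * a ^ (2 * k)) = 0
  hX : SD T (W T {a, c} : Set A) X
  Xb : X ∈ W T {b}
  bX : uu X = b
  hC : SD T (W T {a, b} : Set A) C
  Cc : C ∈ W T {c}
  cC : uu C = c
  Vsa : star V = V
  V2 : V * V = 1
  VZ : V * Z = -(Z * V)
  VY : V ∈ W T {offY Z X}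
  lim : ∃ p : ℕ → Polynomial ℂ, (∀ k, ‖Polynomial.aeval (offY Z X) (p k)‖ ≤ 2) ∧
    Tendsto (fun k => T.nrm2 (Polynomial.aeval (offY Z X) (p k) - V)) atTop (𝓝 0)
  gen : ∀ z, z ∈ W T {a, b, c}

namespace Ctx

variable {a b c Z V X C : A} (h : Ctx T a b c Z V X C)

/-- the Pauli system `1, Z, V, iZV` -/
noncomputable def F : PauliSys A (Fin 4) :=
  PauliSys.pair Z V h.Zsa h.Vsa h.Z2 h.V2 h.VZ

include h

theorem f0 : h.F.f 0 = 1 := rfl
theorem f1 : h.F.f 1 = Z := rfl
theorem f2 : h.F.f 2 = V := rfl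
theorem f3 : h.F.f 3 = Complex.I • (Z * V) := rfl

theorem f_mem (B : StarSubalgebra ℂ A) (hZ : Z ∈ B) (hV : V ∈ B) (i : Fin 4) : h.F.f i ∈ B :=
  PauliSys.pair_f_mem B.toSubalgebra hZ hV i

theorem Z_ab : Z ∈ W T {a, b} := W_mono T (by intro x hx; simp at hx; simp [hx]) h.Zmem

theorem X_ab : X ∈ W T {a, b} := W_mono T (by intro x hx; simp at hx; simp [hx]) h.Xb

theorem offY_ab : offY Z X ∈ W T {a, b} := by
  unfold offY
  exact (W T {a, b}).smul_mem (sub_mem h.X_ab (mul_mem (mul_mem h.Z_ab h.X_ab) h.Z_ab)) _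

theorem V_ab : V ∈ W T {a, b} :=
  W_le T (by intro x hx; rw [Set.mem_singleton_iff] at hx; rw [hx]; exact h.offY_ab) h.VY

theorem Xsa : star X = X := h.hX.1

theorem Ysa : star (offY Z X) = offY Z X := by
  unfold offY
  rw [star_smul, star_sub, star_mul, star_mul, h.Xsa, h.Zsa, ← mul_assoc]
  congr 1
  rw [RCLike.star_def, map_div₀, Complex.conj_ofReal, map_ofNat]

theorem ZYZ : Z * offY Z X * Z = - offY Z X := by
  unfold offY
  rw [mul_smul_comm, smul_mul_assoc, ← smul_neg]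
  congr 1
  calc Z * (X - Z * X * Z) * Z = Z * X * Z - (Z * Z) * X * (Z * Z) := by noncomm_ring
    _ = -(X - Z * X * Z) := by rw [h.Z2]; noncomm_ring

theorem inQ_of {q : A} (hZ : Z * q = q * Z) (hV : V * q = q * V) : h.F.InQ q := by
  intro i
  fin_cases i
  · change (1 : A) * q = q * 1
    rw [one_mul, mul_one]
  · exact hZ
  · exact hV
  · change (Complex.I • (Z * V)) * q = q * (Complex.I • (Z * V))
    rw [smul_mul_assoc, mul_smul_comm, mul_assoc, hV, ← mul_assoc, hZ, mul_assoc]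

theorem ZV : Z * V = -(V * Z) := by rw [h.VZ, neg_neg]

theorem V_comm_Y (hT : Amb T) : V * offY Z X = offY Z X * V := by
  have h1 : V ∈ StarSubalgebra.centralizer ℂ ({offY Z X} : Set A) := by
    refine W_le_centralizer T hT.faithful ?_ h.VY
    intro z hz
    rw [Set.mem_singleton_iff] at hz
    subst hz
    rw [SetLike.mem_coe, StarSubalgebra.mem_centralizer_iff]
    intro g hg
    rw [Set.mem_singleton_iff] at hg
    subst hg
    exact ⟨rfl, by rw [h.Ysa]⟩
  exact ((StarSubalgebra.mem_centralizer_iff ℂ).1 h1 _ rfl).1.symm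

/-- `|Y| = V Y` commutes with the Pauli system -/
theorem VY_inQ (hT : Amb T) : h.F.InQ (V * offY Z X) := by
  refine h.inQ_of ?_ ?_
  · calc Z * (V * offY Z X) = (Z * V) * offY Z X := by rw [mul_assoc]
      _ = -(V * (Z * offY Z X)) := by rw [h.ZV]; noncomm_ring
      _ = -(V * (Z * offY Z X * (Z * Z))) := by rw [h.Z2, mul_one]
      _ = -(V * ((Z * offY Z X * Z) * Z)) := by noncomm_ring
      _ = V * offY Z X * Z := by rw [h.ZYZ]; noncomm_ring
  · rw [mul_assoc, ← h.V_comm_Y hT, ← mul_assoc]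

/-! ### the coefficient sets -/

/-- words in `W{a}`, `Y`, `V` -/
noncomputable def Bs (a Z V X : A) (T : TracialState A) : StarSubalgebra ℂ A :=
  StarAlgebra.adjoin ℂ ((W T {a} : Set A) ∪ {offY Z X, V})

theorem a_Bs : a ∈ Bs a Z V X T :=
  StarAlgebra.subset_adjoin ℂ _ (Or.inl (subset_W T _ rfl))

theorem Z_Bs : Z ∈ Bs a Z V X T := StarAlgebra.subset_adjoin ℂ _ (Or.inl h.Zmem)

theorem V_Bs : V ∈ Bs a Z V X T := StarAlgebra.subset_adjoin ℂ _ (Or.inr (Or.inr rfl))

theorem Y_Bs : offY Z X ∈ Bs a Z V X T := StarAlgebra.subset_adjoin ℂ _ (Or.inr (Or.inl rfl))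

theorem Bs_le : Bs a Z V X T ≤ W T {a, b} := by
  refine StarAlgebra.adjoin_le ?_
  rintro x (hx | hx)
  · exact W_mono T (by intro x hx; simp at hx; simp [hx]) hx
  · rcases hx with rfl | hx
    · exact h.offY_ab
    · rw [Set.mem_singleton_iff] at hx
      subst hx
      exact h.V_ab

/-- the coefficients for the diagonal part -/
noncomputable def G1 (a c Z X : A) (T : TracialState A) : Set A :=
  (W T {a, c} : Set A) ∪ {offX Z X}

noncomputable def Bl (a c Z X : A) (T : TracialState A) : StarSubalgebra ℂ A :=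
  BL T (StarAlgebra.adjoin ℂ (G1 a c Z X T))

theorem offX_adj : offX Z X ∈ StarAlgebra.adjoin ℂ (G1 a c Z X T) :=
  StarAlgebra.subset_adjoin ℂ _ (Or.inr rfl)

theorem offY_adj : offY Z X ∈ StarAlgebra.adjoin ℂ (G1 a c Z X T) := by
  rw [offY_eq]; exact (StarAlgebra.adjoin ℂ (G1 a c Z X T)).smul_mem h.offX_adj _

theorem V_Bl : V ∈ Bl a c Z X T := by
  obtain ⟨p, hp, hlim⟩ := h.lim
  refine ⟨fun k => Polynomial.aeval (offY Z X) (p k), 2, fun k => ?_, hp, hlim⟩
  have h1 : Polynomial.aeval (offY Z X) (p k) ∈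
      (StarAlgebra.adjoin ℂ (G1 a c Z X T)).toSubalgebra :=
    Algebra.adjoin_le (Set.singleton_subset_iff.2 h.offY_adj)
      (Polynomial.aeval_mem_adjoin_singleton ℂ (offY Z X))
  exact h1

theorem W_ac_Bl : W T {a, c} ≤ Bl a c Z X T := fun x hx =>
  subset_BL T _ (StarAlgebra.subset_adjoin ℂ _ (Or.inl hx))

theorem Bs_Bl : Bs a Z V X T ≤ Bl a c Z X T := by
  refine StarAlgebra.adjoin_le ?_
  rintro x (hx | hx)
  · exact h.W_ac_Bl (W_mono T (by intro x hx; simp at hx; simp [hx]) hx)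
  · rcases hx with rfl | hx
    · exact subset_BL T _ h.offY_adj
    · rw [Set.mem_singleton_iff] at hx
      subst hx
      exact h.V_Bl

theorem G1_star : ∀ g ∈ G1 a c Z X T, star g ∈ G1 a c Z X T := by
  rintro g (hg | hg)
  · exact Or.inl (star_mem hg)
  · rw [Set.mem_singleton_iff] at hg
    subst hg
    refine Or.inr ?_
    rw [Set.mem_singleton_iff, offX_eq, star_smul, h.Ysa]
    congr 1
    rw [RCLike.star_def, map_inv₀, Complex.conj_ofReal]

/-- the basic Schwinger-Dyson fact for the two coordinates of the diagonal part -/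
theorem sd_coo (i : Fin 4) (hi : h.F.c i 1 = 1) :
    SD T ({g | g ∈ Bl a c Z X T ∧ h.F.InQ g} ∪ {w | ∃ k, k ≠ i ∧ w = coo h.F (dgX Z X) k})
      (coo h.F (dgX Z X) i) := by
  have h1 := sdz_diag T (G := (W T {a, c} : Set A)) (X := X) (Z := Z)
    (W_mono T (by intro x hx; simp at hx; simp [hx]) h.Zmem) h.Zsa h.Z2 h.hX
  have h2 := SDZ.closure T (G' := (Bl a c Z X T : Set A)) h1 (fun g hg => hg) h.G1_star
  have h3 := pauli_SDZ T h.F (fun j => Or.inr ?_) 1 rfl h2 i hi
  · refine SD.mono ?_ h3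
    rintro g (⟨hg, hQ⟩ | hg)
    · exact Or.inl ⟨Or.inr hg, hQ⟩
    · exact Or.inr hg
  · exact h.f_mem _ (h.Bs_Bl h.Z_Bs) h.V_Bl j

/-! ### the data of the main theorem -/

/-- the coefficient set -/
noncomputable def S (h : Ctx T a b c Z V X C) : Set A :=
  {g | g ∈ Bs a Z V X T ∧ h.F.InQ g} ∪ {coo h.F (dgX Z X) 0}

omit h in
theorem dgX_mem (B : StarSubalgebra ℂ A) (hZ : Z ∈ B) (hX : X ∈ B) : dgX Z X ∈ B := by
  unfold dgX
  exact B.smul_mem (add_mem hX (mul_mem (mul_mem hZ hX) hZ)) _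

theorem dgXsa : star (dgX Z X) = dgX Z X := by
  unfold dgX
  rw [star_smul, star_add, star_mul, star_mul, h.Xsa, h.Zsa, ← mul_assoc]
  congr 1
  rw [RCLike.star_def, map_div₀, map_one, map_ofNat]

theorem S_inQ : ∀ s ∈ h.S, h.F.InQ s := by
  rintro s (hs | hs)
  · exact hs.2
  · rw [Set.mem_singleton_iff] at hs
    subst hs
    exact coo_inQ h.F _ _

theorem S_ab : h.S ⊆ W T {a, b} := by
  rintro s (hs | hs)
  · exact h.Bs_le hs.1
  · rw [Set.mem_singleton_iff] at hs
    subst hs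
    exact coo_mem h.F _ (h.f_mem _ h.Z_ab h.V_ab) (dgX_mem _ h.Z_ab h.X_ab) _

theorem S_star : ∀ s ∈ h.S, star s ∈ h.S := by
  rintro s (hs | hs)
  · exact Or.inl ⟨star_mem hs.1, h.F.inQ_star hs.2⟩
  · rw [Set.mem_singleton_iff] at hs
    subst hs
    refine Or.inr ?_
    rw [Set.mem_singleton_iff]
    exact coo_sa h.F h.dgXsa 0

/-- the targets -/
noncomputable def y (h : Ctx T a b c Z V X C) (j : Fin 4) : A := coo h.F C j

theorem y_Bl (j : Fin 4) : h.y j ∈ Bl a c Z X T := by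
  refine coo_mem h.F _ (h.f_mem _ (h.Bs_Bl h.Z_Bs) h.V_Bl) (h.W_ac_Bl ?_) _
  exact W_mono T (by intro x hx; simp at hx; simp [hx]) h.Cc

theorem sd_x : SD T (h.S ∪ Set.range h.y) (coo h.F (dgX Z X) 1) := by
  refine SD.mono ?_ (h.sd_coo 1 (by simp [F, PauliSys.pair, PauliSys.sign4]))
  rintro g ((hg | hg) | ⟨j, rfl⟩)
  · exact Or.inl ⟨h.Bs_Bl hg.1, hg.2⟩
  · exact Or.inr ⟨0, by decide, hg⟩
  · exact Or.inl ⟨h.y_Bl j, coo_inQ h.F _ _⟩

theorem Sy_star : ∀ s ∈ h.S ∪ Set.range h.y, star s ∈ h.S ∪ Set.range h.y := by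
  rintro s (hs | ⟨j, rfl⟩)
  · exact Or.inl (h.S_star s hs)
  · refine Or.inr ⟨j, ?_⟩
    exact (coo_sa h.F h.hC.1 j).symm

theorem sd_xW (hT : Amb T) :
    SD T ((W T h.S : Set A) ∪ Set.range h.y) (coo h.F (dgX Z X) 1) := by
  refine SD.mono ?_ (SD.toW hT h.Sy_star h.sd_x)
  rintro g (hg | hg)
  · exact W_mono T Set.subset_union_left hg
  · exact subset_W T _ (Or.inr hg)

theorem WS_inQ (hT : Amb T) {q : A} (hq : q ∈ W T h.S) : h.F.InQ q :=
  inQ_of_mem_W T h.F hT.faithful h.S_inQ hq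

theorem WS_ab {q : A} (hq : q ∈ W T h.S) : q ∈ W T {a, b} := W_le T h.S_ab hq

theorem sd_yW (hT : Amb T) (j : Fin 4) :
    SD T ((W T h.S : Set A) ∪ {coo h.F (dgX Z X) 1} ∪ {z | ∃ l, l ≠ j ∧ z = h.y l}) (h.y j) := by
  refine SD.mono ?_ (SD.coo T h.F (h.f_mem _ h.Z_ab h.V_ab) h.hC j)
  rintro g ((hg | hg) | ⟨l, hl, rfl⟩)
  · exact Or.inl ⟨h.WS_ab hg, h.WS_inQ hT hg⟩
  · rw [Set.mem_singleton_iff] at hg
    subst hg
    exact Or.inl ⟨coo_mem h.F _ (h.f_mem _ h.Z_ab h.V_ab) (dgX_mem _ h.Z_ab h.X_ab) _,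
      coo_inQ h.F _ _⟩
  · exact Or.inr ⟨l, hl, rfl⟩

/-! ### Haar unitary in the coefficients -/

/-- `e = (1 + Z)/2` -/
noncomputable def e (Z : A) : A := (1 / 2 : ℂ) • (1 + Z)

theorem ee : e Z * e Z = e Z := by
  unfold e
  rw [smul_mul_smul_comm]
  have : (1 + Z) * (1 + Z) = (2 : ℂ) • (1 + Z) := by
    rw [two_smul]
    calc (1 + Z) * (1 + Z) = 1 + Z + Z + Z * Z := by noncomm_ring
      _ = _ := by rw [h.Z2]; abel
  rw [this, smul_smul]; norm_num

theorem e_star : star (e Z) = e Z := by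
  unfold e
  rw [star_smul, star_add, star_one, h.Zsa]
  congr 1
  rw [RCLike.star_def, map_div₀, map_one, map_ofNat]

theorem VeV : V * e Z * V = 1 - e Z := by
  unfold e
  rw [mul_smul_comm, smul_mul_assoc]
  have h1 : V * (1 + Z) * V = 1 - Z := by
    calc V * (1 + Z) * V = V * V + (V * Z) * V := by noncomm_ring
      _ = V * V + -(Z * (V * V)) := by rw [h.VZ]; noncomm_ring
      _ = 1 - Z := by rw [h.V2]; noncomm_ring
  have h3 : (1 / 2 : ℂ) • (1 : A) + (1 / 2 : ℂ) • (1 : A) = 1 := by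
    rw [← add_smul]; norm_num
  rw [h1, smul_sub, smul_add, eq_sub_iff_add_eq]
  conv_rhs => rw [← h3]
  abel

theorem eVe : e Z * V * e Z = 0 := by
  have h1 : V * e Z = (1 - e Z) * V := by
    rw [← h.VeV, mul_assoc, h.V2, mul_one]
  rw [mul_assoc, h1, ← mul_assoc, mul_sub, mul_one, h.ee, sub_self, zero_mul]

theorem a_comm_Z (hT : Amb T) : a * Z = Z * a := by
  have h1 : Z ∈ StarSubalgebra.centralizer ℂ ({a} : Set A) := by
    refine W_le_centralizer T hT.faithful ?_ h.Zmem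
    intro z hz
    rw [Set.mem_singleton_iff] at hz
    subst hz
    rw [SetLike.mem_coe, StarSubalgebra.mem_centralizer_iff]
    intro g hg
    rw [Set.mem_singleton_iff] at hg
    subst hg
    exact ⟨rfl, by rw [(Unitary.mem_iff.1 h.ha).1, (Unitary.mem_iff.1 h.ha).2]⟩
  exact ((StarSubalgebra.mem_centralizer_iff ℂ).1 h1 _ rfl).1

theorem a_comm_e (hT : Amb T) : Commute a (e Z) := by
  unfold e
  have h1 : Commute a Z := h.a_comm_Z hT
  exact ((Commute.one_right a).add_right h1).smul_right _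

theorem star_a_comm_e (hT : Amb T) : Commute (star a) (e Z) := by
  have := (h.a_comm_e hT).star_star
  rwa [h.e_star] at this

/-- the Haar unitary `a² e + V a² e V` -/
noncomputable def hh (a Z V : A) : A := a ^ 2 * e Z + V * (a ^ 2 * e Z) * V

theorem hh_pow (hT : Amb T) (k : ℕ) (hk : 0 < k) :
    hh a Z V ^ k = a ^ (2 * k) * e Z + V * (a ^ (2 * k) * e Z) * V := by
  have hc : ∀ n : ℕ, e Z * a ^ n = a ^ n * e Z := fun n => ((h.a_comm_e hT).pow_left n).eq.symm
  induction k with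
  | zero => exact absurd hk (lt_irrefl 0)
  | succ k ih =>
    rcases Nat.eq_zero_or_pos k with rfl | hk'
    · simp [hh]
    · rw [pow_succ, ih hk']
      unfold hh
      have e1 : a ^ (2 * k) * e Z * (a ^ 2 * e Z) = a ^ (2 * (k + 1)) * e Z := by
        calc a ^ (2 * k) * e Z * (a ^ 2 * e Z) = a ^ (2 * k) * (e Z * a ^ 2) * e Z := by
              simp only [mul_assoc]
          _ = a ^ (2 * k) * a ^ 2 * (e Z * e Z) := by rw [hc]; simp only [mul_assoc]
          _ = _ := by rw [h.ee, ← pow_add]; ring_nf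
      have e2 : a ^ (2 * k) * e Z * (V * (a ^ 2 * e Z) * V) = 0 := by
        calc a ^ (2 * k) * e Z * (V * (a ^ 2 * e Z) * V)
            = a ^ (2 * k) * e Z * (V * (e Z * a ^ 2) * V) := by rw [hc]
          _ = a ^ (2 * k) * (e Z * V * e Z) * (a ^ 2 * V) := by simp only [mul_assoc]
          _ = 0 := by rw [h.eVe]; simp
      have e3 : V * (a ^ (2 * k) * e Z) * V * (a ^ 2 * e Z) = 0 := by
        calc V * (a ^ (2 * k) * e Z) * V * (a ^ 2 * e Z)
            = V * (a ^ (2 * k) * e Z) * V * (e Z * a ^ 2) := by rw [hc 2]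
          _ = V * a ^ (2 * k) * (e Z * V * e Z) * a ^ 2 := by simp only [mul_assoc]
          _ = 0 := by rw [h.eVe]; simp
      have e4 : V * (a ^ (2 * k) * e Z) * V * (V * (a ^ 2 * e Z) * V) =
          V * (a ^ (2 * (k + 1)) * e Z) * V := by
        calc V * (a ^ (2 * k) * e Z) * V * (V * (a ^ 2 * e Z) * V)
            = V * (a ^ (2 * k) * e Z) * (V * V) * (a ^ 2 * e Z) * V := by simp only [mul_assoc]
          _ = V * (a ^ (2 * k) * e Z * (a ^ 2 * e Z)) * V := by
              rw [h.V2, mul_one]; simp only [mul_assoc]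
          _ = _ := by rw [e1]
      rw [add_mul, mul_add, mul_add, e1, e2, e3, e4]
      abel

theorem tau_hh (hT : Amb T) (k : ℕ) (hk : 0 < k) : T.τ (hh a Z V ^ k) = 0 := by
  rw [h.hh_pow hT k hk, map_add]
  have e1 : T.τ (V * (a ^ (2 * k) * e Z) * V) = T.τ (a ^ (2 * k) * e Z) := by
    rw [T.tr, ← mul_assoc, h.V2, one_mul]
  have e2 : T.τ (a ^ (2 * k) * e Z) = 0 := by
    unfold e
    rw [mul_smul_comm, map_smul, mul_add, mul_one, map_add, h.a0 (2 * k) (by positivity),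
      T.tr, h.Za k]
    simp
  rw [e1, e2, add_zero]

theorem hh_unitary (hT : Amb T) : hh a Z V ∈ unitary A := by
  have hc : e Z * a ^ 2 = a ^ 2 * e Z := ((h.a_comm_e hT).pow_left 2).eq.symm
  have hc' : e Z * star a ^ 2 = star a ^ 2 * e Z := ((h.star_a_comm_e hT).pow_left 2).eq.symm
  have hst : star (hh a Z V) = star a ^ 2 * e Z + V * (star a ^ 2 * e Z) * V := by
    unfold hh
    simp only [star_add, star_mul, star_pow, h.e_star, h.Vsa, ← mul_assoc]
    rw [hc']
    simp only [mul_assoc]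
    rw [← mul_assoc (e Z), hc', mul_assoc]
  have ha1 : star a ^ 2 * a ^ 2 = 1 := by
    rw [pow_two, pow_two]
    calc star a * star a * (a * a) = star a * (star a * a) * a := by simp only [mul_assoc]
      _ = 1 := by rw [(Unitary.mem_iff.1 h.ha).1, mul_one, (Unitary.mem_iff.1 h.ha).1]
  have ha2 : a ^ 2 * star a ^ 2 = 1 := by
    rw [pow_two, pow_two]
    calc a * a * (star a * star a) = a * (a * star a) * star a := by simp only [mul_assoc]
      _ = 1 := by rw [(Unitary.mem_iff.1 h.ha).2, mul_one, (Unitary.mem_iff.1 h.ha).2]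
  have key : ∀ s t : A, s * t = 1 → e Z * s = s * e Z → e Z * t = t * e Z →
      (s * e Z + V * (s * e Z) * V) * (t * e Z + V * (t * e Z) * V) = 1 := by
    intro s t hst hs ht
    have e1 : s * e Z * (t * e Z) = e Z := by
      calc s * e Z * (t * e Z) = s * (e Z * t) * e Z := by simp only [mul_assoc]
        _ = (s * t) * (e Z * e Z) := by rw [ht]; simp only [mul_assoc]
        _ = _ := by rw [hst, h.ee, one_mul]
    have e2 : s * e Z * (V * (t * e Z) * V) = 0 := by
      calc s * e Z * (V * (t * e Z) * V) = s * e Z * (V * (e Z * t) * V) := by rw [ht]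
        _ = s * (e Z * V * e Z) * (t * V) := by simp only [mul_assoc]
        _ = 0 := by rw [h.eVe]; simp
    have e3 : V * (s * e Z) * V * (t * e Z) = 0 := by
      calc V * (s * e Z) * V * (t * e Z) = V * (s * e Z) * V * (e Z * t) := by rw [ht]
        _ = V * s * (e Z * V * e Z) * t := by simp only [mul_assoc]
        _ = 0 := by rw [h.eVe]; simp
    have e4 : V * (s * e Z) * V * (V * (t * e Z) * V) = 1 - e Z := by
      calc V * (s * e Z) * V * (V * (t * e Z) * V)
          = V * (s * e Z) * (V * V) * (t * e Z) * V := by simp only [mul_assoc]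
        _ = V * (s * e Z * (t * e Z)) * V := by rw [h.V2, mul_one]; simp only [mul_assoc]
        _ = _ := by rw [e1, h.VeV]
    rw [add_mul, mul_add, mul_add, e1, e2, e3, e4]
    abel
  rw [Unitary.mem_iff, hst]
  exact ⟨key _ _ ha1 hc' hc, key _ _ ha2 hc hc'⟩

theorem hh_Bs : hh a Z V ∈ Bs a Z V X T := by
  have he : e Z ∈ Bs a Z V X T := by
    unfold e
    exact (Bs a Z V X T).smul_mem (add_mem (one_mem _) h.Z_Bs) _
  unfold hh
  exact add_mem (mul_mem (pow_mem h.a_Bs 2) he)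
    (mul_mem (mul_mem h.V_Bs (mul_mem (pow_mem h.a_Bs 2) he)) h.V_Bs)

theorem hh_inQ (hT : Amb T) : h.F.InQ (hh a Z V) := by
  have hZe : Z * e Z = e Z * Z := by
    unfold e
    rw [mul_smul_comm, smul_mul_assoc, mul_add, add_mul, mul_one, one_mul]
  have hZa : Z * a ^ 2 = a ^ 2 * Z := by
    have h1 : Commute a Z := h.a_comm_Z hT
    exact (h1.pow_left 2).eq.symm
  have hZw : Z * (a ^ 2 * e Z) = a ^ 2 * e Z * Z := by
    rw [← mul_assoc, hZa, mul_assoc, hZe, mul_assoc]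
  refine h.inQ_of ?_ ?_
  · unfold hh
    rw [mul_add, add_mul, hZw]
    congr 1
    calc Z * (V * (a ^ 2 * e Z) * V) = (Z * V) * (a ^ 2 * e Z) * V := by simp only [mul_assoc]
      _ = -(V * (Z * (a ^ 2 * e Z)) * V) := by rw [h.ZV]; noncomm_ring
      _ = -(V * (a ^ 2 * e Z) * (Z * V)) := by rw [hZw]; noncomm_ring
      _ = V * (a ^ 2 * e Z) * V * Z := by rw [h.ZV]; noncomm_ring
  · unfold hh
    rw [mul_add, add_mul]
    have e1 : V * (V * (a ^ 2 * e Z) * V) = a ^ 2 * e Z * V := by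
      calc V * (V * (a ^ 2 * e Z) * V) = (V * V) * (a ^ 2 * e Z) * V := by simp only [mul_assoc]
        _ = _ := by rw [h.V2, one_mul]
    have e2 : V * (a ^ 2 * e Z) * V * V = V * (a ^ 2 * e Z) := by
      rw [mul_assoc _ V V, h.V2, mul_one]
    rw [e1, e2, add_comm]

theorem hh_S (hT : Amb T) : hh a Z V ∈ h.S := Or.inl ⟨h.hh_Bs, h.hh_inQ hT⟩

theorem exists_pairs (hT : Amb T) (hP : HasFreePauli T) :
    ∃ u v : ℕ → A, Pairs u v ∧ (∀ j, u j ∈ W T h.S) ∧ (∀ j, v j ∈ W T h.S) := by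
  have h1 : SD T ({hh a Z V, star (hh a Z V)} : Set A) (coo h.F (dgX Z X) 0) := by
    refine SD.mono ?_ (h.sd_coo 0 (by simp [F, PauliSys.pair, PauliSys.sign4]))
    rintro g (rfl | hg)
    · exact Or.inl ⟨h.Bs_Bl h.hh_Bs, h.hh_inQ hT⟩
    · rw [Set.mem_singleton_iff] at hg
      subst hg
      exact Or.inl ⟨h.Bs_Bl (star_mem h.hh_Bs), h.F.inQ_star (h.hh_inQ hT)⟩
  have hst : ∀ s ∈ ({hh a Z V, star (hh a Z V)} : Set A),
      star s ∈ ({hh a Z V, star (hh a Z V)} : Set A) := by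
    rintro s (rfl | hs)
    · exact Or.inr rfl
    · rw [Set.mem_singleton_iff] at hs
      subst hs
      rw [star_star]; exact Or.inl rfl
  have h2 := FreeHaar.closure T (SD.freeHaar T hT hst h1)
  have h3 : FreeHaar T (W T {hh a Z V} : Set A) (uu (coo h.F (dgX Z X) 0)) := by
    refine ⟨h2.1, fun L hL hG hA => h2.2 L hL (fun p hp => ?_) hA⟩
    exact W_mono T (by intro x hx; simp at hx; simp [hx]) (hG p hp)
  obtain ⟨u, v, huv, hu, hv⟩ := hP (hh a Z V) (uu (coo h.F (dgX Z X) 0)) (h.hh_unitary hT)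
    (h.tau_hh hT) h3
  have hle : W T {hh a Z V, uu (coo h.F (dgX Z X) 0)} ≤ W T h.S := by
    refine W_le T ?_
    rintro x (rfl | hx)
    · exact subset_W T _ (h.hh_S hT)
    · rw [Set.mem_singleton_iff] at hx
      subst hx
      refine W_mono T ?_ (uu_mem T h1.1)
      rw [Set.singleton_subset_iff]
      exact Or.inr rfl
  exact ⟨u, v, huv, fun j => hle (hu j), fun j => hle (hv j)⟩

/-! ### vanishing coordinates and generation -/

theorem E_conj (i : Fin 4) (x : A) : h.F.E (h.F.f i * x * h.F.f i) = h.F.E x := by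
  rw [mul_assoc, h.F.E_f_comm, mul_assoc, h.F.sq, mul_one]

theorem ZdZ : Z * dgX Z X * Z = dgX Z X := by
  unfold dgX
  rw [mul_smul_comm, smul_mul_assoc]
  congr 1
  calc Z * (X + Z * X * Z) * Z = Z * X * Z + (Z * Z) * X * (Z * Z) := by noncomm_ring
    _ = X + Z * X * Z := by rw [h.Z2]; noncomm_ring

theorem coo_zero_of (i : Fin 4) (hi : Z * h.F.f i * Z = - h.F.f i) :
    coo h.F (dgX Z X) i = 0 := by
  have h1 : h.F.E (h.F.f i * dgX Z X) = - h.F.E (h.F.f i * dgX Z X) := by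
    have h2 := h.E_conj 1 (h.F.f i * dgX Z X)
    have h3 : h.F.f 1 * (h.F.f i * dgX Z X) * h.F.f 1 = -(h.F.f i * dgX Z X) := by
      change Z * (h.F.f i * dgX Z X) * Z = _
      calc Z * (h.F.f i * dgX Z X) * Z = (Z * h.F.f i) * (Z * Z) * dgX Z X * Z := by
            rw [h.Z2, mul_one]; simp only [mul_assoc]
        _ = (Z * h.F.f i * Z) * (Z * dgX Z X * Z) := by simp only [mul_assoc]
        _ = _ := by rw [hi, h.ZdZ, neg_mul]
    rw [h3, h.F.E_neg] at h2
    exact h2.symm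
  have h4 : h.F.E (h.F.f i * dgX Z X) = 0 := by
    have h5 : (2 : ℂ) • h.F.E (h.F.f i * dgX Z X) = 0 := by
      rw [two_smul]
      nth_rewrite 1 [h1]
      exact neg_add_cancel _
    exact (smul_eq_zero.1 h5).resolve_left two_ne_zero
  unfold coo
  rw [h4, smul_zero]

theorem dgX_mem_of (B : StarSubalgebra ℂ A) (hZ : Z ∈ B) (hV : V ∈ B)
    (h0 : coo h.F (dgX Z X) 0 ∈ B) (h1 : coo h.F (dgX Z X) 1 ∈ B) : dgX Z X ∈ B := by
  refine mem_of_coo_mem h.F B (h.f_mem B hZ hV) fun i => ?_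
  fin_cases i
  · exact h0
  · exact h1
  · have : coo h.F (dgX Z X) 2 = 0 := by
      apply h.coo_zero_of
      change Z * V * Z = -V
      rw [h.ZV, neg_mul, mul_assoc, h.Z2, mul_one]
    change coo h.F (dgX Z X) 2 ∈ B
    rw [this]; exact zero_mem B
  · have : coo h.F (dgX Z X) 3 = 0 := by
      apply h.coo_zero_of
      change Z * (Complex.I • (Z * V)) * Z = -(Complex.I • (Z * V))
      rw [mul_smul_comm, smul_mul_assoc, ← smul_neg]
      congr 1
      calc Z * (Z * V) * Z = (Z * Z) * (V * Z) := by simp only [mul_assoc]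
        _ = -(Z * V) := by rw [h.Z2, one_mul, h.VZ]
    change coo h.F (dgX Z X) 3 ∈ B
    rw [this]; exact zero_mem B

/-- `R` -/
noncomputable def R (h : Ctx T a b c Z V X C) : StarSubalgebra ℂ A := pAlg h.F

theorem Z_R : Z ∈ h.R := StarAlgebra.subset_adjoin ℂ _ ⟨1, rfl⟩
theorem V_R : V ∈ h.R := StarAlgebra.subset_adjoin ℂ _ ⟨2, rfl⟩

/-- `a` is in the algebra of `R` and the coefficients -/
theorem a_RQ : a ∈ W T ((h.R : Set A) ∪ W T h.S) := by
  have hR : (h.R : Set A) ⊆ W T ((h.R : Set A) ∪ W T h.S) :=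
    Set.subset_union_left.trans (subset_W T _)
  have hQ : (W T h.S : Set A) ⊆ W T ((h.R : Set A) ∪ W T h.S) :=
    Set.subset_union_right.trans (subset_W T _)
  refine mem_of_coo_mem h.F _ (h.f_mem _ (hR h.Z_R) (hR h.V_R)) fun i => hQ (subset_W T _ ?_)
  refine Or.inl ⟨coo_mem h.F _ (h.f_mem _ h.Z_Bs h.V_Bs) h.a_Bs _, coo_inQ h.F _ _⟩

/-- any star subalgebra of the form `W T G` containing `R`, `S` and `x` contains `b` -/
theorem b_mem (hT : Amb T) {G : Set A} (hR : (h.R : Set A) ⊆ W T G) (hS : h.S ⊆ W T G)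
    (hx : coo h.F (dgX Z X) 1 ∈ W T G) : b ∈ W T G := by
  have hZ : Z ∈ W T G := hR h.Z_R
  have hV : V ∈ W T G := hR h.V_R
  have hVY : V * offY Z X ∈ W T G :=
    hS (Or.inl ⟨mul_mem h.V_Bs h.Y_Bs, h.VY_inQ hT⟩)
  have hY : offY Z X ∈ W T G := by
    have : offY Z X = V * (V * offY Z X) := by rw [← mul_assoc, h.V2, one_mul]
    rw [this]; exact mul_mem hV hVY
  have hX : X ∈ W T G := by
    rw [← off_add_dg Z X, offX_eq]
    exact add_mem ((W T G).smul_mem hY _) (h.dgX_mem_of _ hZ hV (hS (Or.inr rfl)) hx)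
  rw [← h.bX]
  exact W_le T (by rw [Set.singleton_subset_iff]; exact hX) (uu_mem T h.hX.1)

theorem data (hT : Amb T) {u v : ℕ → A} (huv : Pairs u v) (hu : ∀ j, u j ∈ W T h.S)
    (hv : ∀ j, v j ∈ W T h.S) :
    Data T h.R (W T h.S : Set A) u v (coo h.F (dgX Z X) 1) h.y where
  tens := pAlg_tensorPos T h.F
  star_mem q hq := star_mem (s := W T h.S) hq
  comm r hr q hq := pAlg_comm h.F hr (h.WS_inQ hT hq)
  pairs := huv
  u_mem := hu
  v_mem := hv
  comm_x r hr := pAlg_comm h.F hr (coo_inQ h.F _ _)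
  comm_y r hr j := pAlg_comm h.F hr (coo_inQ h.F _ _)
  sd_x := h.sd_xW hT
  sd_y j := h.sd_yW hT j
  gen := by
    intro z
    set G : Set A := (h.R : Set A) ∪ (W T h.S : Set A) ∪ {coo h.F (dgX Z X) 1} ∪ Set.range h.y
      with hG
    have hR : (h.R : Set A) ⊆ W T G := fun r hr => subset_W T _ (Or.inl (Or.inl (Or.inl hr)))
    have hQ : (W T h.S : Set A) ⊆ W T G := fun r hr =>
      subset_W T _ (Or.inl (Or.inl (Or.inr hr)))
    have hx : coo h.F (dgX Z X) 1 ∈ W T G := subset_W T _ (Or.inl (Or.inr rfl))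
    have hb : b ∈ W T G := h.b_mem hT hR ((subset_W T _).trans hQ) hx
    have ha : a ∈ W T G := by
      refine W_le T ?_ h.a_RQ
      rintro s (hs | hs)
      · exact hR hs
      · exact hQ hs
    have hC : C ∈ W T G := by
      refine mem_of_coo_mem h.F _ (h.f_mem _ (hR h.Z_R) (hR h.V_R)) fun i => ?_
      exact subset_W T _ (Or.inr ⟨i, rfl⟩)
    have hc : c ∈ W T G := by
      rw [← h.cC]
      exact W_le T (by rw [Set.singleton_subset_iff]; exact hC) (uu_mem T h.hC.1)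
    refine W_le T ?_ (h.gen z)
    rintro s (rfl | rfl | hs)
    · exact ha
    · exact hb
    · rw [Set.mem_singleton_iff] at hs
      subst hs
      exact hc

/-- the conclusion -/
theorem concl (hT : Amb T) (hP : HasFreePauli T)
    (hb : FreeHaar T (W T {a} : Set A) b) :
    ∃ b' : A, FreeHaar T (W T {a} : Set A) b' ∧ ∀ z, z ∈ W T {a, b'} := by
  obtain ⟨u, v, huv, hu, hv⟩ := h.exists_pairs hT hP
  have hD := h.data hT huv hu hv
  obtain ⟨x', α, -, -, hgen, hα, hfix, hlim⟩ :=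
    Limit.main_of_absorb' hT hD (absorb hT hD)
  have hfixW : ∀ n, ∀ z ∈ W T ((h.R : Set A) ∪ W T h.S), α n z = z := fun n z hz =>
    Pres.eq_on_W hT.faithful (hα n) (Pres.refl T) (fun s hs => hfix n s hs) hz
  have hfa : ∀ n, α n a = a := fun n => hfixW n a h.a_RQ
  -- the limit of `b`
  set G₀ : Set A := (h.R : Set A) ∪ (W T h.S : Set A) ∪ {coo h.F (dgX Z X) 1} with hG₀
  have hb₀ : b ∈ W T G₀ := by
    refine h.b_mem hT (fun r hr => subset_W T _ (Or.inl (Or.inl hr))) ?_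
      (subset_W T _ (Or.inr rfl))
    exact (subset_W T _).trans fun r hr => subset_W T _ (Or.inl (Or.inr hr))
  obtain ⟨b', -, hbb'⟩ := exists_lim hT hα (S := G₀)
    (S' := (h.R : Set A) ∪ (W T h.S : Set A) ∪ {x'}) (by
      rintro s ((hs | hs) | hs)
      · exact ⟨s, subset_W T _ (Or.inl (Or.inl hs)), Lim.of_fixes fun n => hfix n s (Or.inl hs)⟩
      · exact ⟨s, subset_W T _ (Or.inl (Or.inr hs)), Lim.of_fixes fun n => hfix n s (Or.inr hs)⟩
      · rw [Set.mem_singleton_iff] at hs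
        subst hs
        exact ⟨x', subset_W T _ (Or.inr rfl), hlim⟩) hb₀
  refine ⟨b', ?_, ?_⟩
  · refine FreeHaar.lim hT.faithful hα (fun n => ?_) hb hbb'
    intro z hz
    exact Pres.eq_on_W hT.faithful (hα n) (Pres.refl T) (fun s hs => by
      rw [Set.mem_singleton_iff] at hs
      subst hs
      exact hfa n) hz
  · -- every element of `W{a,b}` has a limit in `W{a,b'}`
    have hlimW : ∀ z ∈ W T {a, b}, ∃ z' ∈ W T {a, b'}, Lim T α z z' := by
      intro z hz
      refine exists_lim hT hα (S := {a, b}) ?_ hz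
      rintro s (rfl | hs)
      · exact ⟨s, subset_W T _ (Or.inl rfl), Lim.of_fixes hfa⟩
      · rw [Set.mem_singleton_iff] at hs
        subst hs
        exact ⟨b', subset_W T _ (Or.inr rfl), hbb'⟩
    have hfixed : ∀ z ∈ (h.R : Set A) ∪ (W T h.S : Set A), z ∈ W T {a, b} → z ∈ W T {a, b'} := by
      intro z hz hzab
      obtain ⟨z', hz', hl⟩ := hlimW z hzab
      have : z = z' := Lim.unique hT.faithful (Lim.of_fixes fun n => hfix n z hz) hl
      rw [this]; exact hz'
    have hR_ab : (h.R : Set A) ⊆ W T {a, b} := by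
      have : h.R ≤ W T {a, b} := StarAlgebra.adjoin_le (by
        rintro _ ⟨i, rfl⟩
        exact h.f_mem _ h.Z_ab h.V_ab i)
      exact this
    intro z
    refine W_le T ?_ (hgen z)
    rintro s ((hs | hs) | hs)
    · exact hfixed s (Or.inl hs) (hR_ab hs)
    · exact hfixed s (Or.inr hs) (h.WS_ab hs)
    · rw [Set.mem_singleton_iff] at hs
      subst hs
      obtain ⟨z', hz', hl⟩ := hlimW (coo h.F (dgX Z X) 1)
        (coo_mem h.F _ (h.f_mem _ h.Z_ab h.V_ab) (dgX_mem _ h.Z_ab h.X_ab) _)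
      have : s = z' := Lim.unique hT.faithful hlim hl
      rw [this]; exact hz'

end Ctx

/-- `a` is a Haar unitary free from the scalars -/
theorem freeHaar_empty (hT : Amb T) {a : A} (ha : a ∈ unitary A)
    (ha' : ∀ k : ℕ, 0 < k → T.τ (a ^ k) = 0) : FreeHaar T (W T (∅ : Set A) : Set A) a := by
  refine ⟨ha, ?_⟩
  have key : ∀ (L : List (Bool × A)) (b : Bool) (x : A), (∀ p ∈ (b, x) :: L, p.2 ∈ W T (∅ : Set A)) →
      Alt T ((b, x) :: L) → ∃ c : ℂ, word a ((b, x) :: L) = c • (sg a b) ^ (L.length + 1) := by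
    intro L
    induction L with
    | nil =>
      intro b x hx _
      have h1 : x = T.τ x • (1 : A) := mem_W_empty T hT.faithful (hx (b, x) (by simp))
      refine ⟨T.τ x, ?_⟩
      simp only [word, mul_one, List.length_nil, zero_add, pow_one]
      conv_lhs => rw [h1]
      rw [mul_smul_comm, mul_one]
    | cons q L ih =>
      obtain ⟨b', x'⟩ := q
      intro b x hx hA
      have h1 : x = T.τ x • (1 : A) := mem_W_empty T hT.faithful (hx (b, x) (by simp))
      rw [alt_cons] at hA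
      obtain ⟨c, hc⟩ := ih b' x' (fun p hp => hx p (List.mem_cons_of_mem _ hp)) hA.2
      have e : word a ((b, x) :: (b', x') :: L) = sg a b * x * word a ((b', x') :: L) := rfl
      by_cases hbb : b = b'
      · subst hbb
        refine ⟨T.τ x * c, ?_⟩
        rw [e, hc]
        conv_lhs => rw [h1]
        simp only [mul_smul_comm, smul_mul_assoc, mul_one, smul_smul, List.length_cons]
        rw [mul_comm c, pow_succ' (sg a b) (L.length + 1)]
      · have h0 : T.τ x = 0 := hA.1 b' (by simp) hbb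
        refine ⟨0, ?_⟩
        rw [e, h1, h0]
        simp
  intro L hL hG hA
  cases L with
  | nil => exact absurd rfl hL
  | cons p L =>
    obtain ⟨b, x⟩ := p
    obtain ⟨c, hc⟩ := key L b x hG hA
    rw [hc, map_smul]
    have h0 : T.τ ((sg a b) ^ (L.length + 1)) = 0 := by
      cases b
      · change T.τ ((star a) ^ (L.length + 1)) = 0
        rw [← star_pow, T.star', ha' _ (Nat.succ_pos _), map_zero]
      · exact ha' _ (Nat.succ_pos _)
    rw [h0, smul_zero]

theorem two_three (hT : Amb T) (hP : HasFreePauli T) {a b c : A}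
    (ha : a ∈ unitary A) (ha' : ∀ k : ℕ, 0 < k → T.τ (a ^ k) = 0)
    (hb : FreeHaar T (W T {a, c} : Set A) b) (hc : FreeHaar T (W T {a, b} : Set A) c)
    (hgen : ∀ z, z ∈ W T {a, b, c}) :
    ∃ b' : A, FreeHaar T (W T {a} : Set A) b' ∧ ∀ z, z ∈ W T {a, b'} := by
  have he := freeHaar_empty hT ha ha'
  obtain ⟨Xa, hXa, -, hua, hXaa⟩ := Conv.exists_semicircular hT he
  obtain ⟨Z, hZsa, hZ2, hZm, hZ0, -, -, -, hZa⟩ := Conv.exists_sign hT (fun s hs => star_mem hs) hXa
  rw [hua] at hZa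
  have hZmem : Z ∈ W T {a} := W_le T (Set.singleton_subset_iff.2 hXaa) hZm
  obtain ⟨X, hX, -, hub, hXb⟩ := Conv.exists_semicircular hT hb
  obtain ⟨C, hC, -, huc, hCc⟩ := Conv.exists_semicircular hT hc
  have hZac : Z ∈ (W T {a, c} : Set A) :=
    W_mono T (by intro x hx; simp at hx; simp [hx]) hZmem
  have hY : SD T (∅ : Set A) (offY Z X) := sd_off T hZac hZsa hZ2 hZ0 hX
  obtain ⟨V, hVsa, hV2, hVm, -, -, hVc, ⟨p, hp, hlim⟩, -⟩ :=
    Conv.exists_sign hT (fun s hs => absurd hs (Set.notMem_empty s)) hY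
  have hZu : Z ∈ unitary A := by
    rw [Unitary.mem_iff, hZsa.star_eq]
    exact ⟨hZ2, hZ2⟩
  have hZYZ : Z * offY Z X * star Z = - offY Z X := by
    rw [hZsa.star_eq]
    unfold offY
    rw [mul_smul_comm, smul_mul_assoc, ← smul_neg]
    congr 1
    calc Z * (X - Z * X * Z) * Z = Z * X * Z - (Z * Z) * X * (Z * Z) := by noncomm_ring
      _ = -(X - Z * X * Z) := by rw [hZ2]; noncomm_ring
  have hZVZ := hVc Z hZu hZYZ
  rw [hZsa.star_eq] at hZVZ
  have hVZ : V * Z = -(Z * V) := by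
    calc V * Z = (Z * Z) * V * Z := by rw [hZ2, one_mul]
      _ = Z * (Z * V * Z) := by simp only [mul_assoc]
      _ = -(Z * V) := by rw [hZVZ, mul_neg]
  have hctx : Ctx T a b c Z V X C :=
    { ha := ha
      a0 := ha'
      Zmem := hZmem
      Zsa := hZsa
      Z2 := hZ2
      Za := hZa
      hX := hX
      Xb := hXb
      bX := hub
      hC := hC
      Cc := hCc
      cC := huc
      Vsa := hVsa
      V2 := hV2
      VZ := hVZ
      VY := hVm
      lim := ⟨p, hp, hlim⟩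
      gen := hgen }
  refine hctx.concl hT hP ⟨hb.1, fun L hL hG hA => hb.2 L hL (fun q hq => ?_) hA⟩
  exact W_mono T (by intro x hx; simp at hx; simp [hx]) (hG q hq)

end Crest.Agent.R134
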