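import Crest.Agent.R134.Main
import Crest.Agent.R134.Conv

/-!
# R134 : the conclusion for `n ≥ 3` in the abstract frame
-/

set_option autoImplicit false

universe u

namespace Crest.Agent.R134

open Crest.Agent.R95 Filter Topology

variable {A : Type u} [CStarAlgebra A] (T : TracialState A)

/-- the scalars are in tensor position -/
theorem tensorPos_bot : TensorPos T ((⊥ : StarSubalgebra ℂ A) : Set A) := by
  intro r hr q _
  obtain ⟨c, rfl⟩ := StarSubalgebra.mem_bot.1 hr
  rw [Algebra.algebraMap_eq_smul_one, smul_mul_assoc, one_mul, map_smul, map_smul, T.one,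
    smul_eq_mul, smul_eq_mul, mul_one]

theorem comm_bot {r : A} (hr : r ∈ ((⊥ : StarSubalgebra ℂ A) : Set A)) (q : A) : r * q = q * r := by
  obtain ⟨c, rfl⟩ := StarSubalgebra.mem_bot.1 hr
  exact Algebra.commutes c q

/-- (n ≥ 3) the conclusion in the abstract frame: `S` = the first `n-1` generators. -/
theorem many (hT : Amb T) {S : Set A} {b c : A} (u v : ℕ → A) (huv : Pairs u v)
    (hu : ∀ j, u j ∈ W T S) (hv : ∀ j, v j ∈ W T S)
    (hb : FreeHaar T (W T (S ∪ {c}) : Set A) b) (hc : FreeHaar T (W T (S ∪ {b}) : Set A) c)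
    (hgen : ∀ z, z ∈ W T (S ∪ {b, c})) :
    ∃ b' : A, FreeHaar T (W T S : Set A) b' ∧ ∀ z, z ∈ W T (S ∪ {b'}) := by
  obtain ⟨X, hX, -, huX, hXW⟩ := Conv.exists_semicircular hT hb
  obtain ⟨Y, hY, -, huY, hYW⟩ := Conv.exists_semicircular hT hc
  have hSc : ((W T S : Set A) ∪ Set.range fun _ : Fin 1 => Y) ⊆ (W T (S ∪ {c}) : Set A) := by
    rintro z (hz | ⟨j, rfl⟩)
    · exact W_mono T Set.subset_union_left hz
    · exact W_mono T Set.subset_union_right hYW
  have hSb : ((W T S : Set A) ∪ {X}) ⊆ (W T (S ∪ {b}) : Set A) := by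
    rintro z (hz | hz)
    · exact W_mono T Set.subset_union_left hz
    · rw [Set.mem_singleton_iff] at hz
      subst hz
      exact W_mono T Set.subset_union_right hXW
  have hdata : Data (m := 1) T (⊥ : StarSubalgebra ℂ A) (W T S : Set A) u v X (fun _ => Y) :=
    { tens := tensorPos_bot T
      star_mem := fun q hq => star_mem hq
      comm := fun r hr q _ => comm_bot hr q
      pairs := huv
      u_mem := hu
      v_mem := hv
      comm_x := fun r hr => comm_bot hr X
      comm_y := fun r hr _ => comm_bot hr Y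
      sd_x := hX.mono hSc
      sd_y := fun j => hY.mono (by
        rintro z (hz | ⟨l, hl, rfl⟩)
        · exact hSb hz
        · exact absurd (Subsingleton.elim l j) hl)
      gen := fun z => by
        refine W_le T ?_ (hgen z)
        rintro z (hz | hz | hz)
        · exact subset_W T _ (Or.inl (Or.inl (Or.inr (subset_W T S hz))))
        · subst hz
          rw [← huX]
          refine W_mono T ?_ (uu_mem T hX.1)
          exact Set.singleton_subset_iff.2 (Or.inl (Or.inr rfl))
        · rw [Set.mem_singleton_iff] at hz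
          subst hz
          rw [← huY]
          refine W_mono T ?_ (uu_mem T hY.1)
          exact Set.singleton_subset_iff.2 (Or.inr ⟨0, rfl⟩) }
  obtain ⟨x', hx', -, hgen'⟩ := main T hT hdata
  have hst : ∀ q ∈ (W T S : Set A), star q ∈ (W T S : Set A) := fun q hq => star_mem hq
  refine ⟨uu x', ?_, fun z => ?_⟩
  · obtain ⟨h1, h2⟩ := SD.freeHaar T hT hst hx'
    exact ⟨h1, fun L hL hLG hA => h2 L hL (fun p hp => StarAlgebra.subset_adjoin ℂ _ (hLG p hp)) hA⟩
  · refine W_le T ?_ (hgen' z)
    rintro z ((hz | hz) | hz)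
    · obtain ⟨c', rfl⟩ := StarSubalgebra.mem_bot.1 hz
      exact (W T (S ∪ {uu x'})).algebraMap_mem c'
    · exact W_mono T Set.subset_union_left hz
    · rw [Set.mem_singleton_iff] at hz
      subst hz
      exact W_mono T Set.subset_union_right (SD.mem_W_uu T hT hst hx')

end Crest.Agent.R134
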