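import Mathlib
import Crest.Agent.R134.Defs

/-!
# R134: Schwinger-Dyson relation, formal version (helper403; internal to Cheb/Semi)

Everything is in the namespace `Crest.Agent.R134.Sm`; the official `SD` is the one of `Defs.lean`.

* `wd x l`  : evaluation of a word (letters `none` = `x`, `some g` = `g`)
* `sdr T x pre l` : `∑_{l = l₁ ++ none :: l₂} τ (pre * wd x l₁) * τ (wd x l₂)`
* `SDW T x G` : `τ (x * wd x l) = sdr T x 1 l` for all words with coefficient letters in `G`
* `ev x : FreeAlgebra ℂ (Option A) →ₐ A`, `D x : FreeAlgebra ℂ (Option A) → A ⊗ A` the free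
  difference quotient, `SDW.free` : `τ (x * ev x z) = tt T (D x z)`.
* `SDW_of_SD`, `SD_of_SDW` : equivalence with the official `SD T G x`.
-/

set_option autoImplicit false
set_option linter.unusedSectionVars false

namespace Crest.Agent.R134.Sm

open Crest.Agent.R95 TensorProduct

variable {A : Type*} [CStarAlgebra A] (T : TracialState A)

/-- value of a word: letters `none` stand for `x` -/
def wd (x : A) (l : List (Option A)) : A := (l.map (fun o => o.elim x id)).prod

@[simp] theorem wd_nil (x : A) : wd x [] = 1 := rfl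
@[simp] theorem wd_cons_none (x : A) (l : List (Option A)) : wd x (none :: l) = x * wd x l := by
  simp [wd]
@[simp] theorem wd_cons_some (x g : A) (l : List (Option A)) :
    wd x (some g :: l) = g * wd x l := by
  simp [wd]
theorem wd_append (x : A) (l l' : List (Option A)) : wd x (l ++ l') = wd x l * wd x l' := by
  simp [wd]

/-- `∑_{l = l₁ ++ none :: l₂} τ (pre * wd x l₁) * τ (wd x l₂)` -/
noncomputable def sdr (x : A) : A → List (Option A) → ℂ
  | _, [] => 0
  | pre, none :: l => T.τ pre * T.τ (wd x l) + sdr x (pre * x) l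
  | pre, some g :: l => sdr x (pre * g) l

@[simp] theorem sdr_nil (x pre : A) : sdr T x pre [] = 0 := by simp [sdr]
@[simp] theorem sdr_none (x pre : A) (l : List (Option A)) :
    sdr T x pre (none :: l) = T.τ pre * T.τ (wd x l) + sdr T x (pre * x) l := by simp [sdr]
@[simp] theorem sdr_some (x pre g : A) (l : List (Option A)) :
    sdr T x pre (some g :: l) = sdr T x (pre * g) l := by simp [sdr]

/-- **Schwinger-Dyson**, word form. -/
def SDW (x : A) (G : Set A) : Prop :=
  ∀ l : List (Option A), (∀ g, some g ∈ l → g ∈ G) → T.τ (x * wd x l) = sdr T x 1 l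

theorem SDW.mono {x : A} {G G' : Set A} (h : SDW T x G) (hG : G' ⊆ G) : SDW T x G' :=
  fun l hl => h l fun g hg => hG (hl g hg)

/-! ### The derivation form -/

/-- `(τ ⊗ τ) : A ⊗ A → ℂ` -/
noncomputable def tt : A ⊗[ℂ] A →ₗ[ℂ] ℂ :=
  TensorProduct.lift ((LinearMap.mul ℂ ℂ).compl₁₂ T.τ T.τ)

@[simp] theorem tt_tmul (a b : A) : tt T (a ⊗ₜ b) = T.τ a * T.τ b := by simp [tt]

/-- evaluation of formal polynomials -/
noncomputable def ev (x : A) : FreeAlgebra ℂ (Option A) →ₐ[ℂ] A :=
  FreeAlgebra.lift ℂ (fun o => o.elim x id)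

@[simp] theorem ev_none (x : A) : ev x (FreeAlgebra.ι ℂ none) = x := by simp [ev]
@[simp] theorem ev_some (x g : A) : ev x (FreeAlgebra.ι ℂ (some g)) = g := by simp [ev]

/-- auxiliary upper triangular matrices defining the derivation -/
noncomputable def Dmat (x : A) : FreeAlgebra ℂ (Option A) →ₐ[ℂ]
    Matrix (Fin 2) (Fin 2) (A ⊗[ℂ] A) :=
  FreeAlgebra.lift ℂ (fun o => o.elim
    !![x ⊗ₜ[ℂ] (1 : A), 1; 0, (1 : A) ⊗ₜ[ℂ] x]
    (fun g => !![g ⊗ₜ[ℂ] (1 : A), 0; 0, (1 : A) ⊗ₜ[ℂ] g]))

/-- the free difference quotient, evaluated: `D x z ∈ A ⊗ A` -/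
noncomputable def D (x : A) (z : FreeAlgebra ℂ (Option A)) : A ⊗[ℂ] A := Dmat x z 0 1

theorem D_add (x : A) (z w : FreeAlgebra ℂ (Option A)) : D x (z + w) = D x z + D x w := by
  simp [D]

theorem D_smul (x : A) (c : ℂ) (z : FreeAlgebra ℂ (Option A)) : D x (c • z) = c • D x z := by
  simp [D]

theorem D_sub (x : A) (z w : FreeAlgebra ℂ (Option A)) : D x (z - w) = D x z - D x w := by
  simp [D]

theorem D_algebraMap (x : A) (c : ℂ) :
    D x (algebraMap ℂ (FreeAlgebra ℂ (Option A)) c) = 0 := by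
  simp [D, Matrix.algebraMap_matrix_apply]

theorem D_one (x : A) : D x 1 = 0 := by
  simp [D]

@[simp] theorem D_none (x : A) : D x (FreeAlgebra.ι ℂ none) = 1 := by simp [D, Dmat]
@[simp] theorem D_some (x g : A) : D x (FreeAlgebra.ι ℂ (some g)) = 0 := by simp [D, Dmat]

theorem Dmat_spec (x : A) (z : FreeAlgebra ℂ (Option A)) :
    Dmat x z 0 0 = ev x z ⊗ₜ[ℂ] (1 : A) ∧ Dmat x z 1 1 = (1 : A) ⊗ₜ[ℂ] ev x z ∧
      Dmat x z 1 0 = 0 := by
  induction z using FreeAlgebra.induction with
  | grade0 r =>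
    rw [AlgHom.commutes, AlgHom.commutes]
    refine ⟨?_, ?_, ?_⟩
    · simp [Matrix.algebraMap_matrix_apply, Algebra.TensorProduct.algebraMap_apply]
    · rw [Matrix.algebraMap_matrix_apply, if_pos rfl, Algebra.TensorProduct.algebraMap_apply,
        Algebra.algebraMap_eq_smul_one]
      rw [TensorProduct.smul_tmul]
    · simp [Matrix.algebraMap_matrix_apply]
  | grade1 o =>
    cases o with
    | none => simp [Dmat, ev]
    | some g => simp [Dmat, ev]
  | mul a b ha hb =>
    obtain ⟨a1, a2, a3⟩ := ha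
    obtain ⟨b1, b2, b3⟩ := hb
    simp only [map_mul, Matrix.mul_apply, Fin.sum_univ_two, a1, a2, a3, b1, b2, b3]
    simp
  | add a b ha hb =>
    obtain ⟨a1, a2, a3⟩ := ha
    obtain ⟨b1, b2, b3⟩ := hb
    simp only [map_add, Matrix.add_apply, a1, a2, a3, b1, b2, b3]
    simp [TensorProduct.add_tmul, TensorProduct.tmul_add]

/-- Leibniz rule -/
theorem D_mul (x : A) (z w : FreeAlgebra ℂ (Option A)) :
    D x (z * w) = (ev x z ⊗ₜ[ℂ] (1 : A)) * D x w + D x z * ((1 : A) ⊗ₜ[ℂ] ev x w) := by
  have h1 := (Dmat_spec x z).1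
  have h2 := (Dmat_spec x w).2.1
  simp only [D, map_mul, Matrix.mul_apply, Fin.sum_univ_two, h1, h2]

/-- the formal word of a list -/
noncomputable def fw (l : List (Option A)) : FreeAlgebra ℂ (Option A) :=
  (l.map (FreeAlgebra.ι ℂ)).prod

@[simp] theorem fw_nil : fw ([] : List (Option A)) = 1 := rfl
@[simp] theorem fw_cons (o : Option A) (l : List (Option A)) :
    fw (o :: l) = FreeAlgebra.ι ℂ o * fw l := by simp [fw]

theorem ev_fw (x : A) (l : List (Option A)) : ev x (fw l) = wd x l := by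
  induction l with
  | nil => simp
  | cons o l ih => cases o <;> simp [ih]

theorem sdr_eq_tt (x : A) (l : List (Option A)) : ∀ pre : A,
    sdr T x pre l = tt T ((pre ⊗ₜ[ℂ] (1 : A)) * D x (fw l)) := by
  induction l with
  | nil => intro pre; simp [D_one]
  | cons o l ih =>
    intro pre
    cases o with
    | none =>
      rw [sdr_none, fw_cons, D_mul, D_none, ev_fw, ev_none, one_mul, mul_add, ← mul_assoc,
        map_add, ih, Algebra.TensorProduct.tmul_mul_tmul, one_mul, add_comm,
        Algebra.TensorProduct.tmul_mul_tmul, mul_one, one_mul, tt_tmul]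
    | some g =>
      rw [sdr_some, fw_cons, D_mul, D_some, zero_mul, add_zero, ev_some, ← mul_assoc, ih,
        Algebra.TensorProduct.tmul_mul_tmul, one_mul]

/-- formal polynomials with coefficients in `G` -/
def FPoly (G : Set A) : Submodule ℂ (FreeAlgebra ℂ (Option A)) :=
  Submodule.span ℂ {z | ∃ l : List (Option A), (∀ g, some g ∈ l → g ∈ G) ∧ z = fw l}

theorem fw_mem (G : Set A) {l : List (Option A)} (h : ∀ g, some g ∈ l → g ∈ G) : fw l ∈ FPoly G :=
  Submodule.subset_span ⟨l, h, rfl⟩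

theorem FPoly_mul {G : Set A} {z w : FreeAlgebra ℂ (Option A)} (hz : z ∈ FPoly G)
    (hw : w ∈ FPoly G) : z * w ∈ FPoly G := by
  unfold FPoly at *
  have := Submodule.mul_mem_mul hz hw
  rw [Submodule.span_mul_span] at this
  refine Submodule.span_mono ?_ this
  rintro _ ⟨_, ⟨l, hl, rfl⟩, _, ⟨l', hl', rfl⟩, rfl⟩
  refine ⟨l ++ l', ?_, by simp [fw]⟩
  intro g hg
  rcases List.mem_append.1 hg with h | h
  · exact hl g h
  · exact hl' g h

theorem FPoly_one (G : Set A) : (1 : FreeAlgebra ℂ (Option A)) ∈ FPoly G :=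
  Submodule.subset_span ⟨[], by simp, by simp⟩

theorem FPoly_none (G : Set A) : FreeAlgebra.ι ℂ (none : Option A) ∈ FPoly G :=
  Submodule.subset_span ⟨[none], by simp, by simp⟩

theorem FPoly_some {G : Set A} {g : A} (hg : g ∈ G) : FreeAlgebra.ι ℂ (some g) ∈ FPoly G :=
  Submodule.subset_span ⟨[some g], by simpa using hg, by simp⟩

variable {T}

/-- **SD in derivation form** -/
theorem SDW.free {x : A} {G : Set A} (h : SDW T x G) {z : FreeAlgebra ℂ (Option A)}
    (hz : z ∈ FPoly G) : T.τ (x * ev x z) = tt T (D x z) := by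
  induction hz using Submodule.span_induction with
  | mem z hz =>
    obtain ⟨l, hl, rfl⟩ := hz
    rw [ev_fw, h l hl, sdr_eq_tt, ← Algebra.TensorProduct.one_def, one_mul]
  | zero => simp [D]
  | add z w _ _ hz hw => simp only [map_add, mul_add, D_add, hz, hw]
  | smul c z _ hz => simp only [map_smul, mul_smul_comm, D_smul, hz]

theorem SDW.of_free {x : A} {G : Set A}
    (h : ∀ z ∈ FPoly G, T.τ (x * ev x z) = tt T (D x z)) : SDW T x G := by
  intro l hl
  have := h (fw l) (fw_mem G hl)
  rw [ev_fw] at this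
  rw [this, sdr_eq_tt, ← Algebra.TensorProduct.one_def, one_mul]

theorem FPoly_der {x : A} {G : Set A} {z : FreeAlgebra ℂ (Option A)} (hz : z ∈ FPoly G) :
    Der T G x (ev x z) (fun p q => tt T ((p ⊗ₜ[ℂ] (1 : A)) * D x z * ((1 : A) ⊗ₜ[ℂ] q))) := by
  induction hz using Submodule.span_induction with
  | mem z hz =>
    obtain ⟨l, hl, rfl⟩ := hz
    induction l with
    | nil =>
      simp only [fw_nil, map_one, D_one, mul_zero, zero_mul, map_zero]
      exact Der.one
    | cons o l ih =>
      have ih' := ih (fun g hg => hl g (by simp [hg]))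
      cases o with
      | none =>
        have := Der.mul (Der.var (T := T) (G := G) (X := x)) ih'
        rw [fw_cons, map_mul, ev_none]
        convert this using 3 with p q
        rw [D_mul, D_none, ev_none, one_mul, mul_add, add_mul, map_add, ← mul_assoc,
          Algebra.TensorProduct.tmul_mul_tmul, one_mul, Algebra.TensorProduct.tmul_mul_tmul,
          Algebra.TensorProduct.tmul_mul_tmul, tt_tmul]
        simp
      | some g =>
        have hg : g ∈ G := hl g (by simp)
        have := Der.mul (Der.coef (T := T) (X := x) hg) ih'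
        rw [fw_cons, map_mul, ev_some]
        convert this using 3 with p q
        rw [D_mul, D_some, ev_some, zero_mul, add_zero, ← mul_assoc,
          Algebra.TensorProduct.tmul_mul_tmul, one_mul, add_zero]
  | zero =>
    have := Der.smul 0 (Der.one (T := T) (G := G) (X := x))
    rw [zero_smul] at this
    convert this using 3 with p q <;> simp [D]
  | add z w _ _ hz hw =>
    rw [map_add]
    convert Der.add hz hw using 3 with p q
    rw [D_add, mul_add, add_mul, map_add]
  | smul c z _ hz =>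
    rw [map_smul]
    convert Der.smul c hz using 3 with p q
    rw [D_smul, mul_smul_comm, smul_mul_assoc, map_smul, smul_eq_mul]

theorem SDW_of_SD {x : A} {G : Set A} (h : SD T G x) : SDW T x G := by
  refine SDW.of_free fun z hz => ?_
  rw [h.2 _ _ (FPoly_der hz)]
  simp [← Algebra.TensorProduct.one_def]

theorem der_FPoly {x : A} {G : Set A} {w : A} {E : A → A → ℂ} (h : Der T G x w E) :
    ∃ z ∈ FPoly G, ev x z = w ∧
      ∀ p q, E p q = tt T ((p ⊗ₜ[ℂ] (1 : A)) * D x z * ((1 : A) ⊗ₜ[ℂ] q)) := by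
  induction h with
  | one => exact ⟨1, FPoly_one G, by simp, by simp [D_one]⟩
  | coef ha => exact ⟨_, FPoly_some ha, by simp, by simp⟩
  | var =>
    exact ⟨_, FPoly_none G, by simp, fun p q => by
      simp [Algebra.TensorProduct.tmul_mul_tmul]⟩
  | add _ _ ih1 ih2 =>
    obtain ⟨z, hz, e, f⟩ := ih1
    obtain ⟨z', hz', e', f'⟩ := ih2
    exact ⟨z + z', Submodule.add_mem _ hz hz', by rw [map_add, e, e'], fun p q => by
      beta_reduce
      rw [f, f', D_add, mul_add, add_mul, map_add]⟩
  | smul c _ ih =>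
    obtain ⟨z, hz, e, f⟩ := ih
    exact ⟨c • z, Submodule.smul_mem _ c hz, by rw [map_smul, e], fun p q => by
      beta_reduce
      rw [f, D_smul, mul_smul_comm, smul_mul_assoc, map_smul, smul_eq_mul]⟩
  | mul _ _ ih1 ih2 =>
    obtain ⟨z, hz, e, f⟩ := ih1
    obtain ⟨z', hz', e', f'⟩ := ih2
    refine ⟨z * z', FPoly_mul hz hz', by rw [map_mul, e, e'], fun p q => ?_⟩
    beta_reduce
    rw [f, f', D_mul, e, e', mul_add, add_mul, map_add, ← mul_assoc,
      Algebra.TensorProduct.tmul_mul_tmul, one_mul, mul_assoc _ _ ((1 : A) ⊗ₜ[ℂ] q),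
      mul_assoc _ _ ((1 : A) ⊗ₜ[ℂ] q), mul_assoc _ _ ((1 : A) ⊗ₜ[ℂ] q),
      Algebra.TensorProduct.tmul_mul_tmul, one_mul, mul_assoc]

theorem SD_of_SDW {x : A} {G : Set A} (hx : IsSelfAdjoint x) (h : SDW T x G) : SD T G x := by
  refine ⟨hx, fun w E hE => ?_⟩
  obtain ⟨z, hz, rfl, hf⟩ := der_FPoly hE
  rw [h.free hz, hf]
  simp [← Algebra.TensorProduct.one_def]

end Crest.Agent.R134.Sm
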