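import Crest.Agent.R134.Defs
import Crest.Agent.R95.Bridge

/-!
R134 (helper954): standard form of a finite von Neumann algebra (cyclic trace vector).
-/

set_option autoImplicit false

namespace Crest.Agent.R134

open Crest.Agent.R95

variable {H : Type*} [NormedAddCommGroup H] [InnerProductSpace ℂ H] [CompleteSpace H]

/-- the sequence `Ω, 0, 0, …` -/
def vec (Ω : H) : ℕ → H := fun n => if n = 0 then Ω else 0

/-- `M` is in standard form with cyclic (and separating) trace vector `Ω` -/
structure Std (M : VonNeumannAlgebra H) (Ω : H) : Prop where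
  ft : Crest.OpAlg.IsFaithfulTracialVectorState M (vec Ω)
  cyc : Dense {y : H | ∃ x ∈ M, x Ω = y}

/-- the tracial state of `M` -/
noncomputable abbrev Std.T {M : VonNeumannAlgebra H} {Ω : H} (h : Std M Ω) :
    TracialState M.toStarSubalgebra := vnTrace h.ft

end Crest.Agent.R134
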